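import Mathlib

open Filter Topology Module Metric MeasureTheory Measure Set

namespace Vale.Agent.P084

section InvFormAux

variable {V : Type*} [NormedAddCommGroup V] [NormedSpace ℝ V] [FiniteDimensional ℝ V]

/-- composition with a fixed continuous linear map, on the dual -/
noncomputable def invFormPull (M : V →L[ℝ] V) : (V →L[ℝ] ℝ) →ₗ[ℝ] (V →L[ℝ] ℝ) where
  toFun ψ := ψ.comp M
  map_add' _ _ := rfl
  map_smul' _ _ := rfl

omit [FiniteDimensional ℝ V] in
theorem invForm_pull_apply (M : V →L[ℝ] V) (ψ : V →L[ℝ] ℝ) (x : V) :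
    invFormPull M ψ x = ψ (M x) := rfl

theorem invForm_integrable [MeasurableSpace (V →L[ℝ] ℝ)] [BorelSpace (V →L[ℝ] ℝ)]
    (μ : Measure (V →L[ℝ] ℝ)) [μ.IsAddHaarMeasure] (x y : V) :
    IntegrableOn (fun ψ : V →L[ℝ] ℝ => ψ x * ψ y) (closedBall 0 1) μ := by
  have : ProperSpace (V →L[ℝ] ℝ) := FiniteDimensional.proper ℝ _
  refine ContinuousOn.integrableOn_compact (isCompact_closedBall _ _) ?_
  exact Continuous.continuousOn (by fun_prop)

/-- the invariant form -/
noncomputable def invFormQ [MeasurableSpace (V →L[ℝ] ℝ)] [BorelSpace (V →L[ℝ] ℝ)]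
    (μ : Measure (V →L[ℝ] ℝ)) [μ.IsAddHaarMeasure] : V →ₗ[ℝ] V →ₗ[ℝ] ℝ :=
  LinearMap.mk₂ ℝ (fun x y => ∫ ψ in closedBall (0 : V →L[ℝ] ℝ) 1, ψ x * ψ y ∂μ)
    (by
      intro x x' y
      rw [← integral_add (invForm_integrable μ x y) (invForm_integrable μ x' y)]
      simp [add_mul])
    (by
      intro c x y
      rw [smul_eq_mul, ← integral_const_mul]
      simp [mul_assoc])
    (by
      intro x y y'
      rw [← integral_add (invForm_integrable μ x y) (invForm_integrable μ x y')]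
      simp [mul_add])
    (by
      intro c x y
      rw [smul_eq_mul, ← integral_const_mul]
      congr 1
      funext ψ
      simp
      ring)

theorem invFormQ_apply [MeasurableSpace (V →L[ℝ] ℝ)] [BorelSpace (V →L[ℝ] ℝ)]
    (μ : Measure (V →L[ℝ] ℝ)) [μ.IsAddHaarMeasure] (x y : V) :
    invFormQ μ x y = ∫ ψ in closedBall (0 : V →L[ℝ] ℝ) 1, ψ x * ψ y ∂μ := rfl

theorem invFormQ_pos [MeasurableSpace (V →L[ℝ] ℝ)] [BorelSpace (V →L[ℝ] ℝ)]
    (μ : Measure (V →L[ℝ] ℝ)) [μ.IsAddHaarMeasure] {x : V} (hx : x ≠ 0) :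
    0 < invFormQ μ x x := by
  rw [invFormQ_apply]
  have hint : Integrable (fun ψ : V →L[ℝ] ℝ => ψ x * ψ x)
      (μ.restrict (closedBall (0 : V →L[ℝ] ℝ) 1)) := invForm_integrable μ x x
  rw [integral_pos_iff_support_of_nonneg (fun ψ => mul_self_nonneg _) hint]
  obtain ⟨g, hg1, hg2⟩ := exists_dual_vector ℝ x (norm_ne_zero_iff.mpr hx)
  have hopen : IsOpen ({ψ : V →L[ℝ] ℝ | ψ x ≠ 0} ∩ ball 0 1) := by
    refine IsOpen.inter ?_ isOpen_ball
    exact isOpen_ne_fun (by fun_prop) continuous_const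
  have hne : ({ψ : V →L[ℝ] ℝ | ψ x ≠ 0} ∩ ball 0 1).Nonempty := by
    refine ⟨(1 / 2 : ℝ) • g, ?_, ?_⟩
    · simp only [mem_ofPred_eq, _root_.smul_apply, hg2, smul_eq_mul]
      have := norm_pos_iff.mpr hx
      simp [hx]
    · rw [mem_ball_zero_iff, norm_smul, hg1]
      norm_num
  have hpos := hopen.measure_pos μ hne
  rw [Measure.restrict_apply' isClosed_closedBall.measurableSet]
  refine lt_of_lt_of_le hpos (measure_mono ?_)
  rintro ψ ⟨h1, h2⟩
  refine ⟨?_, ball_subset_closedBall h2⟩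
  simp only [Function.mem_support]
  exact mul_self_ne_zero.mpr h1

theorem invFormQ_le [MeasurableSpace (V →L[ℝ] ℝ)] [BorelSpace (V →L[ℝ] ℝ)]
    (μ : Measure (V →L[ℝ] ℝ)) [μ.IsAddHaarMeasure] (M : V →L[ℝ] V) (R : ℝ) (hR : 1 ≤ R)
    (h1 : ∀ u, ‖u‖ ≤ ‖M u‖) (h2 : ∀ u, ‖M u‖ ≤ R * ‖u‖) (x : V) :
    invFormQ μ (M x) (M x) ≤ R ^ (finrank ℝ (V →L[ℝ] ℝ) + 2) * invFormQ μ x x := by
  have hR0 : 0 < R := by linarith
  have hprop : ProperSpace (V →L[ℝ] ℝ) := FiniteDimensional.proper ℝ _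
  set K : Set (V →L[ℝ] ℝ) := closedBall 0 1 with hK
  have hKm : MeasurableSet K := isClosed_closedBall.measurableSet
  have hKpos : 0 < μ K := measure_closedBall_pos μ 0 one_pos
  have hKfin : μ K < ⊤ := measure_closedBall_lt_top
  -- the ball is contained in the image of the ball
  have hinj : Function.Injective (M : V →ₗ[ℝ] V) := by
    rw [injective_iff_map_eq_zero]
    intro u hu
    have h3 := h1 u
    have h4 : M u = 0 := hu
    rw [h4, norm_zero] at h3
    exact norm_le_zero_iff.mp h3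
  let e := (LinearEquiv.ofInjectiveEndo (M : V →ₗ[ℝ] V) hinj).toContinuousLinearEquiv
  have he : ∀ v, M (e.symm v) = v := fun v => e.apply_symm_apply v
  have hsub : K ⊆ invFormPull M '' K := by
    intro φ hφ
    refine ⟨φ.comp (e.symm : V →L[ℝ] V), ?_, ?_⟩
    · rw [hK, mem_closedBall_zero_iff] at hφ ⊢
      refine ContinuousLinearMap.opNorm_le_bound _ zero_le_one fun v => ?_
      rw [one_mul, ContinuousLinearMap.comp_apply]
      refine (φ.le_of_opNorm_le hφ _).trans ?_
      rw [one_mul]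
      have h3 := h1 (e.symm v)
      rw [he] at h3
      exact h3
    · ext v
      rw [invForm_pull_apply, ContinuousLinearMap.comp_apply]
      congr 1
      exact e.symm_apply_apply v
  have hdet1 : 1 ≤ |LinearMap.det (invFormPull M)| := by
    have h3 : μ K ≤ ENNReal.ofReal |LinearMap.det (invFormPull M)| * μ K := by
      rw [← addHaar_image_linearMap]
      exact measure_mono hsub
    by_contra hlt
    push Not at hlt
    have h4 : ENNReal.ofReal |LinearMap.det (invFormPull M)| < 1 := by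
      rw [← ENNReal.ofReal_one]
      exact (ENNReal.ofReal_lt_ofReal_iff one_pos).mpr hlt
    have h5 : ENNReal.ofReal |LinearMap.det (invFormPull M)| * μ K < 1 * μ K :=
      ENNReal.mul_lt_mul_left hKpos.ne' hKfin.ne h4
    rw [one_mul] at h5
    exact absurd h3 (not_le.mpr h5)
  -- the normalized map
  set B : (V →L[ℝ] ℝ) →ₗ[ℝ] (V →L[ℝ] ℝ) := R⁻¹ • invFormPull M with hB
  have hBK : ∀ ψ ∈ K, B ψ ∈ K := by
    intro ψ hψ
    rw [hK, mem_closedBall_zero_iff] at hψ ⊢
    refine ContinuousLinearMap.opNorm_le_bound _ zero_le_one fun v => ?_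
    rw [hB, LinearMap.smul_apply, _root_.smul_apply, invForm_pull_apply, norm_smul,
      norm_inv, Real.norm_of_nonneg hR0.le, one_mul, inv_mul_le_iff₀ hR0]
    refine (ψ.le_of_opNorm_le hψ _).trans ?_
    rw [one_mul]
    exact h2 v
  have hdetB : |LinearMap.det B| = (R⁻¹) ^ finrank ℝ (V →L[ℝ] ℝ) *
      |LinearMap.det (invFormPull M)| := by
    rw [hB, LinearMap.det_smul, abs_mul, abs_pow, abs_of_pos (inv_pos.mpr hR0)]
  have hdetBpos : 0 < |LinearMap.det B| := by
    rw [hdetB]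
    exact mul_pos (pow_pos (inv_pos.mpr hR0) _) (by linarith)
  have hdetB0 : LinearMap.det B ≠ 0 := abs_pos.mp hdetBpos
  have hBinv : |(LinearMap.det B)⁻¹| ≤ R ^ finrank ℝ (V →L[ℝ] ℝ) := by
    rw [abs_inv, inv_le_comm₀ hdetBpos (pow_pos hR0 _), ← inv_pow, hdetB]
    exact le_mul_of_one_le_right (pow_pos (inv_pos.mpr hR0) _).le hdet1
  -- change of variables
  set g : (V →L[ℝ] ℝ) → ℝ := K.indicator fun φ => φ x * φ x with hg
  have hgm : Measurable g := by
    refine Measurable.indicator ?_ hKm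
    exact Continuous.measurable (by fun_prop)
  have hgi : Integrable g μ := (integrable_indicator_iff hKm).mpr (invForm_integrable μ x x)
  have hg0 : ∀ φ, 0 ≤ g φ := fun φ => indicator_nonneg (fun _ _ => mul_self_nonneg _) φ
  have hBm : Measurable B := (LinearMap.continuous_of_finiteDimensional B).measurable
  have hmap := map_linearMap_addHaar_eq_smul_addHaar μ hdetB0
  have hcv : ∫ ψ, g (B ψ) ∂μ = |(LinearMap.det B)⁻¹| * ∫ φ, g φ ∂μ := by
    rw [← integral_map hBm.aemeasurable hgm.aestronglyMeasurable, hmap, integral_smul_measure,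
      ENNReal.toReal_ofReal (abs_nonneg _), smul_eq_mul]
  have hgB : Integrable (fun ψ => g (B ψ)) μ := by
    have h7 : Integrable g (Measure.map B μ) := by
      rw [hmap]
      exact hgi.smul_measure ENNReal.ofReal_ne_top
    exact h7.comp_measurable hBm
  have hQx : invFormQ μ x x = ∫ φ, g φ ∂μ := by
    rw [invFormQ_apply, hg, integral_indicator hKm]
  have hle : (R⁻¹) ^ 2 * invFormQ μ (M x) (M x) ≤ ∫ ψ, g (B ψ) ∂μ := by
    rw [invFormQ_apply, ← integral_const_mul, ← integral_indicator hKm]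
    refine integral_mono ?_ hgB fun ψ => ?_
    · rw [integrable_indicator_iff hKm]
      exact (invForm_integrable μ (M x) (M x)).const_mul _
    · by_cases hψ : ψ ∈ K
      · rw [indicator_of_mem hψ, hg, indicator_of_mem (hBK ψ hψ), hB]
        simp only [LinearMap.smul_apply, _root_.smul_apply, invForm_pull_apply,
          smul_eq_mul]
        apply le_of_eq
        ring
      · rw [indicator_of_notMem hψ]
        exact hg0 _
  rw [hcv, ← hQx] at hle
  have hQ0 : 0 ≤ invFormQ μ x x := by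
    rw [hQx]
    exact integral_nonneg hg0
  have hfin : (R⁻¹) ^ 2 * invFormQ μ (M x) (M x) ≤
      R ^ finrank ℝ (V →L[ℝ] ℝ) * invFormQ μ x x :=
    hle.trans (mul_le_mul_of_nonneg_right hBinv hQ0)
  have h6 := mul_le_mul_of_nonneg_left hfin (pow_pos hR0 2).le
  rw [← mul_assoc, ← mul_pow, mul_inv_cancel₀ hR0.ne', one_pow, one_mul, ← mul_assoc,
    ← pow_add, add_comm 2] at h6
  exact h6

end InvFormAux

theorem exists_invariant_form (V : Type*) [NormedAddCommGroup V] [NormedSpace ℝ V]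
    [FiniteDimensional ℝ V] :
    ∃ Q : V →ₗ[ℝ] V →ₗ[ℝ] ℝ, (∀ x y, Q x y = Q y x) ∧ (∀ x, x ≠ 0 → 0 < Q x x) ∧
      ∀ A : V →ₗ[ℝ] V, (∀ (u : V) (t : ℝ), ‖u‖ ≤ ‖u + t • A u‖) → ∀ x, Q (A x) x = 0 := by
  let _ : MeasurableSpace (V →L[ℝ] ℝ) := borel _
  have hB : BorelSpace (V →L[ℝ] ℝ) := ⟨rfl⟩
  have hsymm : ∀ x y, invFormQ (V := V) addHaar x y = invFormQ (V := V) addHaar y x := by
    intro x y
    rw [invFormQ_apply, invFormQ_apply]
    simp only [mul_comm]
  refine ⟨invFormQ (V := V) addHaar, hsymm, fun x hx => invFormQ_pos _ hx, ?_⟩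
  intro A hA x
  set Q := invFormQ (V := V) addHaar with hQ
  set A' : V →L[ℝ] V := LinearMap.toContinuousLinearMap A with hA'
  have hAA : ∀ v, A' v = A v := fun v => rfl
  set C : ℝ := ‖A'‖ ^ 2 with hC
  have hC0 : 0 ≤ C := sq_nonneg _
  set n := finrank ℝ (V →L[ℝ] ℝ) + 2 with hn
  have hbound : ∀ t : ℝ, Q (x + t • A x) (x + t • A x) ≤ (1 + C * t ^ 2) ^ n * Q x x := by
    intro t
    have h := invFormQ_le (V := V) addHaar (ContinuousLinearMap.id ℝ V + t • A') (1 + C * t ^ 2)
      (by nlinarith [sq_nonneg t]) (fun u => hA u t) (fun u => ?_) x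
    · exact h
    · have h3 := hA (u + t • A u) (-t)
      have h4 : u + t • A u + (-t) • A (u + t • A u) = u - t ^ 2 • A' (A' u) := by
        rw [map_add, map_smul, hAA, hAA, smul_add, smul_smul, sub_eq_add_neg, ← neg_smul,
          neg_smul t (A u), add_assoc, add_neg_cancel_left]
        congr 2
        ring
      rw [h4] at h3
      refine h3.trans ((norm_sub_le _ _).trans ?_)
      rw [norm_smul, Real.norm_of_nonneg (sq_nonneg t), add_mul, one_mul]
      have h5 : ‖A' (A' u)‖ ≤ C * ‖u‖ := by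
        refine (A'.le_opNorm _).trans ?_
        rw [hC, sq, mul_assoc]
        exact mul_le_mul_of_nonneg_left (A'.le_opNorm _) (norm_nonneg _)
      have h6 := mul_le_mul_of_nonneg_left h5 (sq_nonneg t)
      linarith
  set h : ℝ → ℝ := fun t => Q (x + t • A x) (x + t • A x) - (1 + C * t ^ 2) ^ n * Q x x with hh
  have hexp : ∀ t : ℝ, Q (x + t • A x) (x + t • A x) =
      Q x x + 2 * t * Q (A x) x + t ^ 2 * Q (A x) (A x) := by
    intro t
    simp only [map_add, map_smul, LinearMap.add_apply, LinearMap.smul_apply, smul_eq_mul]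
    rw [hsymm x (A x)]
    ring
  have hloc : IsLocalMax h 0 := by
    refine Eventually.of_forall fun t => ?_
    have h0 : h 0 = 0 := by simp [hh]
    rw [h0]
    have := hbound t
    simp only [hh]
    linarith
  have hder : HasDerivAt h (2 * Q (A x) x) 0 := by
    have e1 : h = fun t => (Q x x + 2 * t * Q (A x) x + t ^ 2 * Q (A x) (A x)) -
        (1 + C * t ^ 2) ^ n * Q x x := by
      funext t
      simp only [hh, hexp t]
    rw [e1]
    have d1 : HasDerivAt (fun t : ℝ => t ^ 2) 0 0 := by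
      simpa using hasDerivAt_pow 2 (0 : ℝ)
    have d2 : HasDerivAt (fun t : ℝ => 2 * t * Q (A x) x) (2 * Q (A x) x) 0 := by
      simpa using ((hasDerivAt_id (0 : ℝ)).const_mul 2).mul_const (Q (A x) x)
    have d3 : HasDerivAt (fun t : ℝ => (1 + C * t ^ 2) ^ n) 0 0 := by
      have := ((d1.const_mul C).const_add 1).fun_pow n
      simpa using this
    have d4 := (((d2.const_add (Q x x)).fun_add (d1.mul_const (Q (A x) (A x)))).fun_sub
      (d3.mul_const (Q x x)))
    simpa using d4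
  have h7 := hloc.hasDerivAt_eq_zero hder
  linarith

end Vale.Agent.P084
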