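import Mathlib
import Vale.Agent.Lib.P084F.InvForm
open Filter Topology Module Metric MeasureTheory Measure Set
open scoped InnerProductSpace

namespace Vale.Agent.P084

/-! ### auxiliary lemmas -/

/-- maximiser of a cubic form on the unit sphere of an inner product space -/
theorem AlgSD_eig_inner {V : Type*} [NormedAddCommGroup V] [InnerProductSpace ℝ V]
    [FiniteDimensional ℝ V] [Nontrivial V] (T : V → V → V →ₗ[ℝ] ℝ)
    (hT1 : ∀ u v w, T u v w = T v u w) (hT2 : ∀ u v w, T u v w = T u w v) :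
    ∃ e : V, ‖e‖ = 1 ∧ (∀ w, T e e w = T e e e * ⟪e, w⟫_ℝ) ∧
      (∀ v, ‖v‖ = 1 → T v v v ≤ T e e e) := by
  set P : V → ℝ := fun v => T v v v with hPdef
  have hl2 : ∀ u v w (s t : ℝ) (x : V), T u (s • v + t • w) x = s * T u v x + t * T u w x := by
    intro u v w s t x
    rw [hT2, map_add, map_smul, map_smul, hT2 u x v, hT2 u x w]
    rfl
  have hl1 : ∀ u v w (s t : ℝ) (x : V), T (s • v + t • w) u x = s * T v u x + t * T w u x := by
    intro u v w s t x
    rw [hT1, hl2, hT1 u v x, hT1 u w x]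
  have hPexp : ∀ (u v : V) (s t : ℝ), P (s • u + t • v)
      = s ^ 3 * P u + 3 * s ^ 2 * t * T u u v + 3 * s * t ^ 2 * T v v u + t ^ 3 * P v := by
    intro u v s t
    have h1 : T u v u = T u u v := hT2 _ _ _
    have h2 : T v u u = T u u v := by rw [hT1, hT2]
    have h3 : T u v v = T v v u := by rw [hT1, hT2]
    have h4 : T v u v = T v v u := hT2 _ _ _
    simp only [hPdef, hl1, hl2, map_add, map_smul, smul_eq_mul]
    rw [h1, h2, h3, h4]
    ring
  have hPcont : Continuous P := by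
    let b := Module.finBasis ℝ V
    have hrc : ∀ i, Continuous fun v => b.repr v i := by
      intro i
      exact (LinearMap.continuous_of_finiteDimensional (b.coord i))
    have hsum : ∀ (L : V →ₗ[ℝ] ℝ) (v : V), L v = ∑ i, b.repr v i * L (b i) := by
      intro L v
      conv_lhs => rw [← b.sum_repr v]
      rw [_root_.map_sum]
      apply Finset.sum_congr rfl
      intro i _
      rw [map_smul, smul_eq_mul]
    have h1 : ∀ a b' : V, Continuous fun v => T a b' v := fun a b' =>
      LinearMap.continuous_of_finiteDimensional (T a b')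
    have h2 : ∀ a : V, Continuous fun v => T a v v := by
      intro a
      have : (fun v => T a v v) = fun v => ∑ i, b.repr v i * T a (b i) v := by
        funext v
        rw [hsum (T a v) v]
        apply Finset.sum_congr rfl
        intro i _
        rw [hT2]
      rw [this]
      exact continuous_finsetSum _ fun i _ => (hrc i).mul (h1 a (b i))
    have h3 : P = fun v => ∑ i, b.repr v i * T (b i) v v := by
      funext v
      simp only [hPdef]
      rw [hsum (T v v) v]
      apply Finset.sum_congr rfl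
      intro i _
      rw [hT2 v v (b i), hT1 v (b i) v]
    rw [h3]
    exact continuous_finsetSum _ fun i _ => (hrc i).mul (h2 (b i))
  have hcomp : IsCompact (Metric.sphere (0 : V) 1) := isCompact_sphere 0 1
  have hnon : (Metric.sphere (0 : V) 1).Nonempty := NormedSpace.sphere_nonempty.mpr zero_le_one
  obtain ⟨e, he, hemax⟩ := hcomp.exists_isMaxOn hnon hPcont.continuousOn
  have hen : ‖e‖ = 1 := by simpa using he
  have hmax : ∀ v, ‖v‖ = 1 → P v ≤ P e := by
    intro v hv
    exact hemax (by simpa using hv)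
  refine ⟨e, hen, ?_, hmax⟩
  have hee : ⟪e, e⟫_ℝ = 1 := by rw [real_inner_self_eq_norm_sq, hen]; norm_num
  have hperp1 : ∀ v, ⟪e, v⟫_ℝ = 0 → ‖v‖ = 1 → T e e v = 0 := by
    intro v hev hv
    set f : ℝ → ℝ := fun t => P (Real.cos t • e + Real.sin t • v) with hf
    have hfmax : IsLocalMax f 0 := by
      refine Filter.Eventually.of_forall fun t => ?_
      have h0 : f 0 = P e := by simp [hf]
      rw [h0]
      apply hmax
      have hn : ‖Real.cos t • e + Real.sin t • v‖ ^ 2 = 1 := by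
        rw [← real_inner_self_eq_norm_sq]
        have hve : ⟪v, e⟫_ℝ = 0 := by rw [real_inner_comm]; exact hev
        have hvv : ⟪v, v⟫_ℝ = 1 := by rw [real_inner_self_eq_norm_sq, hv]; norm_num
        simp only [inner_add_left, inner_add_right, inner_smul_left, inner_smul_right,
          RCLike.conj_to_real, hee, hev, hve, hvv]
        have := Real.cos_sq_add_sin_sq t
        ring_nf
        linarith
      nlinarith [norm_nonneg (Real.cos t • e + Real.sin t • v)]
    have hfd : HasDerivAt f (3 * T e e v) 0 := by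
      have h1 : f = fun t => Real.cos t ^ 3 * P e + 3 * Real.cos t ^ 2 * Real.sin t * T e e v +
          3 * Real.cos t * Real.sin t ^ 2 * T v v e + Real.sin t ^ 3 * P v := by
        funext t
        rw [hf]
        exact hPexp e v _ _
      rw [h1]
      have hc := Real.hasDerivAt_cos 0
      have hs := Real.hasDerivAt_sin 0
      have h2 := ((((hc.pow 3).mul_const (P e)).add
        ((((hc.pow 2).const_mul 3).mul hs).mul_const (T e e v))).add
        (((hc.const_mul 3).mul (hs.pow 2)).mul_const (T v v e))).add ((hs.pow 3).mul_const (P v))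
      refine h2.congr_deriv ?_
      simp
    have := hfmax.hasDerivAt_eq_zero hfd
    linarith
  have hperp : ∀ v, ⟪e, v⟫_ℝ = 0 → T e e v = 0 := by
    intro v hv
    by_cases hv0 : v = 0
    · simp [hv0]
    · have hvn : 0 < ‖v‖ := norm_pos_iff.mpr hv0
      have h1 := hperp1 (‖v‖⁻¹ • v) (by rw [inner_smul_right, hv, mul_zero])
        (by simp [norm_smul, hvn.ne'])
      rw [map_smul, smul_eq_mul] at h1
      exact (mul_eq_zero.mp h1).resolve_left (inv_ne_zero hvn.ne')
  intro w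
  have h1 := hperp (w - ⟪e, w⟫_ℝ • e) (by
    rw [inner_sub_right, inner_smul_right, hee]; ring)
  rw [map_sub, map_smul, smul_eq_mul] at h1
  linarith

/-- the inner product core of a positive definite form -/
@[reducible] noncomputable def AlgSD_core {V : Type*} [AddCommGroup V] [Module ℝ V]
    (B : V →ₗ[ℝ] V →ₗ[ℝ] ℝ) (hBs : ∀ u v, B u v = B v u) (hBp : ∀ v, v ≠ 0 → 0 < B v v) :
    InnerProductSpace.Core ℝ V :=
  { inner := fun u v => B u v
    conj_inner_symm := fun x y => by simp [hBs x y]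
    re_inner_nonneg := fun x => by
      by_cases hx : x = 0
      · simp [hx]
      · exact (hBp x hx).le
    add_left := fun x y z => by simp
    smul_left := fun x y r => by simp
    definite := fun x hx => by
      by_contra hne
      exact (hBp x hne).ne' hx }

theorem AlgSD_eig_pos {V : Type*} [AddCommGroup V] [Module ℝ V] [FiniteDimensional ℝ V]
    [Nontrivial V]
    (B : V →ₗ[ℝ] V →ₗ[ℝ] ℝ) (hBs : ∀ u v, B u v = B v u) (hBp : ∀ v, v ≠ 0 → 0 < B v v)
    (T : V → V → V →ₗ[ℝ] ℝ)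
    (hT1 : ∀ u v w, T u v w = T v u w) (hT2 : ∀ u v w, T u v w = T u w v) :
    ∃ e : V, B e e = 1 ∧ (∀ w, T e e w = T e e e * B e w) ∧
      (∀ v, B v v = 1 → T v v v ≤ T e e e) := by
  let core := AlgSD_core B hBs hBp
  let _ : NormedAddCommGroup V := core.toNormedAddCommGroup
  let _ : InnerProductSpace ℝ V := InnerProductSpace.ofCore core.toCore
  have hin : ∀ x y : V, ⟪x, y⟫_ℝ = B x y := fun x y => rfl
  obtain ⟨e, h1, h2, h3⟩ := AlgSD_eig_inner T hT1 hT2
  refine ⟨e, ?_, ?_, ?_⟩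
  · rw [← hin, real_inner_self_eq_norm_sq, h1]; norm_num
  · intro w
    rw [← hin]
    exact h2 w
  · intro v hv
    apply h3
    rw [← hin, real_inner_self_eq_norm_sq] at hv
    nlinarith [norm_nonneg v]

theorem AlgSD_spec_pos {V : Type*} [AddCommGroup V] [Module ℝ V] [FiniteDimensional ℝ V]
    (B : V →ₗ[ℝ] V →ₗ[ℝ] ℝ) (hBs : ∀ u v, B u v = B v u) (hBp : ∀ v, v ≠ 0 → 0 < B v v)
    (S : V →ₗ[ℝ] V) (hS : ∀ u v, B (S u) v = B u (S v)) (hS0 : S ≠ 0) :
    ∃ (v : V) (μ : ℝ), v ≠ 0 ∧ μ ≠ 0 ∧ S v = μ • v := by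
  let core := AlgSD_core B hBs hBp
  let _ : NormedAddCommGroup V := core.toNormedAddCommGroup
  let _ : InnerProductSpace ℝ V := InnerProductSpace.ofCore core.toCore
  have hin : ∀ x y : V, ⟪x, y⟫_ℝ = B x y := fun x y => rfl
  have hsym : S.IsSymmetric := by
    intro x y
    rw [hin, hin, hS]
  by_contra hcon
  push Not at hcon
  apply hS0
  have hn : finrank ℝ V = finrank ℝ V := rfl
  apply (hsym.eigenvectorBasis hn).toBasis.ext
  intro i
  rw [OrthonormalBasis.coe_toBasis, hsym.apply_eigenvectorBasis hn i, LinearMap.zero_apply]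
  have hb0 : (hsym.eigenvectorBasis hn i) ≠ 0 := (hsym.eigenvectorBasis hn).orthonormal.ne_zero i
  have h2 : hsym.eigenvalues hn i = 0 := by
    by_contra hne
    exact hcon _ _ hb0 hne (by simpa using hsym.apply_eigenvectorBasis hn i)
  rw [h2]; simp

/-- Cauchy-Schwarz for a semidefinite form -/
theorem AlgSD_ker {V : Type*} [AddCommGroup V] [Module ℝ V]
    (B : V →ₗ[ℝ] V →ₗ[ℝ] ℝ) (hBs : ∀ u v, B u v = B v u) (hBp : ∀ v, 0 ≤ B v v)
    (k : V) (hk : B k k = 0) (v : V) : B k v = 0 := by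
  have h : ∀ t : ℝ, 0 ≤ B v v + 2 * t * B k v := by
    intro t
    have h1 := hBp (v + t • k)
    simp only [map_add, map_smul, LinearMap.add_apply, LinearMap.smul_apply, smul_eq_mul, hk,
      hBs v k] at h1
    linarith
  by_contra hne
  have h1 := h (-(B v v + 1) / (2 * B k v))
  have h2 : 2 * (-(B v v + 1) / (2 * B k v)) * B k v = -(B v v + 1) := by
    field_simp
  linarith

/-- the kernel of a semidefinite form -/
def AlgSD_K {V : Type*} [AddCommGroup V] [Module ℝ V]
    (B : V →ₗ[ℝ] V →ₗ[ℝ] ℝ) : Submodule ℝ V := LinearMap.ker B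

theorem AlgSD_mem_K {V : Type*} [AddCommGroup V] [Module ℝ V]
    (B : V →ₗ[ℝ] V →ₗ[ℝ] ℝ) (hBs : ∀ u v, B u v = B v u) (hBp : ∀ v, 0 ≤ B v v)
    (k : V) : k ∈ AlgSD_K B ↔ B k k = 0 := by
  unfold AlgSD_K
  rw [LinearMap.mem_ker]
  constructor
  · intro h
    rw [h]; rfl
  · intro h
    ext v
    exact AlgSD_ker B hBs hBp k h v

theorem AlgSD_eig {V : Type*} [AddCommGroup V] [Module ℝ V] [FiniteDimensional ℝ V]
    (B : V →ₗ[ℝ] V →ₗ[ℝ] ℝ) (hBs : ∀ u v, B u v = B v u) (hBp : ∀ v, 0 ≤ B v v)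
    (T : V → V → V →ₗ[ℝ] ℝ)
    (hT1 : ∀ u v w, T u v w = T v u w) (hT2 : ∀ u v w, T u v w = T u w v)
    (hT3 : ∀ u v k, B k k = 0 → T u v k = 0) (hne : ∃ v, B v v ≠ 0) :
    ∃ e : V, B e e = 1 ∧ (∀ w, T e e w = T e e e * B e w) ∧
      (∀ v, B v v = 1 → T v v v ≤ T e e e) := by
  obtain ⟨W, hW⟩ := Submodule.exists_isCompl (AlgSD_K B)
  have hdec : ∀ v, ∃ w ∈ W, ∃ k, B k k = 0 ∧ v = w + k := by
    intro v
    have : v ∈ AlgSD_K B ⊔ W := by rw [hW.sup_eq_top]; trivial
    obtain ⟨k, hk, w, hw, h⟩ := Submodule.mem_sup.1 this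
    exact ⟨w, hw, k, (AlgSD_mem_K B hBs hBp k).1 hk, by rw [← h, add_comm]⟩
  have hWp : ∀ w : W, w ≠ 0 → 0 < B w w := by
    intro w hw
    refine lt_of_le_of_ne (hBp _) fun h => hw ?_
    have h1 : (w : V) ∈ AlgSD_K B := (AlgSD_mem_K B hBs hBp _).2 h.symm
    have h2 : (w : V) ∈ AlgSD_K B ⊓ W := ⟨h1, w.2⟩
    rw [hW.inf_eq_bot, Submodule.mem_bot] at h2
    exact Subtype.ext h2
  have hWn : Nontrivial W := by
    obtain ⟨v, hv⟩ := hne
    obtain ⟨w, hw, k, hk, h⟩ := hdec v
    refine ⟨⟨⟨w, hw⟩, 0, fun h0 => hv ?_⟩⟩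
    have h1 : w = 0 := congrArg Subtype.val h0
    rw [h, h1, zero_add, hk]
  have hT3' : ∀ u v k, B k k = 0 → T u k v = 0 := fun u v k hk => by rw [hT2, hT3 u v k hk]
  have hT3'' : ∀ u v k, B k k = 0 → T k u v = 0 := fun u v k hk => by
    rw [hT1, hT3' u v k hk]
  obtain ⟨e, he1, he2, he3⟩ := AlgSD_eig_pos (B.domRestrict₁₂ W W)
    (fun u v => by simp [LinearMap.domRestrict₁₂_apply, hBs]) (fun w hw => by
      simpa [LinearMap.domRestrict₁₂_apply] using hWp w hw)
    (fun u v => (T u v) ∘ₗ W.subtype) (fun u v w => by simpa using hT1 _ _ _)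
    (fun u v w => by simpa using hT2 _ _ _)
  simp only [LinearMap.domRestrict₁₂_apply, LinearMap.comp_apply, Submodule.subtype_apply]
    at he1 he2 he3
  refine ⟨e, he1, ?_, ?_⟩
  · intro w
    obtain ⟨w', hw', k, hk, rfl⟩ := hdec w
    rw [map_add, map_add, hT3 _ _ _ hk, hBs _ k, AlgSD_ker B hBs hBp k hk, add_zero, add_zero]
    exact he2 ⟨w', hw'⟩
  · intro v hv
    obtain ⟨w', hw', k, hk, rfl⟩ := hdec v
    have hl : ∀ u v w x, T u (v + w) x = T u v x + T u w x := by
      intro u v w x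
      rw [hT2, map_add, hT2 u x v, hT2 u x w]
    have hl' : ∀ u v w x, T (v + w) u x = T v u x + T w u x := by
      intro u v w x
      rw [hT1, hl, hT1 u v x, hT1 u w x]
    have h1 : T (w' + k) (w' + k) (w' + k) = T w' w' w' := by
      simp only [map_add, hl, hl', hT3 _ _ _ hk, hT3' _ _ _ hk, hT3'' _ _ _ hk, add_zero]
    rw [h1]
    apply he3 ⟨w', hw'⟩
    have h2 : B (w' + k) (w' + k) = B w' w' := by
      simp only [map_add, LinearMap.add_apply, hBs _ k, AlgSD_ker B hBs hBp k hk, add_zero]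
    rw [← h2, hv]

theorem AlgSD_spec {V : Type*} [AddCommGroup V] [Module ℝ V] [FiniteDimensional ℝ V]
    (B : V →ₗ[ℝ] V →ₗ[ℝ] ℝ) (hBs : ∀ u v, B u v = B v u) (hBp : ∀ v, 0 ≤ B v v)
    (S : V →ₗ[ℝ] V) (hS : ∀ u v, B (S u) v = B u (S v)) (hS0 : ∃ v w, B (S v) w ≠ 0) :
    ∃ (v : V) (μ : ℝ), B v v ≠ 0 ∧ μ ≠ 0 ∧ ∀ w, B (S v) w = μ * B v w := by
  obtain ⟨W, hW⟩ := Submodule.exists_isCompl (AlgSD_K B)
  have hdec : ∀ v, ∃ w ∈ W, ∃ k, B k k = 0 ∧ v = w + k := by
    intro v
    have : v ∈ AlgSD_K B ⊔ W := by rw [hW.sup_eq_top]; trivial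
    obtain ⟨k, hk, w, hw, h⟩ := Submodule.mem_sup.1 this
    exact ⟨w, hw, k, (AlgSD_mem_K B hBs hBp k).1 hk, by rw [← h, add_comm]⟩
  have hWp : ∀ w : W, w ≠ 0 → 0 < B w w := by
    intro w hw
    refine lt_of_le_of_ne (hBp _) fun h => hw ?_
    have h1 : (w : V) ∈ AlgSD_K B := (AlgSD_mem_K B hBs hBp _).2 h.symm
    have h2 : (w : V) ∈ AlgSD_K B ⊓ W := ⟨h1, w.2⟩
    rw [hW.inf_eq_bot, Submodule.mem_bot] at h2
    exact Subtype.ext h2
  -- the projection on `W` along the kernel
  have hW' : IsCompl W (AlgSD_K B) := hW.symm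
  set π : V →ₗ[ℝ] W := Submodule.projectionOnto W (AlgSD_K B) hW' with hπ
  have hBπ : ∀ v x, B (π v : V) x = B v x := by
    intro v x
    obtain ⟨w, hw, k, hk, rfl⟩ := hdec v
    have h1 : π (w + k) = ⟨w, hw⟩ := by
      rw [map_add, hπ, Submodule.projectionOnto_apply_of_mem_left hW' hw,
        Submodule.projectionOnto_apply_of_mem_right hW' ((AlgSD_mem_K B hBs hBp k).2 hk), add_zero]
    rw [h1, map_add, LinearMap.add_apply, AlgSD_ker B hBs hBp k hk, add_zero]
  have hBπ' : ∀ v x, B x (π v : V) = B x v := by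
    intro v x
    rw [hBs, hBπ, hBs]
  set S' : W →ₗ[ℝ] W := π ∘ₗ S ∘ₗ W.subtype with hS'
  have hS'0 : S' ≠ 0 := by
    intro h0
    obtain ⟨v, w, hvw⟩ := hS0
    apply hvw
    obtain ⟨v', hv', k, hk, rfl⟩ := hdec v
    have h1 : B (S v') w = 0 := by
      rw [← hBπ]
      have : π (S v') = S' ⟨v', hv'⟩ := rfl
      rw [this, h0]
      simp
    rw [map_add, map_add, LinearMap.add_apply, h1, hS k w, AlgSD_ker B hBs hBp k hk, add_zero]
  obtain ⟨v, μ, hv, hμ, hSv⟩ := AlgSD_spec_pos (B.domRestrict₁₂ W W)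
    (fun u v => by simp [LinearMap.domRestrict₁₂_apply, hBs]) (fun w hw => by
      simpa [LinearMap.domRestrict₁₂_apply] using hWp w hw) S' (fun u v => by
      show B (π (S u) : V) (v : V) = B (u : V) (π (S v) : V)
      rw [hBπ, hBπ', hS]) hS'0
  refine ⟨v, μ, (hWp v hv).ne', hμ, fun w => ?_⟩
  have h1 : π (S v) = μ • v := hSv
  rw [← hBπ, h1]
  simp

/-- the line lemma -/
theorem AlgSD_line {V : Type*} [NormedAddCommGroup V] [NormedSpace ℝ V] (x d : V) (R : ℝ)
    (h : ∀ τ : ℝ, R ≤ τ → x + τ • d ≠ 0 → ∀ ψ : V →L[ℝ] ℝ, ‖ψ‖ ≤ 1 →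
      ψ (x + τ • d) = ‖x + τ • d‖ → ψ d = 0) : d = 0 := by
  by_contra hd
  have hdn : 0 < ‖d‖ := norm_pos_iff.2 hd
  have hgrow : ∀ M : ℝ, ∃ τ0 : ℝ, ∀ τ : ℝ, τ0 ≤ τ → M < ‖x + τ • d‖ := by
    intro M
    refine ⟨max 0 ((M + ‖x‖ + 1) / ‖d‖), fun τ hτ => ?_⟩
    have h0 : 0 ≤ τ := (le_max_left _ _).trans hτ
    have h1 : (M + ‖x‖ + 1) / ‖d‖ ≤ τ := (le_max_right _ _).trans hτ
    rw [div_le_iff₀ hdn] at h1
    have h2 : ‖τ • d‖ ≤ ‖x + τ • d‖ + ‖x‖ := by
      have := norm_sub_le (x + τ • d) x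
      simpa using this
    rw [norm_smul, Real.norm_of_nonneg h0] at h2
    linarith
  have hsup : ∀ τ : ℝ, R ≤ τ → x + τ • d ≠ 0 → ∀ τ' : ℝ, ‖x + τ • d‖ ≤ ‖x + τ' • d‖ := by
    intro τ hτ hne τ'
    obtain ⟨ψ, h1, h2⟩ := exists_dual_vector'' ℝ (x + τ • d)
    have h2' : ψ (x + τ • d) = ‖x + τ • d‖ := by simpa using h2
    have h3 := h τ hτ hne ψ h1 h2'
    have h4 : ψ (x + τ' • d) = ‖x + τ • d‖ := by
      rw [← h2', map_add, map_add, map_smul, map_smul, h3]
      simp
    rw [← h4]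
    calc ψ (x + τ' • d) ≤ ‖ψ (x + τ' • d)‖ := le_abs_self _
      _ ≤ ‖ψ‖ * ‖x + τ' • d‖ := ψ.le_opNorm _
      _ ≤ 1 * ‖x + τ' • d‖ := by gcongr
      _ = ‖x + τ' • d‖ := one_mul _
  obtain ⟨τ0, hτ0⟩ := hgrow 0
  set τ1 := max R τ0
  have h1 := hτ0 τ1 (le_max_right _ _)
  obtain ⟨τ2, hτ2⟩ := hgrow ‖x + τ1 • d‖
  have h2 := hτ2 (max R (max τ0 τ2)) ((le_max_right _ _).trans (le_max_right _ _))
  have h3 := hτ0 (max R (max τ0 τ2)) ((le_max_left _ _).trans (le_max_right _ _))
  have h4 := hsup (max R (max τ0 τ2)) (le_max_left _ _) (norm_pos_iff.1 h3) τ1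
  linarith

/-- a bilinear map that vanishes on orthogonal pairs is a multiple of the form -/
theorem AlgSD_orth {V : Type*} [AddCommGroup V] [Module ℝ V]
    (B : V →ₗ[ℝ] V →ₗ[ℝ] ℝ) (hBs : ∀ u v, B u v = B v u) (hBp : ∀ v, 0 ≤ B v v)
    (m : V →ₗ[ℝ] V →ₗ[ℝ] V) (hms : ∀ u v, m u v = m v u)
    (h : ∀ u s, B u s = 0 → m u s = 0) : ∃ z : V, ∀ u v, m u v = B u v • z := by
  by_cases hB : ∀ v, B v v = 0
  · refine ⟨0, fun u v => ?_⟩
    rw [smul_zero]
    apply h
    exact AlgSD_ker B hBs hBp u (hB u) v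
  push Not at hB
  obtain ⟨e, he⟩ := hB
  have hepos : 0 < B e e := lt_of_le_of_ne (hBp e) (Ne.symm he)
  set z := (B e e)⁻¹ • m e e with hz
  have hze : m e e = B e e • z := by rw [hz, smul_smul, mul_inv_cancel₀ he, one_smul]
  have hperp : ∀ w, B e w = 0 → m w w = B w w • z := by
    intro w hw
    rcases (hBp w).eq_or_lt with h0 | h0
    · rw [h w w h0.symm, ← h0, zero_smul]
    · set c := √(B e e / B w w) with hc
      have hc2 : c ^ 2 = B e e / B w w := Real.sq_sqrt (by positivity)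
      have h1 : B (e + c • w) (e - c • w) = 0 := by
        simp only [map_add, map_sub, map_smul, LinearMap.add_apply, LinearMap.smul_apply,
          smul_eq_mul, hw, hBs w e]
        have : c * (c * B w w) = B e e := by
          rw [← mul_assoc, ← sq, hc2]; field_simp
        linarith
      have h2 := h _ _ h1
      have h3 : m e w = 0 := h _ _ hw
      have h4 : m w e = 0 := by rw [hms, h3]
      simp only [map_add, map_sub, map_smul, LinearMap.add_apply, LinearMap.smul_apply, h3, h4,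
        smul_zero, zero_add, add_zero] at h2
      rw [smul_smul, ← sq, hc2] at h2
      have h5 : (B e e / B w w) • m w w = m e e := (sub_eq_zero.1 h2).symm
      have h6 : m w w = (B w w / B e e) • m e e := by
        rw [← h5, smul_smul]
        have : B w w / B e e * (B e e / B w w) = 1 := by field_simp
        rw [this, one_smul]
      rw [h6, hze, smul_smul]
      congr 1
      field_simp
  have hdiag : ∀ w, m w w = B w w • z := by
    intro w
    set α := B e w / B e e with hα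
    set w' := w - α • e with hw'
    have h1 : B e w' = 0 := by
      rw [hw', map_sub, map_smul, smul_eq_mul, hα]; field_simp; ring
    have h2 : w = α • e + w' := by rw [hw']; abel
    have h3 : m e w' = 0 := h _ _ h1
    have h4 : m w' e = 0 := by rw [hms, h3]
    have h5 : B w' e = 0 := by rw [hBs, h1]
    rw [h2]
    simp only [map_add, map_smul, LinearMap.add_apply, LinearMap.smul_apply, h3, h4, h1, h5,
      smul_zero, add_zero, zero_add, hperp w' h1, hze, smul_eq_mul, mul_zero]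
    module
  refine ⟨z, fun u v => ?_⟩
  have h1 := hdiag (u + v)
  simp only [map_add, LinearMap.add_apply, hdiag u, hdiag v, hms v u, hBs v u] at h1
  have h2 : (2 : ℝ) • m u v = (2 : ℝ) • (B u v • z) := by
    have h3 : B u u • z + m u v + (m u v + B v v • z) -
      (B u u • z + B v v • z) = (B u u + B u v + (B u v + B v v)) • z -
      (B u u • z + B v v • z) := by rw [h1]
    calc (2 : ℝ) • m u v = B u u • z + m u v + (m u v + B v v • z) -
      (B u u • z + B v v • z) := by module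
      _ = (B u u + B u v + (B u v + B v v)) • z - (B u u • z + B v v • z) := h3
      _ = (2 : ℝ) • (B u v • z) := by module
  exact smul_right_injective V (two_ne_zero) h2


/-- the kernel acts trivially -/
theorem AlgSD_kill {V : Type*} [NormedAddCommGroup V] [NormedSpace ℝ V]
    [FiniteDimensional ℝ V]
    (B : V →ₗ[ℝ] V →ₗ[ℝ] ℝ) (hBs : ∀ u v, B u v = B v u) (hBp : ∀ v, 0 ≤ B v v)
    (m : V →ₗ[ℝ] V →ₗ[ℝ] V) (hms : ∀ u v, m u v = m v u)
    (hmB : ∀ u v w, B (m u v) w = B u (m v w))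
    (H : ∀ u s, u ≠ 0 → B u s = 0 → ∀ ψ : V →L[ℝ] ℝ, ‖ψ‖ ≤ 1 → ψ u = ‖u‖ → ψ (m u s) = 0)
    (k : V) (hk : B k k = 0) (x : V) : m k x = 0 := by
  obtain ⟨Q, hQs, hQp, hQA⟩ := exists_invariant_form V
  have hA : ∀ k, B k k = 0 → ∀ x, Q (m k x) x = 0 := by
    intro k hk
    apply hQA (m k)
    intro u t
    by_cases hu : u = 0
    · rw [hu]; simp
    obtain ⟨ψ, h1, h2⟩ := exists_dual_vector'' ℝ u
    have h2' : ψ u = ‖u‖ := by simpa using h2
    have h3 := H u k hu (by rw [hBs]; exact AlgSD_ker B hBs hBp k hk u) ψ h1 h2'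
    have h4 : ψ (u + t • m k u) = ‖u‖ := by
      rw [map_add, map_smul, hms k u, h3, h2']; simp
    rw [← h4]
    calc ψ (u + t • m k u) ≤ ‖ψ (u + t • m k u)‖ := le_abs_self _
      _ ≤ ‖ψ‖ * ‖u + t • m k u‖ := ψ.le_opNorm _
      _ ≤ 1 * ‖u + t • m k u‖ := by gcongr
      _ = ‖u + t • m k u‖ := one_mul _
  have hanti : ∀ k, B k k = 0 → ∀ x y, Q (m k x) y = - Q x (m k y) := by
    intro k hk x y
    have h1 := hA k hk (x + y)
    simp only [map_add, LinearMap.add_apply, hA k hk x, hA k hk y] at h1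
    rw [hQs x (m k y)]
    linarith
  have hmem : ∀ k, B k k = 0 → ∀ x, B (m k x) (m k x) = 0 := by
    intro k hk x
    rw [hmB]
    exact AlgSD_ker B hBs hBp k hk _
  have hzero : ∀ v, Q v v = 0 → v = 0 := by
    intro v hv
    by_contra hne
    exact (hQp v hne).ne' hv
  -- on the kernel
  have hKK : ∀ k x, B k k = 0 → B x x = 0 → m k x = 0 := by
    intro k x hk hx
    have hc : ∀ x y k, B x x = 0 → B y y = 0 → B k k = 0 → Q (m k x) y = 0 := by
      intro x y k hx hy hk
      have a1 : Q (m k x) y = - Q (m k y) x := by rw [hanti k hk x y, hQs]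
      have a2 : Q (m k y) x = - Q (m y x) k := by
        rw [hms k y, hanti y hy k x, hQs]
      have a3 : Q (m y x) k = - Q (m x k) y := by
        rw [hms y x, hanti x hx y k, hQs]
      have a4 : Q (m x k) y = Q (m k x) y := by rw [hms]
      linarith
    exact hzero _ (hc x (m k x) k hx (hmem k hk x) hk)
  apply hzero
  rw [hanti k hk x (m k x), hKK k (m k x) hk (hmem k hk x)]
  simp

theorem algebra_semidef {V : Type*} [NormedAddCommGroup V] [NormedSpace ℝ V]
    [FiniteDimensional ℝ V]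
    (B : V →ₗ[ℝ] V →ₗ[ℝ] ℝ) (hBs : ∀ u v, B u v = B v u) (hBp : ∀ v, 0 ≤ B v v)
    (m : V →ₗ[ℝ] V →ₗ[ℝ] V) (hms : ∀ u v, m u v = m v u)
    (hmB : ∀ u v w, B (m u v) w = B u (m v w))
    (H : ∀ u s, u ≠ 0 → B u s = 0 → ∀ ψ : V →L[ℝ] ℝ, ‖ψ‖ ≤ 1 → ψ u = ‖u‖ → ψ (m u s) = 0) :
    ∃ z : V, ∀ u v, m u v = B u v • z := by
  have hkill := AlgSD_kill B hBs hBp m hms hmB H
  have hkill' : ∀ k, B k k = 0 → ∀ x, m x k = 0 := fun k hk x => by rw [hms, hkill k hk]
  have hker := AlgSD_ker B hBs hBp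
  have hker' : ∀ k, B k k = 0 → ∀ x, B x k = 0 := fun k hk x => by rw [hBs, hker k hk]
  have hT1 : ∀ u v w, B (m u v) w = B (m v u) w := fun u v w => by rw [hms]
  have hT2 : ∀ u v w, B (m u v) w = B (m u w) v := fun u v w => by
    rw [hmB, hms v w, ← hmB]
  by_cases hP : ∀ v, B (m v v) v = 0
  · -- the cubic form vanishes
    have hall : ∀ u v w, B (m u v) w = 0 := by
      have h1 : ∀ u v, B (m v v) u = 0 := by
        intro u v
        have e1 := hP (u + v)
        have e2 := hP (u - v)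
        simp only [map_add, map_sub, LinearMap.add_apply, LinearMap.sub_apply, hP u, hP v] at e1 e2
        have a1 : B (m u v) u = B (m u u) v := hT2 _ _ _
        have a2 : B (m v u) u = B (m u u) v := by rw [hms, a1]
        have a3 : B (m u v) v = B (m v v) u := by rw [hms, hT2]
        have a4 : B (m v u) v = B (m v v) u := hT2 _ _ _
        linarith
      intro u v w
      have e1 := h1 w (u + v)
      simp only [map_add, LinearMap.add_apply, h1] at e1
      have a1 : B (m v u) w = B (m u v) w := by rw [hms]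
      linarith
    apply AlgSD_orth B hBs hBp m hms
    intro u s hus
    apply AlgSD_line u (m u s) 0
    intro τ _ hne ψ h1 h2
    have hd : B (m u s) (m u s) = 0 := hall _ _ _
    have h3 := H (u + τ • m u s) s hne (by
      rw [map_add, map_smul, LinearMap.add_apply, LinearMap.smul_apply, hus, hall]; simp) ψ h1 h2
    rw [map_add, map_smul, LinearMap.add_apply, LinearMap.smul_apply, hkill _ hd, smul_zero,
      add_zero] at h3
    exact h3
  push Not at hP
  obtain ⟨v0, hv0⟩ := hP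
  obtain ⟨e0, he1, he2, he3⟩ := AlgSD_eig B hBs hBp (fun u v => B (m u v)) hT1 hT2
    (fun u v k hk => hker' k hk _) ⟨v0, fun h0 => hv0 (by
      rw [hkill v0 h0]; simp)⟩
  set lam := B (m e0 e0) e0 with hlam
  have hlampos : 0 < lam := by
    by_contra hl
    push Not at hl
    apply hv0
    rcases (hBp v0).eq_or_lt with h0 | h0
    · rw [hkill v0 h0.symm]; simp
    · have hs : 0 < √(B v0 v0) := Real.sqrt_pos.2 h0
      have hss : √(B v0 v0) * √(B v0 v0) = B v0 v0 := Real.mul_self_sqrt h0.le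
      have h1 := he3 ((√(B v0 v0))⁻¹ • v0) (by
        simp only [map_smul, LinearMap.smul_apply, smul_eq_mul]
        rw [← hss]; field_simp
        rw [Real.sqrt_sq hs.le])
      have h2 := he3 (-((√(B v0 v0))⁻¹ • v0)) (by
        simp only [map_neg, LinearMap.neg_apply, map_smul, LinearMap.smul_apply, smul_eq_mul, neg_neg]
        rw [← hss]; field_simp
        rw [Real.sqrt_sq hs.le])
      simp only [map_neg, LinearMap.neg_apply, map_smul, LinearMap.smul_apply, smul_eq_mul,
        neg_neg] at h1 h2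
      have h3 : (√(B v0 v0))⁻¹ * ((√(B v0 v0))⁻¹ * ((√(B v0 v0))⁻¹ * B (m v0 v0) v0)) = 0 := by
        linarith
      have hi : (√(B v0 v0))⁻¹ ≠ 0 := inv_ne_zero hs.ne'
      exact (((mul_eq_zero.1 h3).resolve_left hi |> mul_eq_zero.1).resolve_left hi |>
        mul_eq_zero.1).resolve_left hi
  -- correct `e`
  set k0 := m e0 e0 - lam • e0 with hk0
  have hk0K : B k0 k0 = 0 := by
    have : ∀ w, B k0 w = 0 := by
      intro w
      rw [hk0, map_sub, map_smul, LinearMap.sub_apply, LinearMap.smul_apply, he2 w, smul_eq_mul,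
        sub_self]
    exact this _
  set e := e0 + lam⁻¹ • k0 with he
  have hee : B e e = 1 := by
    rw [he]
    simp only [map_add, map_smul, LinearMap.add_apply, LinearMap.smul_apply, hker k0 hk0K,
      hker' k0 hk0K, he1, smul_zero, add_zero]
  have hmee : m e e = lam • e := by
    rw [he]
    simp only [map_add, map_smul, LinearMap.add_apply, LinearMap.smul_apply, hkill k0 hk0K,
      hkill' k0 hk0K, smul_zero, add_zero, smul_add, smul_smul]
    rw [mul_inv_cancel₀ hlampos.ne', one_smul, hk0]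
    abel
  clear_value e
  -- the eigenvector principle
  have hprinc : ∀ a v : V, ∀ μ : ℝ, v ≠ 0 → B a v = 0 → m a v = μ • v → μ = 0 := by
    intro a v μ hv hav hm
    obtain ⟨ψ, h1, h2⟩ := exists_dual_vector'' ℝ v
    have h2' : ψ v = ‖v‖ := by simpa using h2
    have h3 := H v a hv (by rw [hBs]; exact hav) ψ h1 h2'
    rw [hms v a, hm, map_smul, smul_eq_mul, h2'] at h3
    exact (mul_eq_zero.mp h3).resolve_right (norm_pos_iff.2 hv).ne'
  have hdec : ∀ w, B e (w - B e w • e) = 0 := by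
    intro w
    rw [map_sub, map_smul, hee]; simp
  have hinv : ∀ v, B e v = 0 → B e (m e v) = 0 := by
    intro v hv
    rw [← hmB, hmee, map_smul, LinearMap.smul_apply, hv, smul_zero]
  -- `m e v` is in the kernel for `v ⊥ e`
  have hmevK : ∀ v, B e v = 0 → B (m e v) (m e v) = 0 := by
    by_contra hcon
    push Not at hcon
    obtain ⟨v1, hv1, hv1'⟩ := hcon
    set W : Submodule ℝ V := LinearMap.ker (B e) with hW
    have hWmem : ∀ v, v ∈ W ↔ B e v = 0 := fun v => LinearMap.mem_ker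
    have hinvW : ∀ v ∈ W, m e v ∈ W := by
      intro v hv
      rw [hWmem] at hv ⊢
      exact hinv v hv
    obtain ⟨v, μ, hv, hμ, hSv⟩ := AlgSD_spec (B.domRestrict₁₂ W W)
      (fun u v => by simp [LinearMap.domRestrict₁₂_apply, hBs])
      (fun w => by simpa [LinearMap.domRestrict₁₂_apply] using hBp w)
      ((m e).restrict hinvW) (fun u v => by
        show B (m e u) (v : V) = B (u : V) (m e v)
        rw [hms e u, hmB]) ⟨⟨v1, (hWmem v1).2 hv1⟩, ⟨m e v1, (hWmem _).2 (hinv v1 hv1)⟩, hv1'⟩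
    have hSv' : ∀ w : W, B (m e v) w = μ * B v w := hSv
    have hBv : B (v : V) (v : V) ≠ 0 := hv
    have hve : B e v = 0 := (hWmem _).1 v.2
    have hall : ∀ w, B (m e v - μ • (v : V)) w = 0 := by
      intro w
      have h1 := hSv' ⟨w - B e w • e, (hWmem _).2 (hdec w)⟩
      simp only [map_sub, map_smul, smul_eq_mul] at h1
      rw [hBs (m e v) e, hinv _ hve, hBs v e, hve] at h1
      rw [map_sub, map_smul, LinearMap.sub_apply, LinearMap.smul_apply, smul_eq_mul]
      linarith
    set k := m e v - μ • (v : V) with hk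
    have hkk : B k k = 0 := hall k
    apply hμ
    refine hprinc e ((v : V) + μ⁻¹ • k) μ ?_ ?_ ?_
    · intro h0
      apply hBv
      have h1 : (v : V) = -(μ⁻¹ • k) := eq_neg_of_add_eq_zero_left h0
      rw [h1]
      simp only [map_neg, LinearMap.neg_apply, map_smul, LinearMap.smul_apply, hkk, smul_zero,
        neg_zero]
    · rw [map_add, map_smul, hve, hker' k hkk]; simp
    · rw [map_add, map_smul, hkill' k hkk, smul_zero, add_zero, smul_add, smul_smul,
        mul_inv_cancel₀ hμ, one_smul, hk]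
      abel
  have hmev : ∀ v, B e v = 0 → m e v = 0 := by
    intro v hv
    have hK := hmevK v hv
    apply AlgSD_line v (m e v) 0
    intro τ _ hne ψ h1 h2
    have h3 := H (v + τ • m e v) e hne (by
      rw [map_add, map_smul, LinearMap.add_apply, LinearMap.smul_apply, hker _ hK, hBs v e, hv]
      simp) ψ h1 h2
    rw [map_add, map_smul, LinearMap.add_apply, LinearMap.smul_apply, hkill _ hK, smul_zero,
      add_zero, hms v e] at h3
    exact h3
  by_cases hrank : ∀ v, B e v = 0 → B v v = 0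
  · refine ⟨lam • e, fun u v => ?_⟩
    have hu := hrank _ (hdec u)
    have hv := hrank _ (hdec v)
    have hu' : u = B e u • e + (u - B e u • e) := by abel
    have hv' : v = B e v • e + (v - B e v • e) := by abel
    generalize u - B e u • e = ku at hu hu'
    generalize v - B e v • e = kv at hv hv'
    generalize B e u = α at hu'
    generalize B e v = β at hv'
    subst hu' hv'
    simp only [map_add, map_smul, LinearMap.add_apply, LinearMap.smul_apply, hkill ku hu,
      hkill' kv hv, hker ku hu, hker' kv hv, hmee, hee, smul_zero, add_zero, smul_eq_mul]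
    module
  exfalso
  push Not at hrank
  obtain ⟨v2, hv2, hv2'⟩ := hrank
  set W : Submodule ℝ V := LinearMap.ker (B e) with hW
  have hWmem : ∀ v, v ∈ W ↔ B e v = 0 := fun v => LinearMap.mem_ker
  obtain ⟨v1, h1, h2, -⟩ := AlgSD_eig (B.domRestrict₁₂ W W)
    (fun u v => by simp [LinearMap.domRestrict₁₂_apply, hBs])
    (fun w => by simpa [LinearMap.domRestrict₁₂_apply] using hBp w)
    (fun u v => (B (m u v)) ∘ₗ W.subtype) (fun u v w => hT1 _ _ _) (fun u v w => hT2 _ _ _)
    (fun u v k hk => hker' (k : V) hk _) ⟨⟨v2, (hWmem _).2 hv2⟩, hv2'⟩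
  have h1' : B (v1 : V) v1 = 1 := h1
  have hv1e : B e v1 = 0 := (hWmem _).1 v1.2
  obtain ⟨lam1, hlam1⟩ : ∃ lam1 : ℝ, ∀ w : W, B (m v1 v1) w = lam1 * B v1 w :=
    ⟨_, fun w => h2 w⟩
  set k1 := m v1 v1 - lam1 • (v1 : V) with hk1
  have hme1 : m e v1 = 0 := hmev _ hv1e
  have hm1e : m v1 e = 0 := by rw [hms, hme1]
  have hk1K : B k1 k1 = 0 := by
    have : ∀ w, B k1 w = 0 := by
      intro w
      have h1 := hlam1 ⟨w - B e w • e, (hWmem _).2 (hdec w)⟩
      simp only [map_sub, map_smul, smul_eq_mul] at h1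
      rw [hmB (v1 : V) v1 e, hm1e, hBs v1 e, hv1e] at h1
      rw [hk1, map_sub, map_smul, LinearMap.sub_apply, LinearMap.smul_apply, smul_eq_mul]
      simp only [map_zero, mul_zero, sub_zero] at h1
      linarith
    exact this _
  set d := lam • e - m v1 v1 with hd
  have hdne : d ≠ 0 := by
    intro h0
    have h3 : B e d = 0 := by rw [h0, map_zero]
    rw [hd, map_sub, map_smul, hee, ← hmB, hme1] at h3
    simp only [map_zero, LinearMap.zero_apply, sub_zero, smul_eq_mul, mul_one] at h3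
    exact hlampos.ne' h3
  apply hdne
  apply AlgSD_line (v1 : V) d (1 + |lam1⁻¹|)
  intro τ hτ hne ψ hψ1 hψ2
  have hτ0 : 0 < τ := by
    have := abs_nonneg lam1⁻¹
    linarith
  have ht : 1 - τ * lam1 ≠ 0 := by
    intro h0
    have hl : lam1 ≠ 0 := by
      rintro h
      rw [h] at h0
      norm_num at h0
    have h3 : τ = lam1⁻¹ := by
      field_simp
      linarith
    have h4 := le_abs_self lam1⁻¹
    linarith
  have hu : (v1 : V) + τ • d = (τ * lam) • e + (1 - τ * lam1) • (v1 : V) + (-τ) • k1 := by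
    rw [hd, hk1]; module
  have hBus : B ((v1 : V) + τ • d) ((1 - τ * lam1) • e - (τ * lam) • (v1 : V)) = 0 := by
    rw [hu]
    simp only [map_add, map_sub, map_smul, LinearMap.add_apply, LinearMap.smul_apply, hee, hv1e,
      hBs v1 e, h1', hker k1 hk1K, smul_eq_mul]
    ring
  have h3 := H _ _ hne hBus ψ hψ1 hψ2
  have h4 : m ((v1 : V) + τ • d) ((1 - τ * lam1) • e - (τ * lam) • (v1 : V)) =
      ((τ * lam) * (1 - τ * lam1)) • d := by
    rw [hu]
    simp only [map_add, map_sub, map_smul, LinearMap.add_apply, LinearMap.smul_apply, hmee, hme1,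
      hm1e, hkill k1 hk1K, hd]
    module
  rw [h4, map_smul, smul_eq_mul] at h3
  exact (mul_eq_zero.1 h3).resolve_left (mul_ne_zero (mul_ne_zero hτ0.ne' hlampos.ne') ht)

end Vale.Agent.P084
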