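import Mathlib
import Vale.Agent.Lib.P084.Meas

open Filter Topology Module Metric MeasureTheory Measure

namespace Vale.Agent.P084

/-- strictness in the triangle inequality for the pair `a, b` -/
def Om {E : Type*} [NormedAddCommGroup E] (a b : E) : Prop := ‖a + b‖ < ‖a‖ + ‖b‖

/-- the open convex cone of directions `y` such that the norm decreases at a linear rate from
`z` in the direction `-y` -/
def Dir {E : Type*} [NormedAddCommGroup E] [NormedSpace ℝ E] (z : E) : Set E :=
  {y | ∃ t : ℝ, 0 < t ∧ ‖z - t • y‖ < ‖z‖}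

/-- the defect in the first order identity -/
noncomputable def kap {X Y : Type*} [NormedAddCommGroup X] [NormedSpace ℝ X]
    [NormedAddCommGroup Y] [NormedSpace ℝ Y] (T : X → Y) (a b : X) : ℝ :=
  dN (Wv (T a) (T b)) (T a) - dN (Wv a b) a

/-- degenerate points of a sphere isometry -/
def Deg {X Y : Type*} [NormedAddCommGroup X] [NormedSpace ℝ X] [MeasurableSpace X] [BorelSpace X]
    [NormedAddCommGroup Y] [NormedSpace ℝ Y] (T : X → Y) (x : X) : Prop :=
  ∃ w : Y, ∀ᵐ b ∂(vol X), Om x b → dN (Wv (T x) (T b)) w = kap T x b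

end Vale.Agent.P084
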