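import Mathlib
import Vale.Agent.Lib.P084F.Defs

open Filter Topology Module Metric MeasureTheory Measure
open scoped NNReal ENNReal

namespace Vale.Agent.P084

section basic

variable {E : Type*} [NormedAddCommGroup E] [NormedSpace ℝ E]

theorem Om.symm {a b : E} (h : Om a b) : Om b a := by
  unfold Om at *
  rw [add_comm b a, add_comm ‖b‖]; exact h

theorem Om.ne_left {a b : E} (h : Om a b) : a ≠ 0 := by
  rintro rfl
  simp [Om] at h

theorem Om.ne_right {a b : E} (h : Om a b) : b ≠ 0 := h.symm.ne_left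

theorem Om.smul_right_aux {a b : E} (h : Om a b) {s : ℝ} (hs : 1 ≤ s) : Om a (s • b) := by
  unfold Om at *
  have h1 : a + s • b = (a + b) + (s - 1) • b := by module
  rw [h1, norm_smul, Real.norm_of_nonneg (by linarith : 0 ≤ s)]
  have h2 := norm_add_le (a + b) ((s - 1) • b)
  rw [norm_smul, Real.norm_of_nonneg (by linarith : 0 ≤ s - 1)] at h2
  linarith

theorem Om.smul_both {a b : E} (h : Om a b) {s : ℝ} (hs : 0 < s) : Om (s • a) (s • b) := by
  unfold Om at *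
  rw [← smul_add, norm_smul, norm_smul, norm_smul, Real.norm_of_nonneg hs.le, ← mul_add]
  exact mul_lt_mul_of_pos_left h hs

theorem Om.smul_right {a b : E} (h : Om a b) {s : ℝ} (hs : 0 < s) : Om a (s • b) := by
  rcases le_total 1 s with h1 | h1
  · exact h.smul_right_aux h1
  · have h2 : Om (s⁻¹ • a) b := by
      have := (h.symm.smul_right_aux (one_le_inv₀ hs |>.mpr h1)).symm
      exact this
    have h3 := h2.smul_both hs
    rwa [smul_smul, mul_inv_cancel₀ hs.ne', one_smul] at h3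

theorem Om.smul_left {a b : E} (h : Om a b) {s : ℝ} (hs : 0 < s) : Om (s • a) b :=
  (h.symm.smul_right hs).symm

theorem Om_smul_right_iff {a b : E} {s : ℝ} (hs : 0 < s) : Om a (s • b) ↔ Om a b := by
  constructor
  · intro h
    have := h.smul_right (inv_pos.mpr hs)
    rwa [smul_smul, inv_mul_cancel₀ hs.ne', one_smul] at this
  · intro h
    exact h.smul_right hs

theorem isOpen_Om : IsOpen {p : E × E | Om p.1 p.2} := by
  apply isOpen_lt <;> fun_prop

theorem isOpen_Om_right (a : E) : IsOpen {b : E | Om a b} := by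
  apply isOpen_lt <;> fun_prop

theorem Om.Wv_ne {a b : E} (h : Om a b) : Wv a b ≠ 0 := by
  intro h0
  have hb : 0 < ‖b‖ := norm_pos_iff.mpr h.ne_right
  have ha : 0 < ‖a‖ := norm_pos_iff.mpr h.ne_left
  have h1 : ‖b‖ • a = ‖a‖ • b := sub_eq_zero.mp h0
  have h2 : a = (‖a‖ / ‖b‖) • b := by
    rw [div_eq_inv_mul, mul_smul, ← h1, smul_smul, inv_mul_cancel₀ hb.ne', one_smul]
  have h3 : ‖a + b‖ = ‖a‖ + ‖b‖ := by
    calc ‖a + b‖ = ‖(‖a‖ / ‖b‖ + 1) • b‖ := by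
          congr 1
          rw [add_smul, one_smul, ← h2]
      _ = (‖a‖ / ‖b‖ + 1) * ‖b‖ := by
          rw [norm_smul, Real.norm_of_nonneg (by positivity)]
      _ = _ := by field_simp
  unfold Om at h
  linarith

theorem Om.Wv_mem_Dir {a b : E} (h : Om a b) : Wv a b ∈ Dir a := by
  have hb : 0 < ‖b‖ := norm_pos_iff.mpr h.ne_right
  have ha : 0 < ‖a‖ := norm_pos_iff.mpr h.ne_left
  refine ⟨(‖a‖ + ‖b‖)⁻¹, by positivity, ?_⟩
  have e1 : a - (‖a‖ + ‖b‖)⁻¹ • Wv a b = (‖a‖ / (‖a‖ + ‖b‖)) • (a + b) := by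
    rw [Wv_def]
    match_scalars
    · field_simp
      ring
    · field_simp
  rw [e1, norm_smul, Real.norm_of_nonneg (by positivity), div_mul_eq_mul_div, div_lt_iff₀ (by positivity)]
  exact mul_lt_mul_of_pos_left h ha

theorem Om_neg_self {a : E} (ha : a ≠ 0) : Om a (-a) := by
  unfold Om
  rw [add_neg_cancel, norm_zero, norm_neg]
  have := norm_pos_iff.mpr ha
  linarith

theorem Wv_smul_right (a b : E) {s : ℝ} (hs : 0 ≤ s) : Wv a (s • b) = s • Wv a b := by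
  rw [Wv_def, Wv_def, norm_smul, Real.norm_of_nonneg hs, smul_sub, smul_smul, smul_smul, smul_smul,
    mul_comm s ‖a‖]

/-- covering: every direction in the cone is a positive multiple of some `Wv z c`, `Om z c`. -/
theorem exists_Om_Wv {z y : E} (hz : z ≠ 0) (hy : y ∈ Dir z) :
    ∃ (c : E) (s : ℝ), 0 < s ∧ Om z c ∧ ‖c‖ = ‖z‖ ∧ Wv z c = s • y := by
  obtain ⟨t, ht, hty⟩ := hy
  have hnz : 0 < ‖z‖ := norm_pos_iff.mpr hz
  have hy0 : y ≠ 0 := by
    rintro rfl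
    rw [smul_zero, sub_zero] at hty
    exact lt_irrefl _ hty
  have hny : 0 < ‖y‖ := norm_pos_iff.mpr hy0
  set g : ℝ → ℝ := fun τ => ‖z - τ • y‖ with hg
  have hgc : Continuous g := by fun_prop
  set t₁ : ℝ := t + 2 * ‖z‖ / ‖y‖ with ht₁
  have ht₁pos : 0 < t₁ := by positivity
  have h1 : ‖z‖ ≤ g t₁ := by
    have e1 : ‖t₁ • y‖ - ‖z‖ ≤ ‖z - t₁ • y‖ := by
      rw [norm_sub_rev]; exact norm_sub_norm_le _ _
    rw [norm_smul, Real.norm_of_nonneg ht₁pos.le] at e1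
    have e2 : t₁ * ‖y‖ = t * ‖y‖ + 2 * ‖z‖ := by rw [ht₁]; field_simp
    have e3 : 0 < t * ‖y‖ := by positivity
    simp only [hg]
    linarith
  obtain ⟨τ, hτ, hτ0⟩ := intermediate_value_Icc (f := g)
    (by rw [ht₁]; linarith [show 0 < 2 * ‖z‖ / ‖y‖ by positivity] : t ≤ t₁)
    hgc.continuousOn ⟨hty.le, h1⟩
  have hτpos : 0 < τ := lt_of_lt_of_le ht hτ.1
  have e1 : ‖z - τ • y‖ = ‖z‖ := hτ0
  have htτ : t < τ := by
    refine lt_of_le_of_ne hτ.1 ?_
    rintro rfl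
    linarith
  refine ⟨z - τ • y, ‖z‖ * τ, by positivity, ?_, e1, ?_⟩
  · -- `z + (z - τ y) = 2 (z - (τ/2) y)`; convexity
    have e2 : z + (z - τ • y) = (2 : ℝ) • (z - (τ / 2) • y) := by module
    have key : ‖z - (τ / 2) • y‖ < ‖z‖ := by
      rcases le_total (τ / 2) t with h2 | h2
      · -- between `0` and `t`
        set l : ℝ := (τ / 2) / t with hl
        have hl0 : 0 < l := by positivity
        have hl1 : l ≤ 1 := by rw [hl, div_le_one ht]; exact h2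
        have hlt : l * t = τ / 2 := by rw [hl]; field_simp
        have e3 : z - (τ / 2) • y = (1 - l) • z + l • (z - t • y) := by
          rw [← hlt]; module
        rw [e3]
        refine lt_of_le_of_lt (norm_add_le _ _) ?_
        rw [norm_smul, norm_smul, Real.norm_of_nonneg hl0.le,
          Real.norm_of_nonneg (by linarith : 0 ≤ 1 - l)]
        nlinarith
      · -- between `t` and `τ`
        set l : ℝ := (τ - τ / 2) / (τ - t) with hl
        have hd : 0 < τ - t := by linarith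
        have hl0 : 0 < l := by
          apply div_pos _ hd
          linarith
        have hl1 : l ≤ 1 := by rw [hl, div_le_one hd]; linarith
        have hlt : l * t + (1 - l) * τ = τ / 2 := by
          have : l * (τ - t) = τ - τ / 2 := by rw [hl]; field_simp
          linarith
        have e3 : z - (τ / 2) • y = (1 - l) • (z - τ • y) + l • (z - t • y) := by
          rw [← hlt]; module
        rw [e3]
        refine lt_of_le_of_lt (norm_add_le _ _) ?_
        rw [norm_smul, norm_smul, Real.norm_of_nonneg hl0.le,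
          Real.norm_of_nonneg (by linarith : 0 ≤ 1 - l), e1]
        nlinarith
    unfold Om
    rw [e2, e1, norm_smul, Real.norm_ofNat]
    linarith
  · rw [Wv_def, e1, smul_sub, smul_smul]
    abel

/-- the quantity controlling antilipschitz constants -/
theorem antilip_quant {a₀ b₀ : E} {γ : ℝ} (hγ : 0 < γ) (h : ‖b₀ + a₀‖ + 2 * γ ≤ ‖b₀‖ + ‖a₀‖)
    {r : ℝ} (hr1 : 4 * r ≤ γ) (hr2 : 4 * r ≤ ‖a₀‖) (ha₀ : a₀ ≠ 0) :
    ∀ a ∈ ball a₀ r, ∀ b ∈ ball b₀ r, ∀ b' ∈ ball b₀ r,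
      ‖b - b'‖ ≤ (2 / γ * ‖a₀‖ * (2 / ‖a₀‖) + 2 / ‖a₀‖) * ‖Wv a b - Wv a b'‖ := by
  have hna : 0 < ‖a₀‖ := norm_pos_iff.mpr ha₀
  have key : ∀ a ∈ ball a₀ r, ∀ b ∈ ball b₀ r, ∀ b' ∈ ball b₀ r, ‖b'‖ ≤ ‖b‖ →
      ‖b - b'‖ ≤ (2 / γ * ‖a₀‖ * (2 / ‖a₀‖) + 2 / ‖a₀‖) * ‖Wv a b - Wv a b'‖ := by
    intro a ha b hb b' hb' hle
    have hda : ‖a - a₀‖ < r := by rwa [mem_ball, dist_eq_norm] at ha
    have hdb : ‖b - b₀‖ < r := by rwa [mem_ball, dist_eq_norm] at hb
    have hdb' : ‖b' - b₀‖ < r := by rwa [mem_ball, dist_eq_norm] at hb'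
    have h1 : ‖b' + (1 : ℝ) • a‖ - ‖b'‖ - 1 * ‖a‖ < -γ := by
      have e1 : ‖b' + a‖ ≤ ‖b₀ + a₀‖ + (‖b' - b₀‖ + ‖a - a₀‖) := by
        calc ‖b' + a‖ = ‖(b₀ + a₀) + ((b' - b₀) + (a - a₀))‖ := by congr 1; abel
          _ ≤ ‖b₀ + a₀‖ + ‖(b' - b₀) + (a - a₀)‖ := norm_add_le _ _
          _ ≤ _ := by gcongr; exact norm_add_le _ _
      have e2 : ‖b₀‖ ≤ ‖b'‖ + ‖b' - b₀‖ := by
        have := norm_sub_norm_le b₀ b'
        rw [norm_sub_rev] at this
        linarith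
      have e3 : ‖a₀‖ ≤ ‖a‖ + ‖a - a₀‖ := by
        have := norm_sub_norm_le a₀ a
        rw [norm_sub_rev] at this
        linarith
      rw [one_smul, one_mul]
      linarith
    have h2 : ‖a₀‖ / 2 < ‖a‖ := by
      have := norm_sub_norm_le a₀ a
      rw [norm_sub_rev] at this
      linarith
    have h3 : ‖a‖ < 2 * ‖a₀‖ := by
      have := norm_sub_norm_le a a₀
      linarith
    set D : E := Wv a b - Wv a b' with hD
    have hna' : 0 < ‖a‖ := by linarith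
    set s : ℝ := (‖b‖ - ‖b'‖) / ‖a‖ with hs
    have hs0 : 0 ≤ s := div_nonneg (by linarith) hna'.le
    have hsa : s * ‖a‖ = ‖b‖ - ‖b'‖ := by rw [hs]; field_simp
    have hs1 : s ≤ 1 := by
      rw [hs, div_le_one hna']
      have e1 : ‖b‖ - ‖b'‖ ≤ ‖b - b'‖ := norm_sub_norm_le b b'
      have e2 : ‖b - b'‖ ≤ r + r := by
        calc ‖b - b'‖ = ‖(b - b₀) - (b' - b₀)‖ := by congr 1; abel
          _ ≤ ‖b - b₀‖ + ‖b' - b₀‖ := norm_sub_le _ _
          _ ≤ r + r := by linarith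
      linarith
    have hbeq : b = (b' + s • a) - ‖a‖⁻¹ • D := by
      have e1 : D = (‖b‖ - ‖b'‖) • a - ‖a‖ • (b - b') := Wv_sub_Wv a b b'
      have e2 : ‖a‖⁻¹ • D = s • a - (b - b') := by
        rw [e1, smul_sub, smul_smul, smul_smul, inv_mul_cancel₀ hna'.ne', one_smul, hs]
        congr 2
        ring
      rw [e2]; abel
    have hconv : ‖b' + s • a‖ ≤ (1 - s) * ‖b'‖ + s * ‖b' + (1 : ℝ) • a‖ := by
      have e1 : b' + s • a = (1 - s) • b' + s • (b' + (1 : ℝ) • a) := by module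
      rw [e1]
      refine (norm_add_le _ _).trans ?_
      rw [norm_smul, norm_smul, Real.norm_of_nonneg (by linarith : 0 ≤ 1 - s),
        Real.norm_of_nonneg hs0]
    have hnb : ‖b‖ ≤ ‖b' + s • a‖ + ‖a‖⁻¹ * ‖D‖ := by
      calc ‖b‖ = ‖(b' + s • a) - ‖a‖⁻¹ • D‖ := by rw [← hbeq]
        _ ≤ ‖b' + s • a‖ + ‖‖a‖⁻¹ • D‖ := norm_sub_le _ _
        _ = ‖b' + s • a‖ + ‖a‖⁻¹ * ‖D‖ := by rw [norm_smul, norm_inv, norm_norm]
    have hsγ : s * γ ≤ ‖a‖⁻¹ * ‖D‖ := by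
      have e1 : s * ‖b' + (1 : ℝ) • a‖ ≤ s * (‖b'‖ + ‖a‖ - γ) :=
        mul_le_mul_of_nonneg_left (by linarith) hs0
      nlinarith
    have hainv : ‖a‖⁻¹ ≤ 2 / ‖a₀‖ := by
      rw [inv_eq_one_div, div_le_div_iff₀ hna' hna]; linarith
    have hsle : s ≤ γ⁻¹ * ((2 / ‖a₀‖) * ‖D‖) := by
      have e1 : s * γ ≤ (2 / ‖a₀‖) * ‖D‖ :=
        hsγ.trans (mul_le_mul_of_nonneg_right hainv (norm_nonneg _))
      calc s = γ⁻¹ * (s * γ) := by field_simp
        _ ≤ _ := mul_le_mul_of_nonneg_left e1 (by positivity)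
    have hfin : ‖b - b'‖ ≤ s * ‖a‖ + ‖a‖⁻¹ * ‖D‖ := by
      have e1 : b - b' = s • a - ‖a‖⁻¹ • D := by
        calc b - b' = ((b' + s • a) - ‖a‖⁻¹ • D) - b' := by rw [← hbeq]
          _ = _ := by abel
      rw [e1]
      refine (norm_sub_le _ _).trans ?_
      rw [norm_smul, norm_smul, norm_inv, norm_norm, Real.norm_of_nonneg hs0]
    calc ‖b - b'‖ ≤ s * ‖a‖ + ‖a‖⁻¹ * ‖D‖ := hfin
      _ ≤ (γ⁻¹ * ((2 / ‖a₀‖) * ‖D‖)) * (2 * ‖a₀‖) + (2 / ‖a₀‖) * ‖D‖ := by
          apply add_le_add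
          · exact mul_le_mul hsle h3.le (norm_nonneg _) (by positivity)
          · exact mul_le_mul_of_nonneg_right hainv (norm_nonneg _)
      _ = _ := by ring
  intro a ha b hb b' hb'
  rcases le_total ‖b'‖ ‖b‖ with hle | hle
  · exact key a ha b hb b' hb' hle
  · rw [norm_sub_rev b b', norm_sub_rev (Wv a b)]
    exact key a ha b' hb' b hb hle

/-- an invariant lower bound for the gap in the triangle inequality -/
noncomputable def gp (a b : E) : ℝ := min ‖a‖ ‖b‖ * (2 - ‖‖a‖⁻¹ • a + ‖b‖⁻¹ • b‖)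

theorem gp_le {a b : E} (ha : a ≠ 0) (hb : b ≠ 0) : ‖a + b‖ + gp a b ≤ ‖a‖ + ‖b‖ := by
  have hna : 0 < ‖a‖ := norm_pos_iff.mpr ha
  have hnb : 0 < ‖b‖ := norm_pos_iff.mpr hb
  set u : E := ‖a‖⁻¹ • a with hu
  set v : E := ‖b‖⁻¹ • b with hv
  have hau : a = ‖a‖ • u := by rw [hu, smul_smul, mul_inv_cancel₀ hna.ne', one_smul]
  have hbv : b = ‖b‖ • v := by rw [hv, smul_smul, mul_inv_cancel₀ hnb.ne', one_smul]
  have hun : ‖u‖ = 1 := by rw [hu, norm_smul, norm_inv, norm_norm, inv_mul_cancel₀ hna.ne']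
  have hvn : ‖v‖ = 1 := by rw [hv, norm_smul, norm_inv, norm_norm, inv_mul_cancel₀ hnb.ne']
  unfold gp
  rcases le_total ‖a‖ ‖b‖ with h | h
  · rw [min_eq_left h]
    have e1 : ‖a + b‖ ≤ ‖a‖ * ‖u + v‖ + (‖b‖ - ‖a‖) := by
      have e2 : a + b = ‖a‖ • (u + v) + (‖b‖ - ‖a‖) • v := by
        rw [smul_add, sub_smul, ← hau, ← hbv]; abel
      rw [e2]
      refine (norm_add_le _ _).trans ?_
      rw [norm_smul, norm_smul, norm_norm, Real.norm_of_nonneg (by linarith : 0 ≤ ‖b‖ - ‖a‖), hvn,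
        mul_one]
    linarith
  · rw [min_eq_right h]
    have e1 : ‖a + b‖ ≤ ‖b‖ * ‖u + v‖ + (‖a‖ - ‖b‖) := by
      have e2 : a + b = ‖b‖ • (u + v) + (‖a‖ - ‖b‖) • u := by
        rw [smul_add, sub_smul, ← hau, ← hbv]; abel
      rw [e2]
      refine (norm_add_le _ _).trans ?_
      rw [norm_smul, norm_smul, norm_norm, Real.norm_of_nonneg (by linarith : 0 ≤ ‖a‖ - ‖b‖), hun,
        mul_one]
    linarith

theorem gp_pos {a b : E} (h : Om a b) : 0 < gp a b := by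
  have hna : 0 < ‖a‖ := norm_pos_iff.mpr h.ne_left
  have hnb : 0 < ‖b‖ := norm_pos_iff.mpr h.ne_right
  have h1 : Om (‖a‖⁻¹ • a) (‖b‖⁻¹ • b) :=
    (h.smul_left (inv_pos.mpr hna)).smul_right (inv_pos.mpr hnb)
  unfold Om at h1
  rw [norm_smul, norm_smul, norm_inv, norm_inv, norm_norm, norm_norm, inv_mul_cancel₀ hna.ne',
    inv_mul_cancel₀ hnb.ne'] at h1
  unfold gp
  have h2 : 0 < 2 - ‖‖a‖⁻¹ • a + ‖b‖⁻¹ • b‖ := by linarith
  exact mul_pos (lt_min hna hnb) h2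

end basic

section iso

variable {X Y : Type*} [NormedAddCommGroup X] [NormedSpace ℝ X] [NormedAddCommGroup Y]
  [NormedSpace ℝ Y] {T : X → Y}

namespace SphereIso

theorem gp_map (hT : SphereIso T) {a b : X} (ha : a ≠ 0) (hb : b ≠ 0) :
    gp (T a) (T b) = gp a b := by
  have hna : 0 < ‖a‖ := norm_pos_iff.mpr ha
  have hnb : 0 < ‖b‖ := norm_pos_iff.mpr hb
  unfold gp
  rw [hT.norm_map, hT.norm_map, ← hT.smul, ← hT.smul, hT.norm_add]
  rw [norm_smul, norm_smul, norm_inv, norm_inv, norm_norm, norm_norm, inv_mul_cancel₀ hna.ne',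
    inv_mul_cancel₀ hnb.ne']

theorem Om_map (hT : SphereIso T) {a b : X} (h : Om a b) : Om (T a) (T b) := by
  have h1 := gp_pos h
  rw [← hT.gp_map h.ne_left h.ne_right] at h1
  have h2 := gp_le (hT.map_ne_zero h.ne_left) (hT.map_ne_zero h.ne_right)
  unfold Om
  linarith

theorem Om_of_map (hT : SphereIso T) {a b : X} (h : Om (T a) (T b)) : Om a b := by
  have ha : a ≠ 0 := by
    rintro rfl
    exact h.ne_left hT.map_zero
  have hb : b ≠ 0 := by
    rintro rfl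
    exact h.ne_right hT.map_zero
  have h1 := gp_pos h
  rw [hT.gp_map ha hb] at h1
  have h2 := gp_le ha hb
  unfold Om
  linarith

end SphereIso

end iso

end Vale.Agent.P084
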