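import Mathlib
import Vale.Agent.Lib.P084.Boot2
import Vale.Agent.Lib.P084F.OmLem

open Filter Topology Module Metric MeasureTheory Measure Set
open scoped NNReal ENNReal

namespace Vale.Agent.P084

section fam

variable {X E : Type*} [NormedAddCommGroup X] [NormedSpace ℝ X]
  [NormedAddCommGroup E] [NormedSpace ℝ E]
  [MeasurableSpace X] [BorelSpace X] [MeasurableSpace E] [BorelSpace E]
  [FiniteDimensional ℝ X] [FiniteDimensional ℝ E]

/-- PROOF: `vol_inter_preimage_le` (Meas.lean) with the antilipschitz bound and the null set of points of non-differentiability of the norm. -/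
theorem Fam.ae_diff {w : X → X → E} {a₀ b₀ : X} {r : ℝ} {K : ℝ≥0} {C R : ℝ}
    (h : Fam w a₀ b₀ r K C R) (hfin : finrank ℝ X = finrank ℝ E) {a : X} (ha : a ∈ ball a₀ r) :
    ∀ᵐ b ∂(vol X), b ∈ ball b₀ r → DifferentiableAt ℝ (fun z : E => ‖z‖) (w a b) := by
  have hN : vol E {y : E | ¬ DifferentiableAt ℝ (fun z : E => ‖z‖) y} = 0 :=
    (lipschitzWith_one_norm (E := E)).ae_differentiableAt (μ := vol E)
  have h1 := vol_inter_preimage_le hfin (h.antilip a ha)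
    {y : E | ¬ DifferentiableAt ℝ (fun z : E => ‖z‖) y}
  rw [hN, mul_zero] at h1
  have h2 := le_antisymm h1 bot_le
  rw [ae_iff]
  refine measure_mono_null ?_ h2
  intro b hb
  have hb' : ¬ (b ∈ ball b₀ r → DifferentiableAt ℝ (fun z : E => ‖z‖) (w a b)) := hb
  rw [Classical.not_imp] at hb'
  exact ⟨hb'.1, hb'.2⟩

/-- PROOF: `dN = fderiv ℝ norm` is measurable (`measurable_fderiv`), `w a` is continuous, `‖dN‖ ≤ 1` (`norm_dN_le_one`), finite measure. -/
theorem Fam.integrableOn_F {w : X → X → E} {a₀ b₀ : X} {r : ℝ} {K : ℝ≥0} {C R : ℝ}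
    (h : Fam w a₀ b₀ r K C R) (a : X) :
    IntegrableOn (fun b => dN (w a b)) (ball b₀ r) (vol X) := by
  have hm : Measurable (dN : E → E →L[ℝ] ℝ) := measurable_fderiv ℝ (fun z : E => ‖z‖)
  have hc : Measurable (fun b => dN (w a b)) := hm.comp (h.cont_right a).measurable
  refine ⟨hc.aestronglyMeasurable, ?_⟩
  have : IsFiniteMeasure ((vol X).restrict (ball b₀ r)) :=
    ⟨by rw [Measure.restrict_apply_univ]; exact measure_ball_lt_top⟩
  apply HasFiniteIntegral.of_bounded (C := 1)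
  exact ae_of_all _ fun b => norm_dN_le_one _

/-- PROOF: the proof of `Fam.exists_lip` in `Vale/Agent/Lib/P084/Avg1.lean`, with the pointwise bound `hpt` only for almost every `b` (by `Fam.ae_diff` at `a` and at `a'`), and
with the constant chosen before the family (it depends only on `K, C, R, r, E, X`). -/
theorem exists_lip_unif (hfin : finrank ℝ X = finrank ℝ E) {r : ℝ} (K : ℝ≥0) {C R : ℝ}
    (hr : 0 < r) (hC : 0 < C) (hR : 0 < R) :
    ∃ C' : ℝ≥0, ∀ (w : X → X → E) (a₀ b₀ : X), Fam w a₀ b₀ r K C R →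
      LipschitzOnWith C' (avg w b₀ r) (ball a₀ r) := by
  obtain ⟨p, hp⟩ := exists_D2_bound (E := E)
  set M : ℝ := C * (2 * r) * ∑ i, ‖p i‖ with hM
  have hM0 : 0 ≤ M := by
    have : 0 ≤ ∑ i, ‖p i‖ := Finset.sum_nonneg fun i _ => norm_nonneg _
    positivity
  obtain ⟨C₁, hC₁0, hC₁⟩ := exists_integral_D2_le (E := E) hR hM0
  set Q : ℝ := ∑ i, (K ^ finrank ℝ X : ℝ≥0) * (C₁ * ‖p i‖ ^ 2) * C with hQ
  have hQ0 : 0 ≤ Q := Finset.sum_nonneg fun i _ => by positivity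
  refine ⟨⟨Q, hQ0⟩, fun w a₀ b₀ h => LipschitzOnWith.of_dist_le_mul ?_⟩
  intro a' ha' a ha
  rw [dist_eq_norm, dist_eq_norm]
  show _ ≤ Q * _
  by_cases haa : a' = a
  · rw [haa]; simp
  have hpos : 0 < ‖a' - a‖ := norm_pos_iff.mpr (sub_ne_zero.mpr haa)
  set ρ : ℝ := C * ‖a' - a‖ with hρ
  have hρpos : 0 < ρ := by positivity
  have hρle : ρ ≤ C * (2 * r) := by
    rw [hρ]
    gcongr
    have := dist_triangle_right a' a a₀
    rw [mem_ball] at ha ha'
    rw [dist_eq_norm a' a] at this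
    linarith
  have hpt : ∀ᵐ b ∂(vol X), b ∈ ball b₀ r → ‖dN (w a' b) - dN (w a b)‖
      ≤ ρ⁻¹ * ∑ i, D2 (w a b) (ρ • p i) := by
    filter_upwards [h.ae_diff hfin ha, h.ae_diff hfin ha'] with b h1 h2 hb
    exact norm_dN_sub_le hρpos (h1 hb) (h2 hb) (h.lip a ha a' ha' b hb)
      fun z hz => hp ρ hρpos _ z hz
  have hcomp : ∀ i, IntegrableOn (fun b => D2 (w a b) (ρ • p i)) (ball b₀ r) (vol X) ∧
      ∫ b in ball b₀ r, D2 (w a b) (ρ • p i) ∂(vol X)
        ≤ (K ^ finrank ℝ X : ℝ≥0) * ∫ y in ball (0 : E) R, D2 y (ρ • p i) ∂(vol E) := by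
    intro i
    apply setIntegral_comp_le hfin (f := w a) (g := fun y => D2 y (ρ • p i)) (h.antilip a ha)
      measurableSet_ball (h.cont_right a).continuousOn (fun b hb => h.bdd a ha b hb)
      (fun y => D2_nonneg _ _) (continuous_D2_left _).stronglyMeasurable
    exact ((continuous_D2_left _).continuousOn.integrableOn_compact
      (isCompact_closedBall (0 : E) R)).mono_set ball_subset_closedBall
  have hb : ∀ i, ∫ b in ball b₀ r, D2 (w a b) (ρ • p i) ∂(vol X)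
      ≤ (K ^ finrank ℝ X : ℝ≥0) * (C₁ * ‖p i‖ ^ 2) * ρ ^ 2 := by
    intro i
    refine (hcomp i).2.trans ?_
    have hn : ‖ρ • p i‖ ≤ M := by
      rw [norm_smul, Real.norm_of_nonneg hρpos.le, hM]
      have : ‖p i‖ ≤ ∑ i, ‖p i‖ := Finset.single_le_sum (f := fun i => ‖p i‖)
        (fun i _ => norm_nonneg _) (Finset.mem_univ i)
      gcongr
    have e1 := hC₁ (ρ • p i) hn
    rw [norm_smul, Real.norm_of_nonneg hρpos.le] at e1
    calc _ ≤ (K ^ finrank ℝ X : ℝ≥0) * (C₁ * (ρ * ‖p i‖) ^ 2) := by gcongr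
      _ = _ := by ring
  have hint : Integrable (fun b => ρ⁻¹ * ∑ i, D2 (w a b) (ρ • p i))
      ((vol X).restrict (ball b₀ r)) :=
    (integrable_finsetSum _ fun i _ => (hcomp i).1).const_mul _
  have hsub : avg w b₀ r a' - avg w b₀ r a
      = ∫ b in ball b₀ r, (dN (w a' b) - dN (w a b)) ∂(vol X) := by
    rw [avg, avg, integral_sub (h.integrableOn_F a') (h.integrableOn_F a)]
  rw [hsub]
  calc _ ≤ ∫ b in ball b₀ r, ρ⁻¹ * ∑ i, D2 (w a b) (ρ • p i) ∂(vol X) := by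
        apply norm_integral_le_of_norm_le hint
        exact (ae_restrict_iff' measurableSet_ball).mpr hpt
    _ = ρ⁻¹ * ∑ i, ∫ b in ball b₀ r, D2 (w a b) (ρ • p i) ∂(vol X) := by
        rw [integral_const_mul, integral_finsetSum _ fun i _ => (hcomp i).1]
    _ ≤ ρ⁻¹ * ∑ i, (K ^ finrank ℝ X : ℝ≥0) * (C₁ * ‖p i‖ ^ 2) * ρ ^ 2 := by
        gcongr with i _
        exact hb i
    _ = Q * ‖a' - a‖ := by
        rw [hQ, Finset.mul_sum, Finset.sum_mul]
        apply Finset.sum_congr rfl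
        intro i _
        rw [hρ]
        field_simp

end fam

section uni

variable {X Y : Type*} [NormedAddCommGroup X] [NormedSpace ℝ X] [NormedAddCommGroup Y]
  [NormedSpace ℝ Y]

/-- PROOF: see `SphereIso.exists_fam` in `Vale/Agent/Lib/P084/Boot2.lean`.  The constants are uniform in `T` because of `antilip_quant` with `γ = gp a₀ b₀ / 2`, which is invariant under
`T` (`gp_map`, `gp_le`, `gp_pos` in OmLem.lean), norms are preserved and all `T`, `T⁻¹` are `3`-Lipschitz (`SphereIso.lipschitz`, `exists_inverse`). -/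
theorem exists_fam_unif (Y : Type*) [NormedAddCommGroup Y] [NormedSpace ℝ Y] {x₀ b₀ : X}
    (h : Om x₀ b₀) :
    ∃ r₀ : ℝ, 0 < r₀ ∧ ∃ (K : ℝ≥0) (C R : ℝ), 0 < C ∧ 0 < R ∧
      (∀ a ∈ ball x₀ r₀, ∀ b ∈ ball b₀ r₀, Om a b) ∧
      ∀ T : X → Y, SphereIso T → Function.Surjective T →
        Fam (fun a b => Wv (T a) (T b)) x₀ b₀ r₀ K C R := by
  have hx0 : x₀ ≠ 0 := h.ne_left
  have hnx : 0 < ‖x₀‖ := norm_pos_iff.mpr hx0
  set γ : ℝ := gp x₀ b₀ / 2 with hγ
  have hγpos : 0 < γ := half_pos (gp_pos h)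
  set K₁ : ℝ := 2 / γ * ‖x₀‖ * (2 / ‖x₀‖) + 2 / ‖x₀‖ with hK₁
  have hK₁pos : 0 < K₁ := by positivity
  set r₁ : ℝ := min (γ / 4) (‖x₀‖ / 4) with hr₁
  have hr₁pos : 0 < r₁ := lt_min (by positivity) (by positivity)
  have hev : ∀ᶠ p : X × X in 𝓝 (x₀, b₀), Om p.1 p.2 := isOpen_Om.mem_nhds h
  obtain ⟨r₂, hr₂, hball₂⟩ := Metric.eventually_nhds_iff_ball.mp hev
  set r₀ : ℝ := min (r₁ / 3) (min r₂ 1) with hr₀
  have hr₀1 : r₀ ≤ r₁ / 3 := min_le_left _ _
  have hr₀2 : r₀ ≤ r₂ := (min_le_right _ _).trans (min_le_left _ _)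
  have hr₀3 : r₀ ≤ 1 := (min_le_right _ _).trans (min_le_right _ _)
  have hbnorm : ∀ x y : X, y ∈ ball x r₀ → ‖y‖ ≤ ‖x‖ + 1 := by
    intro x y hy
    rw [mem_ball, dist_eq_norm] at hy
    have := norm_sub_norm_le y x
    linarith
  refine ⟨r₀, lt_min (by positivity) (lt_min hr₂ one_pos), ⟨3 * K₁, by positivity⟩,
    4 * (‖b₀‖ + 1), 2 * (‖x₀‖ + 1) * (‖b₀‖ + 1) + 1, by positivity, by positivity, ?_, ?_⟩
  · intro a ha b hb
    apply hball₂ (a, b)
    rw [mem_ball, Prod.dist_eq]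
    exact max_lt (ball_subset_ball hr₀2 ha) (ball_subset_ball hr₀2 hb)
  · intro T hT hsurj
    obtain ⟨S, hS, hST, hTS⟩ := hT.exists_inverse hsurj
    have hcont : Continuous T := hT.lipschitz.continuous
    have hmapball : ∀ x y : X, y ∈ ball x (r₁ / 3) → T y ∈ ball (T x) r₁ := by
      intro x y hy
      have := hT.lipschitz.dist_le_mul y x
      rw [NNReal.coe_ofNat] at this
      rw [mem_ball] at hy ⊢
      linarith
    have hgap : ‖T b₀ + T x₀‖ + 2 * γ ≤ ‖T b₀‖ + ‖T x₀‖ := by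
      have e1 := gp_le (hT.map_ne_zero hx0) (hT.map_ne_zero h.ne_right)
      rw [hT.gp_map hx0 h.ne_right] at e1
      rw [add_comm (T b₀), add_comm ‖T b₀‖, hγ]
      linarith
    have hball : ∀ a ∈ ball (T x₀) r₁, ∀ b ∈ ball (T b₀) r₁, ∀ b' ∈ ball (T b₀) r₁,
        ‖b - b'‖ ≤ K₁ * ‖Wv a b - Wv a b'‖ := by
      have e1 : 4 * r₁ ≤ γ := by
        have := min_le_left (γ / 4) (‖x₀‖ / 4)
        rw [← hr₁] at this
        linarith
      have e2 : 4 * r₁ ≤ ‖T x₀‖ := by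
        have := min_le_right (γ / 4) (‖x₀‖ / 4)
        rw [← hr₁] at this
        rw [hT.norm_map]
        linarith
      have := antilip_quant hγpos hgap e1 e2 (hT.map_ne_zero hx0)
      rw [hT.norm_map] at this
      exact this
    refine ⟨?_, ?_, ?_, ?_⟩
    · exact continuous_Wv.comp ((hcont.comp continuous_fst).prodMk (hcont.comp continuous_snd))
    · intro a ha b hb b' hb'
      have e1 := hball (T a) (hmapball x₀ a (ball_subset_ball hr₀1 ha)) (T b)
        (hmapball b₀ b (ball_subset_ball hr₀1 hb)) (T b') (hmapball b₀ b' (ball_subset_ball hr₀1 hb'))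
      have e2 := hS.lipschitz.dist_le_mul (T b) (T b')
      rw [hST, hST, dist_eq_norm, dist_eq_norm, NNReal.coe_ofNat] at e2
      show _ ≤ (3 * K₁) * _
      linarith
    · intro a ha a' ha' b hb
      have e1 : Wv (T a') (T b) - Wv (T a) (T b)
          = ‖b‖ • (T a' - T a) - (‖a'‖ - ‖a‖) • T b := by
        rw [hT.Wv_map, hT.Wv_map]; module
      have e2 := hT.lipschitz.dist_le_mul a' a
      rw [dist_eq_norm, dist_eq_norm, NNReal.coe_ofNat] at e2
      have e3 := abs_norm_sub_norm_le a' a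
      have e4 := hbnorm b₀ b hb
      rw [e1]
      refine (norm_sub_le _ _).trans ?_
      rw [norm_smul, norm_smul, norm_norm, hT.norm_map, Real.norm_eq_abs]
      calc ‖b‖ * ‖T a' - T a‖ + |‖a'‖ - ‖a‖| * ‖b‖
          ≤ (‖b₀‖ + 1) * (3 * ‖a' - a‖) + ‖a' - a‖ * (‖b₀‖ + 1) := by gcongr
        _ = _ := by ring
    · intro a ha b hb
      have e3 := hbnorm x₀ a ha
      have e4 := hbnorm b₀ b hb
      rw [mem_ball_zero_iff]
      rw [hT.norm_Wv, Wv_def]
      have e5 : ‖‖b‖ • a - ‖a‖ • b‖ ≤ ‖b‖ * ‖a‖ + ‖a‖ * ‖b‖ := by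
        refine (norm_sub_le _ _).trans ?_
        rw [norm_smul, norm_smul, norm_norm, norm_norm]
      have e6 : ‖a‖ * ‖b‖ ≤ (‖x₀‖ + 1) * (‖b₀‖ + 1) := by gcongr
      nlinarith

/-- PROOF: combine `exists_fam_unif`, `Fam.mono`, `exists_lip_unif`, `Fam.integrableOn_F`. -/
theorem avT_unif (Y : Type*) [NormedAddCommGroup Y] [NormedSpace ℝ Y] [MeasurableSpace X]
    [BorelSpace X] [MeasurableSpace Y] [BorelSpace Y] [FiniteDimensional ℝ X]
    [FiniteDimensional ℝ Y] (hfin : finrank ℝ X = finrank ℝ Y) {x₀ b₀ : X} (h : Om x₀ b₀) :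
    ∃ r₀ : ℝ, 0 < r₀ ∧ ∀ r, 0 < r → r < r₀ → ∃ K : ℝ≥0,
      (∀ a ∈ ball x₀ r, ∀ b ∈ ball b₀ r, Om a b) ∧
      ∀ T : X → Y, SphereIso T → Function.Surjective T →
        LipschitzOnWith K (SphereIso.avT T b₀ r) (ball x₀ r) ∧
        ∀ a : X, IntegrableOn (fun b => dN (Wv (T a) (T b))) (ball b₀ r) (vol X) := by
  obtain ⟨r₀, hr₀, K, C, R, hC, hR, hOm, hfam⟩ := exists_fam_unif Y h
  refine ⟨r₀, hr₀, fun r hr hrr => ?_⟩
  obtain ⟨C', hC'⟩ := exists_lip_unif (X := X) (E := Y) hfin K hr hC hR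
  refine ⟨C', fun a ha b hb => hOm a (ball_subset_ball hrr.le ha) b (ball_subset_ball hrr.le hb),
    fun T hT hsurj => ?_⟩
  have hf := (hfam T hT hsurj).mono hrr.le
  exact ⟨hC' _ x₀ b₀ hf, fun a => hf.integrableOn_F a⟩

end uni

end Vale.Agent.P084
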