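import Mathlib
import Vale.Agent.Lib.P084.Sep
open Filter Topology Module Metric MeasureTheory Measure Set

namespace Vale.Agent.P084

/-
PROOF.  Suppose `h e = z ≠ e`; `‖z‖ = 1` so `ψ z < 1`; put `v = e - z`, `ψ v > 0`.  The norm is differentiable almost
everywhere, so for every `t > 0` there is `s` with `‖s - (e + t v)‖ ≤ t^2` at which
the norm is differentiable.  Monotonicity: `dN s (s - e) ≥ ‖s‖ - ‖e‖ ≥ ψ (s - e)`.  So
`dN s v ≥ ψ v - 2 t`.  With `n = ‖s‖⁻¹ • s` we have `dN s (h n) = 1`, `n → e`, `h n → h e = z`, `‖dN s‖ ≤ 1`.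
Hence `dN s v = dN s e - dN s z ≤ 1 - dN s z = dN s (h n - z) ≤ ‖h n - z‖ → 0`, a contradiction.
-/
theorem exposed_fixed {X : Type*} [NormedAddCommGroup X] [NormedSpace ℝ X] [FiniteDimensional ℝ X]
    {h : X → X} (hcont : ContinuousOn h (sphere 0 1)) (hn : ∀ x, ‖x‖ = 1 → ‖h x‖ = 1)
    (hs : ∀ s : X, ‖s‖ = 1 → DifferentiableAt ℝ (fun z : X => ‖z‖) s → dN s (h s) = 1)
    {e : X} (he : ‖e‖ = 1) {ψ : X →L[ℝ] ℝ} (hψ : ‖ψ‖ ≤ 1) (hψe : ψ e = 1)
    (hex : ∀ z, ‖z‖ ≤ 1 → ψ z = 1 → z = e) : h e = e := by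
  by_contra hne
  set z := h e with hz
  have hz1 : ‖z‖ = 1 := hn e he
  have hψz : ψ z < 1 := by
    rcases lt_or_eq_of_le (show ψ z ≤ 1 by
      have := apply_le_of_norm_le_one hψ z; rwa [hz1] at this) with h1 | h1
    · exact h1
    · exact absurd (hex z hz1.le h1) hne
  set v := e - z with hv
  have hvn : ‖v‖ ≤ 2 := by
    calc ‖v‖ ≤ ‖e‖ + ‖z‖ := norm_sub_le _ _
      _ = 2 := by rw [he, hz1]; norm_num
  have hψv : 0 < ψ v := by rw [hv, map_sub, hψe]; linarith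
  set δ := ψ v with hδ
  have hce : ContinuousWithinAt h (sphere 0 1) e := hcont e (by simp [he])
  obtain ⟨η, hη, hη2⟩ := Metric.continuousWithinAt_iff.1 hce (δ / 2) (by positivity)
  -- choose t
  obtain ⟨t, ht0, ht1, ht2, ht3⟩ : ∃ t : ℝ, 0 < t ∧ t ≤ 1 / 4 ∧ 2 * t < δ / 2 ∧ 6 * t < η := by
    refine ⟨min (1 / 4) (min (δ / 8) (η / 8)), by positivity, min_le_left _ _, ?_, ?_⟩
    · have : min (1 / 4) (min (δ / 8) (η / 8)) ≤ δ / 8 := (min_le_right _ _).trans (min_le_left _ _)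
      linarith
    · have : min (1 / 4) (min (δ / 8) (η / 8)) ≤ η / 8 := (min_le_right _ _).trans (min_le_right _ _)
      linarith
  obtain ⟨s, hsd, hsn⟩ : ∃ s : X, DifferentiableAt ℝ (fun z : X => ‖z‖) s ∧
      ‖s - (e + t • v)‖ < t ^ 2 := by
    have hd : Dense {x : X | DifferentiableAt ℝ (fun z : X => ‖z‖) x} :=
      dense_differentiableAt_norm
    obtain ⟨s, hs1, hs2⟩ := Metric.dense_iff.1 hd (e + t • v) (t ^ 2) (by positivity)
    refine ⟨s, hs2, ?_⟩
    rwa [mem_ball, dist_eq_norm] at hs1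
  have hse : ‖s - e‖ ≤ 3 * t := by
    calc ‖s - e‖ = ‖(s - (e + t • v)) + t • v‖ := by congr 1; abel
      _ ≤ ‖s - (e + t • v)‖ + ‖t • v‖ := norm_add_le _ _
      _ ≤ t ^ 2 + t * 2 := by
          rw [norm_smul, Real.norm_of_nonneg ht0.le]
          exact add_le_add hsn.le (mul_le_mul_of_nonneg_left hvn ht0.le)
      _ ≤ 3 * t := by nlinarith
  have habs : |‖s‖ - 1| ≤ 3 * t := by
    have := abs_norm_sub_norm_le s e
    rw [he] at this
    exact this.trans hse
  have hspos : 0 < ‖s‖ := by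
    have := (abs_le.1 habs).1
    linarith
  set n := ‖s‖⁻¹ • s with hnn
  have hn1 : ‖n‖ = 1 := by
    rw [hnn, norm_smul, norm_inv, norm_norm, inv_mul_cancel₀ hspos.ne']
  have hns : ‖n - s‖ = |‖s‖ - 1| := by
    have h1 : n - s = (‖s‖⁻¹ - 1) • s := by rw [hnn, sub_smul, one_smul]
    rw [h1, norm_smul, Real.norm_eq_abs]
    have h2 : ‖s‖ = |‖s‖| := (abs_of_pos hspos).symm
    nth_rewrite 2 [h2]
    rw [← abs_mul, sub_mul, inv_mul_cancel₀ hspos.ne', one_mul, abs_sub_comm]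
  have hne' : ‖n - e‖ < η := by
    calc ‖n - e‖ = ‖(n - s) + (s - e)‖ := by congr 1; abel
      _ ≤ ‖n - s‖ + ‖s - e‖ := norm_add_le _ _
      _ ≤ 3 * t + 3 * t := add_le_add (hns.le.trans habs) hse
      _ = 6 * t := by ring
      _ < η := ht3
  have hhn : ‖h n - z‖ < δ / 2 := by
    have := hη2 (x := n) (by simp [hn1]) (by rwa [dist_eq_norm])
    rwa [dist_eq_norm] at this
  have hdn : DifferentiableAt ℝ (fun z : X => ‖z‖) n := by
    rw [hnn]
    exact (differentiableAt_norm_smul (inv_ne_zero hspos.ne')).1 hsd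
  have h1 : dN s (h n) = 1 := by
    have := hs n hn1 hdn
    rwa [hnn, dN_smul_pos (inv_pos.2 hspos), ← hnn] at this
  -- monotonicity
  have h2 : ψ (s - e) ≤ dN s (s - e) := by
    have ha := apply_le_of_norm_le_one hψ s
    have hb := dN_le s e
    have hc := dN_self hsd
    rw [map_sub, map_sub, hψe, hc]
    rw [he] at hb
    linarith
  have h3 : s - e = (s - (e + t • v)) + t • v := by abel
  have h4 : dN s (s - (e + t • v)) ≤ t ^ 2 := (dN_le _ _).trans hsn.le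
  have h5 : -(t ^ 2) ≤ ψ (s - (e + t • v)) := by
    have := apply_le_of_norm_le_one hψ (-(s - (e + t • v)))
    rw [map_neg, norm_neg] at this
    linarith
  rw [h3, map_add, map_add, map_smul, map_smul, smul_eq_mul, smul_eq_mul] at h2
  have h6 : dN s v ≤ ‖h n - z‖ := by
    have ha := dN_le s e
    have hb := dN_le s (h n - z)
    rw [map_sub, h1] at hb
    rw [he] at ha
    rw [hv, map_sub]
    linarith
  have h7 : t * (δ - 2 * t) ≤ t * dN s v := by nlinarith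
  have h8 : δ - 2 * t ≤ dN s v := le_of_mul_le_mul_left h7 ht0
  linarith

end Vale.Agent.P084
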