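import Mathlib

open Filter Topology Module Metric MeasureTheory Measure Set

namespace Vale.Agent.P084

/-
PROOF.  For a functional `ψ` with `‖ψ‖ ≤ 1` let `C_ψ = {z | ‖z‖ ≤ 1 ∧ ψ z = 1}` (compact, convex, all its points
have norm one).  There is such a `ψ` with `ψ x₀ = ψ y₀ = 1` (Hahn-Banach at `x₀ + y₀`: `exists_dual_vector''`).
Choose such a `ψ` for which `finrank (span ℝ C_ψ)` is maximal and let `C = C_ψ`,
`R = {x ∈ C | ∀ z ∈ C, ∃ ε > 0, x + ε • (x - z) ∈ C}` (relative interior; or use `intrinsicInterior ℝ C`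
and `Set.Nonempty.intrinsicInterior`).  `R` is nonempty (finite dimension) and `(1-t) x + t r ∈ R` for `r ∈ R`, `x ∈ C`,
`t ∈ (0,1]`, so `C ⊆ closure R`.  Let `x ∈ R` and `‖y‖ = 1`, `‖x + y‖ = 2`; take `ψ'`, `‖ψ'‖ ≤ 1`, with
`ψ' (x + y) = 2`, so `ψ' x = ψ' y = 1`.  As `x ∈ R` and `ψ' ≤ 1` on `C`, `ψ' = 1` on `C`.  So `C ⊆ C_ψ'`, in particular
`ψ' x₀ = ψ' y₀ = 1`, and by maximality `span C_ψ' = span C`.  `ψ` and `ψ'` agree on `C`, hence on its span, which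
contains `y`: `ψ y = ψ' y = 1`, `y ∈ C`.  Conversely for `y ∈ C`, `ψ (x + y) = 2` gives `‖x + y‖ = 2`.
-/
/-- the face of the unit ball given by a functional -/
def faceSet {X : Type*} [NormedAddCommGroup X] [NormedSpace ℝ X] (ψ : StrongDual ℝ X) : Set X :=
  {z | ‖z‖ ≤ 1 ∧ ψ z = 1}

theorem face_apply_le {X : Type*} [NormedAddCommGroup X] [NormedSpace ℝ X] {ψ : StrongDual ℝ X}
    (hψ : ‖ψ‖ ≤ 1) (z : X) : ψ z ≤ ‖z‖ := by
  calc ψ z ≤ ‖ψ z‖ := Real.le_norm_self _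
    _ ≤ ‖ψ‖ * ‖z‖ := ψ.le_opNorm z
    _ ≤ 1 * ‖z‖ := mul_le_mul_of_nonneg_right hψ (norm_nonneg _)
    _ = ‖z‖ := one_mul _

theorem face_norm_eq {X : Type*} [NormedAddCommGroup X] [NormedSpace ℝ X] {ψ : StrongDual ℝ X}
    (hψ : ‖ψ‖ ≤ 1) {z : X} (hz : z ∈ faceSet ψ) : ‖z‖ = 1 := by
  refine le_antisymm hz.1 ?_
  have := face_apply_le hψ z
  rw [hz.2] at this
  exact this

theorem face_convex {X : Type*} [NormedAddCommGroup X] [NormedSpace ℝ X] (ψ : StrongDual ℝ X) :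
    Convex ℝ (faceSet ψ) := by
  intro x hx y hy a b ha hb hab
  refine ⟨?_, ?_⟩
  · calc ‖a • x + b • y‖ ≤ ‖a • x‖ + ‖b • y‖ := norm_add_le _ _
      _ = a * ‖x‖ + b * ‖y‖ := by
          rw [norm_smul, norm_smul, Real.norm_of_nonneg ha, Real.norm_of_nonneg hb]
      _ ≤ a * 1 + b * 1 := add_le_add (mul_le_mul_of_nonneg_left hx.1 ha)
          (mul_le_mul_of_nonneg_left hy.1 hb)
      _ = 1 := by rw [mul_one, mul_one, hab]
  · rw [map_add, map_smul, map_smul, hx.2, hy.2, smul_eq_mul, smul_eq_mul, mul_one, mul_one, hab]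

theorem face_compact {X : Type*} [NormedAddCommGroup X] [NormedSpace ℝ X]
    [FiniteDimensional ℝ X] (ψ : StrongDual ℝ X) : IsCompact (faceSet ψ) := by
  have : ProperSpace X := FiniteDimensional.proper ℝ X
  have e : faceSet ψ = closedBall (0 : X) 1 ∩ ψ ⁻¹' {1} := by
    ext z
    simp [faceSet]
  rw [e]
  exact (isCompact_closedBall 0 1).inter_right (isClosed_singleton.preimage ψ.continuous)

/-- two unit vectors with sum of norm two have a common norming functional -/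
theorem face_common {X : Type*} [NormedAddCommGroup X] [NormedSpace ℝ X] {x y : X}
    (hx : ‖x‖ ≤ 1) (hy : ‖y‖ ≤ 1) (hxy : ‖x + y‖ = 2) :
    ∃ ψ : StrongDual ℝ X, ‖ψ‖ ≤ 1 ∧ ψ x = 1 ∧ ψ y = 1 := by
  obtain ⟨ψ, hψ, h⟩ := exists_dual_vector'' ℝ (x + y)
  rw [map_add, hxy] at h
  have h1 := (face_apply_le hψ x).trans hx
  have h2 := (face_apply_le hψ y).trans hy
  have h3 : ψ x + ψ y = 2 := h
  exact ⟨ψ, hψ, by linarith, by linarith⟩

theorem exists_face {X : Type*} [NormedAddCommGroup X] [NormedSpace ℝ X] [FiniteDimensional ℝ X]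
    {x₀ y₀ : X} (hx₀ : ‖x₀‖ = 1) (hy₀ : ‖y₀‖ = 1) (hxy : ‖x₀ + y₀‖ = 2) :
    ∃ C : Set X, Convex ℝ C ∧ IsCompact C ∧ x₀ ∈ C ∧ y₀ ∈ C ∧ (∀ x ∈ C, ‖x‖ = 1) ∧
      ∃ R : Set X, R ⊆ C ∧ C ⊆ closure R ∧
        ∀ x ∈ R, ∀ y : X, (‖y‖ = 1 ∧ ‖x + y‖ = 2) ↔ y ∈ C := by
  classical
  let S : Set ℕ := {n | ∃ ψ : StrongDual ℝ X, (‖ψ‖ ≤ 1 ∧ ψ x₀ = 1 ∧ ψ y₀ = 1) ∧
    finrank ℝ (Submodule.span ℝ (faceSet ψ)) = n}
  have hS : S.Nonempty := by
    obtain ⟨ψ, h1, h2, h3⟩ := face_common hx₀.le hy₀.le hxy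
    exact ⟨_, ψ, ⟨h1, h2, h3⟩, rfl⟩
  have hSb : BddAbove S := by
    refine ⟨finrank ℝ X, ?_⟩
    rintro n ⟨ψ, -, rfl⟩
    exact Submodule.finrank_le _
  obtain ⟨ψ, ⟨hψ, hψx, hψy⟩, hmax⟩ := Nat.sSup_mem hS hSb
  have hmax' : ∀ ψ' : StrongDual ℝ X, ‖ψ'‖ ≤ 1 → ψ' x₀ = 1 → ψ' y₀ = 1 →
      finrank ℝ (Submodule.span ℝ (faceSet ψ')) ≤ finrank ℝ (Submodule.span ℝ (faceSet ψ)) := by
    intro ψ' h1 h2 h3
    rw [hmax]
    exact le_csSup hSb ⟨ψ', ⟨h1, h2, h3⟩, rfl⟩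
  have hxC : x₀ ∈ faceSet ψ := ⟨hx₀.le, hψx⟩
  have hyC : y₀ ∈ faceSet ψ := ⟨hy₀.le, hψy⟩
  obtain ⟨B0, hB0, -, hspan, -⟩ := Submodule.exists_finset_span_eq_linearIndepOn ℝ (faceSet ψ)
  -- a finite set spanning the same space
  let B : Finset X := insert x₀ B0
  have hB : ∀ b ∈ B, b ∈ faceSet ψ := by
    intro b hb
    rcases Finset.mem_insert.1 hb with rfl | hb
    · exact hxC
    · exact hB0 hb
  have hBne : B.Nonempty := ⟨x₀, Finset.mem_insert_self _ _⟩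
  have hcard : (0 : ℝ) < B.card := by exact_mod_cast hBne.card_pos
  let xh : X := ∑ b ∈ B, ((B.card : ℝ)⁻¹) • b
  have hxh : xh ∈ faceSet ψ := by
    refine (face_convex ψ).sum_mem (fun _ _ => (inv_pos.2 hcard).le) ?_ hB
    rw [Finset.sum_const, nsmul_eq_mul, mul_inv_cancel₀ hcard.ne']
  -- norming functionals at `xh` are one on the face
  have hkey : ∀ ψ' : StrongDual ℝ X, ‖ψ'‖ ≤ 1 → ψ' xh = 1 → ∀ z ∈ faceSet ψ, ψ' z = 1 := by
    intro ψ' h1 h2
    have h3 : ∀ b ∈ B, ψ' b = 1 := by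
      have h4 : ∀ b ∈ B, 0 ≤ 1 - ψ' b := fun b hb =>
        sub_nonneg.2 ((face_apply_le h1 b).trans (hB b hb).1)
      have h5 : ∑ b ∈ B, (1 - ψ' b) = 0 := by
        have h6 : ψ' xh = (B.card : ℝ)⁻¹ * ∑ b ∈ B, ψ' b := by
          change ψ' (∑ b ∈ B, ((B.card : ℝ)⁻¹) • b) = _
          rw [_root_.map_sum, Finset.mul_sum]
          refine Finset.sum_congr rfl fun b _ => ?_
          rw [map_smul, smul_eq_mul]
        rw [h2] at h6
        rw [Finset.sum_sub_distrib, Finset.sum_const, nsmul_eq_mul, mul_one]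
        field_simp at h6
        linarith
      intro b hb
      have := (Finset.sum_eq_zero_iff_of_nonneg h4).1 h5 b hb
      linarith
    have h7 : ∀ z ∈ Submodule.span ℝ (faceSet ψ), ψ' z = ψ z := by
      intro z hz
      rw [← hspan] at hz
      have h8 : Set.EqOn (ψ' : X →ₗ[ℝ] ℝ) (ψ : X →ₗ[ℝ] ℝ) (B0 : Set X) := by
        intro b hb
        have hb' : b ∈ B := Finset.mem_insert_of_mem hb
        change ψ' b = ψ b
        rw [h3 b hb', (hB b hb').2]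
      exact LinearMap.eqOn_span h8 hz
    intro z hz
    rw [h7 z (Submodule.subset_span hz), hz.2]
  refine ⟨faceSet ψ, face_convex ψ, face_compact ψ, hxC, hyC, fun x hx => face_norm_eq hψ hx,
    {x | ∃ c ∈ faceSet ψ, ∃ t : ℝ, 0 < t ∧ t ≤ 1 ∧ x = (1 - t) • c + t • xh}, ?_, ?_, ?_⟩
  · rintro x ⟨c, hc, t, ht0, ht1, rfl⟩
    exact face_convex ψ hc hxh (by linarith) ht0.le (by ring)
  · intro c hc
    have h1 : Tendsto (fun t : ℝ => (1 - t) • c + t • xh) (𝓝[>] 0) (𝓝 c) := by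
      have h2 : Continuous fun t : ℝ => (1 - t) • c + t • xh := by fun_prop
      have h3 := h2.tendsto 0
      simp only [sub_zero, one_smul, zero_smul, add_zero] at h3
      exact h3.mono_left nhdsWithin_le_nhds
    refine mem_closure_of_tendsto h1 ?_
    have h4 : ∀ᶠ t : ℝ in 𝓝[>] 0, t ∈ Ioc (0 : ℝ) 1 := Ioc_mem_nhdsGT one_pos
    filter_upwards [h4] with t ht
    exact ⟨c, hc, t, ht.1, ht.2, rfl⟩
  · rintro x ⟨c, hc, t, ht0, ht1, rfl⟩ y
    have hxC' : (1 - t) • c + t • xh ∈ faceSet ψ :=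
      face_convex ψ hc hxh (by linarith) ht0.le (by ring)
    constructor
    · rintro ⟨hy1, hy2⟩
      obtain ⟨ψ', h1, h2, h3⟩ := face_common hxC'.1 hy1.le hy2
      have h4 : ψ' xh = 1 := by
        rw [map_add, map_smul, map_smul, smul_eq_mul, smul_eq_mul] at h2
        have h5 := (face_apply_le h1 c).trans hc.1
        have h6 := (face_apply_le h1 xh).trans hxh.1
        have h7 : (1 - t) * ψ' c ≤ (1 - t) * 1 := mul_le_mul_of_nonneg_left h5 (by linarith)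
        have h8 : t ≤ t * ψ' xh := by linarith
        have h9 : 1 ≤ ψ' xh := by
          by_contra h
          push Not at h
          have := mul_lt_mul_of_pos_left h ht0
          linarith
        linarith
      have h5 := hkey ψ' h1 h4
      have h6 : faceSet ψ ⊆ faceSet ψ' := fun z hz => ⟨hz.1, h5 z hz⟩
      have h7 : Submodule.span ℝ (faceSet ψ) = Submodule.span ℝ (faceSet ψ') :=
        Submodule.eq_of_le_of_finrank_le (Submodule.span_mono h6)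
          (hmax' ψ' h1 (h5 _ hxC) (h5 _ hyC))
      have h8 : y ∈ Submodule.span ℝ (faceSet ψ) := by
        rw [h7]
        exact Submodule.subset_span ⟨hy1.le, h3⟩
      have h9 : ∀ z ∈ Submodule.span ℝ (faceSet ψ), ψ' z = ψ z := by
        intro z hz
        have h10 : Set.EqOn (ψ' : X →ₗ[ℝ] ℝ) (ψ : X →ₗ[ℝ] ℝ) (faceSet ψ) := by
          intro b hb
          change ψ' b = ψ b
          rw [h5 b hb, hb.2]
        exact LinearMap.eqOn_span h10 hz
      exact ⟨hy1.le, by rw [← h9 y h8, h3]⟩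
    · intro hy
      refine ⟨face_norm_eq hψ hy, le_antisymm ?_ ?_⟩
      · calc ‖(1 - t) • c + t • xh + y‖ ≤ ‖(1 - t) • c + t • xh‖ + ‖y‖ := norm_add_le _ _
          _ ≤ 1 + 1 := add_le_add hxC'.1 hy.1
          _ = 2 := by norm_num
      · have h1 := face_apply_le hψ ((1 - t) • c + t • xh + y)
        rw [map_add, hxC'.2, hy.2] at h1
        linarith

/-
PROOF (purely metric).  Put `St x = {y | ‖y‖ = 1 ∧ ‖x + y‖ = 2}`; for `‖x‖ = ‖y‖ = 1`:
`‖x + y‖ = ‖y - (-x)‖ = ‖f y - f (-x)‖ = ‖f y + g x‖`, and symmetrically (`f x = - g (-x)`) `= ‖g y + f x‖`.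
(1) For `x ∈ C`, `y ∈ C`: `‖f y + g x‖ = 2` (as `‖x + y‖ = 2`: for `x ∈ R` by `hR`, in general by density).
(2) Let `y ∈ R`, `x ∈ C`, `m = midpoint (f y) (g x)`.  `‖m‖ = 1` by (1).  Let `u` be a unit vector with `f u = -m`.
`‖f y - f u‖ = ‖f y + m‖ = 2` (there is a functional of norm `≤ 1` which is `1` at `f y`, `g x`, hence at `m`).  So
`‖y - u‖ = 2`, `-u ∈ C` by `hR`, and `g (-u) = - f u = m`.  So `m ∈ g '' C`.  By density of `R` in `C` and compactness of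
`g '' C` this holds for all `y, x ∈ C`: `midpoint (f y) (g x) ∈ g '' C`, and by symmetry of `f, g` also `∈ f '' C`.
(3) For `p ∈ f '' C` start with any `q₀ ∈ g '' C` and `q_{k+1} = midpoint p q_k ∈ g '' C`; `q_k → p`, and `g '' C` is
closed, so `p ∈ g '' C`.  Symmetrically `g '' C ⊆ f '' C`.  So the two sets are equal, and midpoint convex and
closed, hence convex (`Convex` from midpoint convexity of a closed set: dyadic argument).
-/
/-- closed midpoint convex sets are convex -/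
theorem face_convex_of_midpoint {E : Type*} [NormedAddCommGroup E] [NormedSpace ℝ E] {K : Set E}
    (hK : IsClosed K) (h : ∀ a ∈ K, ∀ b ∈ K, (1 / 2 : ℝ) • (a + b) ∈ K) : Convex ℝ K := by
  rw [convex_iff_segment_subset]
  intro a ha b hb x hx
  rw [segment_eq_image_lineMap] at hx
  obtain ⟨t0, ht0, rfl⟩ := hx
  let S : Set ℝ := {t | AffineMap.lineMap a b t ∈ K}
  have hSc : IsClosed S := hK.preimage AffineMap.lineMap_continuous
  have hS0 : (0 : ℝ) ∈ S := by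
    change AffineMap.lineMap a b (0 : ℝ) ∈ K
    rwa [AffineMap.lineMap_apply_zero]
  have hS1 : (1 : ℝ) ∈ S := by
    change AffineMap.lineMap a b (1 : ℝ) ∈ K
    rwa [AffineMap.lineMap_apply_one]
  have hSm : ∀ s ∈ S, ∀ t ∈ S, (s + t) / 2 ∈ S := by
    intro s hs t ht
    have h1 := h _ hs _ ht
    change AffineMap.lineMap a b ((s + t) / 2) ∈ K
    have e : AffineMap.lineMap a b ((s + t) / 2) =
        (1 / 2 : ℝ) • (AffineMap.lineMap a b s + AffineMap.lineMap a b t) := by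
      simp only [AffineMap.lineMap_apply_module]
      module
    rw [e]
    exact h1
  by_contra hcon
  let L : Set ℝ := S ∩ Iic t0
  let U : Set ℝ := S ∩ Ici t0
  have hLne : L.Nonempty := ⟨0, hS0, ht0.1⟩
  have hUne : U.Nonempty := ⟨1, hS1, ht0.2⟩
  have hLb : BddAbove L := ⟨t0, fun x hx => hx.2⟩
  have hUb : BddBelow U := ⟨t0, fun x hx => hx.2⟩
  have hα : sSup L ∈ L := (hSc.inter isClosed_Iic).csSup_mem hLne hLb
  have hβ : sInf U ∈ U := (hSc.inter isClosed_Ici).csInf_mem hUne hUb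
  have h1 : sSup L < t0 := lt_of_le_of_ne hα.2 fun e => hcon (by
    have := hα.1
    rw [e] at this
    exact this)
  have h2 : t0 < sInf U := lt_of_le_of_ne hβ.2 fun e => hcon (by
    have := hβ.1
    rw [← e] at this
    exact this)
  have h3 := hSm _ hα.1 _ hβ.1
  rcases le_total ((sSup L + sInf U) / 2) t0 with h4 | h4
  · have := le_csSup hLb ⟨h3, h4⟩
    linarith
  · have := csInf_le hUb ⟨h3, h4⟩
    linarith

/-- the iteration of midpoints -/
theorem face_half {E : Type*} [NormedAddCommGroup E] [NormedSpace ℝ E] {A B : Set E}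
    (hB : IsClosed B) (hne : B.Nonempty) (h : ∀ p ∈ A, ∀ q ∈ B, (1 / 2 : ℝ) • (p + q) ∈ B) :
    A ⊆ B := by
  intro p hp
  obtain ⟨q, hq⟩ := hne
  have h1 : ∀ k : ℕ, p + (1 / 2 : ℝ) ^ k • (q - p) ∈ B := by
    intro k
    induction k with
    | zero =>
      rw [pow_zero, one_smul, add_sub_cancel]
      exact hq
    | succ k ih =>
      have h2 := h p hp _ ih
      have e : (1 / 2 : ℝ) • (p + (p + (1 / 2 : ℝ) ^ k • (q - p))) =
          p + (1 / 2 : ℝ) ^ (k + 1) • (q - p) := by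
        rw [pow_succ]
        module
      rwa [e] at h2
  have h3 : Tendsto (fun k : ℕ => p + (1 / 2 : ℝ) ^ k • (q - p)) atTop (𝓝 p) := by
    have h4 : Tendsto (fun k : ℕ => (1 / 2 : ℝ) ^ k) atTop (𝓝 0) :=
      tendsto_pow_atTop_nhds_zero_of_lt_one (by norm_num) (by norm_num)
    have h5 := (h4.smul_const (q - p)).const_add p
    rwa [zero_smul, add_zero] at h5
  exact hB.mem_of_tendsto h3 (Eventually.of_forall h1)

/-- midpoints of a point of one image and a point of the other one -/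
theorem face_mid {X Y : Type*} [NormedAddCommGroup X] [NormedSpace ℝ X]
    [NormedAddCommGroup Y] [NormedSpace ℝ Y] {f g : X → Y}
    (hfn : ∀ x, ‖x‖ = 1 → ‖f x‖ = 1) (hgn : ∀ x, ‖x‖ = 1 → ‖g x‖ = 1)
    (hfs : ∀ y, ‖y‖ = 1 → ∃ x, ‖x‖ = 1 ∧ f x = y)
    (hfi : ∀ x y, ‖x‖ = 1 → ‖y‖ = 1 → ‖f x - f y‖ = ‖x - y‖)
    (hfg : ∀ x, ‖x‖ = 1 → g x = -f (-x))
    {C R : Set X} (hCn : ∀ x ∈ C, ‖x‖ = 1) (hRC : R ⊆ C) (hCR : C ⊆ closure R)
    (hR : ∀ x ∈ R, ∀ y : X, (‖y‖ = 1 ∧ ‖x + y‖ = 2) ↔ y ∈ C) (hcl : IsClosed (g '' C)) :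
    ∀ y ∈ C, ∀ x ∈ C, (1 / 2 : ℝ) • (f y + g x) ∈ g '' C := by
  -- sums of two points of the face
  have hsum : ∀ x ∈ C, ∀ y ∈ C, ‖x + y‖ = 2 := by
    intro x hx y hy
    have h1 : closure R ⊆ {x : X | ‖x + y‖ = 2} := by
      refine closure_minimal (fun z hz => ((hR z hz y).2 hy).2) ?_
      exact isClosed_eq (by fun_prop) continuous_const
    exact h1 (hCR hx)
  have hsum2 : ∀ y ∈ C, ∀ x ∈ C, ‖f y + g x‖ = 2 := by
    intro y hy x hx
    have hxn := hCn x hx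
    rw [hfg x hxn, ← sub_eq_add_neg, hfi y (-x) (hCn y hy) (by rw [norm_neg, hxn]), sub_neg_eq_add]
    exact hsum y hy x hx
  have hdense : ∀ y ∈ R, ∀ x ∈ C, (1 / 2 : ℝ) • (f y + g x) ∈ g '' C := by
    intro y hy x hx
    have hyC := hRC hy
    have h2 := hsum2 y hyC x hx
    have hm : ‖(1 / 2 : ℝ) • (f y + g x)‖ = 1 := by
      rw [norm_smul, h2]
      norm_num
    obtain ⟨u, hu, hfu⟩ := hfs (-((1 / 2 : ℝ) • (f y + g x))) (by rw [norm_neg, hm])
    have hgx := hgn x (hCn x hx)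
    have hfy := hfn y (hCn y hyC)
    have h3 : ‖f y - f u‖ = 2 := by
      rw [hfu, sub_neg_eq_add]
      refine le_antisymm ?_ ?_
      · calc ‖f y + (1 / 2 : ℝ) • (f y + g x)‖ ≤ ‖f y‖ + ‖(1 / 2 : ℝ) • (f y + g x)‖ :=
              norm_add_le _ _
          _ = 2 := by
              rw [hm, hfy]
              norm_num
      · have e : f y + (1 / 2 : ℝ) • (f y + g x) = (3 / 2 : ℝ) • (f y + g x) - g x := by module
        rw [e]
        have h4 := norm_sub_norm_le ((3 / 2 : ℝ) • (f y + g x)) (g x)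
        rw [norm_smul, h2, hgx, Real.norm_of_nonneg (by norm_num)] at h4
        linarith
    rw [hfi y u (hCn y hyC) hu] at h3
    have h5 : -u ∈ C := (hR y hy (-u)).1 ⟨by rw [norm_neg, hu], by rw [← sub_eq_add_neg]; exact h3⟩
    refine ⟨-u, h5, ?_⟩
    rw [hfg (-u) (by rw [norm_neg, hu]), neg_neg, hfu, neg_neg]
  intro y hy x hx
  obtain ⟨s, hs, hslim⟩ := mem_closure_iff_seq_limit.1 (hCR hy)
  have h6 : Tendsto (fun n => f (s n)) atTop (𝓝 (f y)) := by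
    rw [tendsto_iff_norm_sub_tendsto_zero]
    have h7 := tendsto_iff_norm_sub_tendsto_zero.1 hslim
    refine h7.congr fun n => ?_
    exact (hfi (s n) y (hCn _ (hRC (hs n))) (hCn y hy)).symm
  have h8 : Tendsto (fun n => (1 / 2 : ℝ) • (f (s n) + g x)) atTop
      (𝓝 ((1 / 2 : ℝ) • (f y + g x))) := (h6.add_const (g x)).const_smul _
  exact hcl.mem_of_tendsto h8 (Eventually.of_forall fun n => hdense _ (hs n) x hx)

theorem face_image {X Y : Type*} [NormedAddCommGroup X] [NormedSpace ℝ X]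
    [NormedAddCommGroup Y] [NormedSpace ℝ Y] {f g : X → Y}
    (hfn : ∀ x, ‖x‖ = 1 → ‖f x‖ = 1) (hgn : ∀ x, ‖x‖ = 1 → ‖g x‖ = 1)
    (hfs : ∀ y, ‖y‖ = 1 → ∃ x, ‖x‖ = 1 ∧ f x = y)
    (hgs : ∀ y, ‖y‖ = 1 → ∃ x, ‖x‖ = 1 ∧ g x = y)
    (hfi : ∀ x y, ‖x‖ = 1 → ‖y‖ = 1 → ‖f x - f y‖ = ‖x - y‖)
    (hgi : ∀ x y, ‖x‖ = 1 → ‖y‖ = 1 → ‖g x - g y‖ = ‖x - y‖)
    (hfg : ∀ x, ‖x‖ = 1 → g x = -f (-x))
    {C R : Set X} (hC : Convex ℝ C) (hCc : IsCompact C) (hCn : ∀ x ∈ C, ‖x‖ = 1)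
    (hRC : R ⊆ C) (hCR : C ⊆ closure R)
    (hR : ∀ x ∈ R, ∀ y : X, (‖y‖ = 1 ∧ ‖x + y‖ = 2) ↔ y ∈ C) :
    f '' C = g '' C ∧ Convex ℝ (f '' C) := by
  have hcont : ∀ h : X → Y, (∀ x y, ‖x‖ = 1 → ‖y‖ = 1 → ‖h x - h y‖ = ‖x - y‖) →
      ContinuousOn h C := by
    intro h hh x hx
    have h1 : Tendsto (fun y => ‖y - x‖) (𝓝[C] x) (𝓝 0) := by
      have h2 : Continuous fun y : X => ‖y - x‖ := by fun_prop
      have h3 := h2.tendsto x
      rw [sub_self, norm_zero] at h3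
      exact h3.mono_left nhdsWithin_le_nhds
    rw [ContinuousWithinAt, tendsto_iff_norm_sub_tendsto_zero]
    refine h1.congr' ?_
    filter_upwards [self_mem_nhdsWithin] with y hy
    exact (hh y x (hCn y hy) (hCn x hx)).symm
  have hfc : IsClosed (f '' C) := (hCc.image_of_continuousOn (hcont f hfi)).isClosed
  have hgc : IsClosed (g '' C) := (hCc.image_of_continuousOn (hcont g hgi)).isClosed
  have hgf : ∀ x, ‖x‖ = 1 → f x = -g (-x) := by
    intro x hx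
    rw [hfg (-x) (by rw [norm_neg, hx]), neg_neg, neg_neg]
  have hm1 := face_mid hfn hgn hfs hfi hfg hCn hRC hCR hR hgc
  have hm2 := face_mid hgn hfn hgs hgi hgf hCn hRC hCR hR hfc
  have hsub1 : f '' C ⊆ g '' C := by
    rcases C.eq_empty_or_nonempty with h0 | h0
    · rw [h0, image_empty, image_empty]
    · refine face_half hgc (h0.image g) ?_
      rintro _ ⟨y, hy, rfl⟩ _ ⟨x, hx, rfl⟩
      exact hm1 y hy x hx
  have hsub2 : g '' C ⊆ f '' C := by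
    rcases C.eq_empty_or_nonempty with h0 | h0
    · rw [h0, image_empty, image_empty]
    · refine face_half hfc (h0.image f) ?_
      rintro _ ⟨y, hy, rfl⟩ _ ⟨x, hx, rfl⟩
      exact hm2 y hy x hx
  have heq : f '' C = g '' C := Subset.antisymm hsub1 hsub2
  refine ⟨heq, face_convex_of_midpoint hfc ?_⟩
  rintro _ ⟨y, hy, rfl⟩ b hb
  rw [heq] at hb
  obtain ⟨x, hx, rfl⟩ := hb
  rw [heq]
  exact hm1 y hy x hx

end Vale.Agent.P084
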