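import Mathlib
import Vale.Agent.Lib.P084.Meas

open Filter Topology Module Metric MeasureTheory Measure Set

namespace Vale.Agent.P084

/-- isometric images do not decrease the volume -/
theorem MankInt_vol_le {E F : Type*} [NormedAddCommGroup E] [NormedSpace ℝ E]
    [MeasurableSpace E] [BorelSpace E] [NormedAddCommGroup F] [NormedSpace ℝ F]
    [MeasurableSpace F] [BorelSpace F] (hdim : finrank ℝ E = finrank ℝ F) {f : E → F} {S : Set E}
    (hiso : ∀ x ∈ S, ∀ y ∈ S, ‖f x - f y‖ = ‖x - y‖) : vol E S ≤ vol F (f '' S) := by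
  have h1 := vol_inter_preimage_le (X := E) (E := F) hdim (f := f) (s := S) (K := 1)
    (fun b hb b' hb' => by rw [hiso b hb b' hb', NNReal.coe_one, one_mul]) (f '' S)
  have h2 : S ∩ f ⁻¹' (f '' S) = S := Set.inter_eq_left.mpr (Set.subset_preimage_image f S)
  rw [h2, one_pow, ENNReal.coe_one, one_mul] at h1
  exact h1

/-- comparison of the volumes of the unit balls -/
theorem MankInt_unit {E F : Type*} [NormedAddCommGroup E] [NormedSpace ℝ E]
    [FiniteDimensional ℝ E] [MeasurableSpace E] [BorelSpace E] [NormedAddCommGroup F]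
    [NormedSpace ℝ F] [FiniteDimensional ℝ F]
    [MeasurableSpace F] [BorelSpace F] (hdim : finrank ℝ E = finrank ℝ F) {f : E → F} {x : E}
    {r : ℝ} (hr : 0 < r)
    (hiso : ∀ a ∈ closedBall x r, ∀ b ∈ closedBall x r, ‖f a - f b‖ = ‖a - b‖) :
    vol E (ball 0 1) ≤ vol F (ball 0 1) := by
  have h1 := MankInt_vol_le hdim hiso
  have h2 : f '' closedBall x r ⊆ closedBall (f x) r := by
    rintro _ ⟨a, ha, rfl⟩
    rw [mem_closedBall, dist_eq_norm, hiso a ha x (mem_closedBall_self hr.le), ← dist_eq_norm]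
    exact ha
  have h3 := h1.trans (measure_mono h2)
  rw [addHaar_closedBall _ _ hr.le, addHaar_closedBall _ _ hr.le, hdim] at h3
  have h4 : ENNReal.ofReal (r ^ finrank ℝ F) ≠ 0 := by
    rw [Ne, ENNReal.ofReal_eq_zero, not_le]
    positivity
  exact (ENNReal.mul_le_mul_iff_right h4 ENNReal.ofReal_ne_top).mp h3

/-- the image of a closed ball is the closed ball -/
theorem MankInt_ball {E F : Type*} [NormedAddCommGroup E] [NormedSpace ℝ E]
    [FiniteDimensional ℝ E] [MeasurableSpace E] [BorelSpace E] [NormedAddCommGroup F]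
    [NormedSpace ℝ F] [FiniteDimensional ℝ F]
    [MeasurableSpace F] [BorelSpace F] (hdim : finrank ℝ E = finrank ℝ F)
    (hc : vol F (ball 0 1) ≤ vol E (ball 0 1)) {f : E → F} {x : E} {r : ℝ} (hr : 0 < r)
    (hiso : ∀ a ∈ closedBall x r, ∀ b ∈ closedBall x r, ‖f a - f b‖ = ‖a - b‖) :
    closedBall (f x) r ⊆ f '' closedBall x r := by
  haveI : ProperSpace E := FiniteDimensional.proper_real E
  have hcont : ContinuousOn f (closedBall x r) := by
    have h1 : LipschitzOnWith 1 f (closedBall x r) := by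
      refine LipschitzOnWith.of_dist_le_mul fun a ha b hb => ?_
      rw [dist_eq_norm, hiso a ha b hb, NNReal.coe_one, one_mul, dist_eq_norm]
    exact h1.continuousOn
  have hK : IsCompact (f '' closedBall x r) := (isCompact_closedBall x r).image_of_continuousOn hcont
  have hsub : f '' closedBall x r ⊆ closedBall (f x) r := by
    rintro _ ⟨a, ha, rfl⟩
    rw [mem_closedBall, dist_eq_norm, hiso a ha x (mem_closedBall_self hr.le), ← dist_eq_norm]
    exact ha
  have h1 := MankInt_vol_le hdim hiso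
  have h2 : vol F (closedBall (f x) r) ≤ vol F (f '' closedBall x r) := by
    refine le_trans ?_ h1
    rw [addHaar_closedBall _ _ hr.le, addHaar_closedBall _ _ hr.le, hdim]
    gcongr
  have h3 : vol F (closedBall (f x) r \ f '' closedBall x r) = 0 := by
    rw [measure_sdiff hsub hK.isClosed.measurableSet.nullMeasurableSet
      hK.measure_lt_top.ne]
    exact tsub_eq_zero_of_le h2
  have h4 : IsOpen (ball (f x) r \ f '' closedBall x r) := isOpen_ball.sdiff hK.isClosed
  have h5 : ball (f x) r \ f '' closedBall x r = ∅ := by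
    rw [← h4.measure_eq_zero_iff (μ := vol F)]
    exact measure_mono_null (Set.sdiff_subset_sdiff_left ball_subset_closedBall) h3
  have h6 : ball (f x) r ⊆ f '' closedBall x r := Set.sdiff_eq_empty.mp h5
  rw [← closure_ball (f x) hr.ne']
  exact closure_minimal h6 hK.isClosed

/-- Vaisala's trick -/
theorem MankInt_fixed {E : Type*} [NormedAddCommGroup E] [NormedSpace ℝ E] {D : Set E} {m : E}
    (hm : m ∈ D) (hbdd : Bornology.IsBounded D) (hR : ∀ z ∈ D, m + (m - z) ∈ D)
    (e : D ≃ᵢ D) : e ⟨m, hm⟩ = ⟨m, hm⟩ := by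
  -- the reflection
  let R : D ≃ᵢ D :=
    { toFun := fun z => ⟨m + (m - z), hR z z.2⟩
      invFun := fun z => ⟨m + (m - z), hR z z.2⟩
      left_inv := fun z => by ext1; simp
      right_inv := fun z => by ext1; simp
      isometry_toFun := by
        refine Isometry.of_dist_eq fun a b => ?_
        rw [Subtype.dist_eq, Subtype.dist_eq, dist_eq_norm, dist_eq_norm, ← norm_neg]
        congr 1
        simp }
  have hRm : R ⟨m, hm⟩ = ⟨m, hm⟩ := by
    ext1
    change m + (m - m) = m
    simp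
  have hRR : ∀ z, R (R z) = z := fun z => by
    ext1
    change m + (m - (m + (m - (z : E)))) = z
    simp
  have hRd : ∀ z, dist (R z) z = 2 * dist z ⟨m, hm⟩ := by
    intro z
    rw [Subtype.dist_eq, Subtype.dist_eq, dist_eq_norm, dist_eq_norm]
    change ‖m + (m - (z : E)) - z‖ = 2 * ‖(z : E) - m‖
    have h1 : m + (m - (z : E)) - z = (-2 : ℝ) • ((z : E) - m) := by
      rw [neg_smul, two_smul]
      abel
    rw [h1, norm_smul]
    norm_num
  obtain ⟨C, hC⟩ := hbdd.exists_norm_le
  have h_bdd : BddAbove (range fun g : D ≃ᵢ D => dist (g ⟨m, hm⟩) ⟨m, hm⟩) := by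
    refine ⟨C + C, ?_⟩
    rintro _ ⟨g, rfl⟩
    change dist (g ⟨m, hm⟩) ⟨m, hm⟩ ≤ C + C
    rw [Subtype.dist_eq, dist_eq_norm]
    exact (norm_sub_le _ _).trans (add_le_add (hC _ (g ⟨m, hm⟩).2) (hC m hm))
  let T : (D ≃ᵢ D) → (D ≃ᵢ D) := fun g => ((g.trans R).trans g.symm).trans R
  have hT : ∀ g : D ≃ᵢ D, dist (T g ⟨m, hm⟩) ⟨m, hm⟩ = 2 * dist (g ⟨m, hm⟩) ⟨m, hm⟩ := by
    intro g
    change dist (R (g.symm (R (g ⟨m, hm⟩)))) ⟨m, hm⟩ = _
    have h1 : dist (R (g.symm (R (g ⟨m, hm⟩)))) ⟨m, hm⟩ =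
        dist (R (g.symm (R (g ⟨m, hm⟩)))) (R ⟨m, hm⟩) := by rw [hRm]
    rw [h1, R.dist_eq, ← g.dist_eq, g.apply_symm_apply, hRd]
  set c := ⨆ g : D ≃ᵢ D, dist (g ⟨m, hm⟩) ⟨m, hm⟩ with hc
  haveI : Nonempty (D ≃ᵢ D) := ⟨e⟩
  have h1 : c ≤ c / 2 := by
    apply ciSup_le
    intro g
    rw [le_div_iff₀' (zero_lt_two' ℝ), ← hT]
    exact le_ciSup h_bdd (T g)
  have h2 : c ≤ 0 := by linarith
  have h3 : dist (e ⟨m, hm⟩) ⟨m, hm⟩ ≤ c := le_ciSup h_bdd e
  exact dist_le_zero.mp (h3.trans h2)

/-- centres of symmetry are preserved -/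
theorem MankInt_centre {E F : Type*} [NormedAddCommGroup E] [NormedSpace ℝ E]
    [NormedAddCommGroup F] [NormedSpace ℝ F] {D : Set E} {D' : Set F} {m : E} {m' : F}
    (hm : m ∈ D) (hbdd : Bornology.IsBounded D) (hR : ∀ z ∈ D, m + (m - z) ∈ D)
    (hR' : ∀ z ∈ D', m' + (m' - z) ∈ D') {f : E → F} (hf : Set.BijOn f D D')
    (hiso : ∀ x ∈ D, ∀ y ∈ D, ‖f x - f y‖ = ‖x - y‖) : f m = m' := by
  let fD : D ≃ᵢ D' :=
    { toEquiv := hf.equiv f
      isometry_toFun := by
        refine Isometry.of_dist_eq fun a b => ?_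
        rw [Subtype.dist_eq, Subtype.dist_eq, dist_eq_norm, dist_eq_norm]
        exact hiso a a.2 b b.2 }
  let R : D ≃ᵢ D :=
    { toFun := fun z => ⟨m + (m - z), hR z z.2⟩
      invFun := fun z => ⟨m + (m - z), hR z z.2⟩
      left_inv := fun z => by ext1; simp
      right_inv := fun z => by ext1; simp
      isometry_toFun := by
        refine Isometry.of_dist_eq fun a b => ?_
        rw [Subtype.dist_eq, Subtype.dist_eq, dist_eq_norm, dist_eq_norm, ← norm_neg]
        congr 1
        simp }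
  let R' : D' ≃ᵢ D' :=
    { toFun := fun z => ⟨m' + (m' - z), hR' z z.2⟩
      invFun := fun z => ⟨m' + (m' - z), hR' z z.2⟩
      left_inv := fun z => by ext1; simp
      right_inv := fun z => by ext1; simp
      isometry_toFun := by
        refine Isometry.of_dist_eq fun a b => ?_
        rw [Subtype.dist_eq, Subtype.dist_eq, dist_eq_norm, dist_eq_norm, ← norm_neg]
        congr 1
        simp }
  have h1 := MankInt_fixed hm hbdd hR (((fD.trans R').trans fD.symm).trans R)
  have h2 : R (fD.symm (R' (fD ⟨m, hm⟩))) = ⟨m, hm⟩ := h1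
  have h3 : fD.symm (R' (fD ⟨m, hm⟩)) = ⟨m, hm⟩ := by
    have h4 : R (R (fD.symm (R' (fD ⟨m, hm⟩)))) = R ⟨m, hm⟩ := by rw [h2]
    have h5 : ∀ z, R (R z) = z := fun z => by
      ext1
      change m + (m - (m + (m - (z : E)))) = z
      simp
    have h6 : R ⟨m, hm⟩ = ⟨m, hm⟩ := by
      ext1
      change m + (m - m) = m
      simp
    rw [h5, h6] at h4
    exact h4
  have h4 : R' (fD ⟨m, hm⟩) = fD ⟨m, hm⟩ := by
    rw [← fD.apply_symm_apply (R' (fD ⟨m, hm⟩)), h3]
  have h5 : m' + (m' - f m) = f m := congrArg Subtype.val h4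
  have h6 : (2 : ℝ) • f m = (2 : ℝ) • m' := by
    rw [two_smul, two_smul]
    nth_rewrite 1 [← h5]
    abel
  exact smul_right_injective F (two_ne_zero' ℝ) h6

/-- the set in the local argument is symmetric -/
theorem MankInt_sym {E : Type*} [NormedAddCommGroup E] [NormedSpace ℝ E] (x y : E) (d : ℝ) :
    ∀ z ∈ {z : E | ‖z - x‖ ≤ d ∧ ‖z - y‖ ≤ d},
      midpoint ℝ x y + (midpoint ℝ x y - z) ∈ {z : E | ‖z - x‖ ≤ d ∧ ‖z - y‖ ≤ d} := by
  rintro z ⟨h1, h2⟩
  have h3 : midpoint ℝ x y + (midpoint ℝ x y - z) = x + y - z := by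
    rw [← add_sub_assoc, midpoint_add_self]
  rw [h3]
  constructor
  · have h4 : x + y - z - x = -(z - y) := by abel
    rw [h4, norm_neg]
    exact h2
  · have h4 : x + y - z - y = -(z - x) := by abel
    rw [h4, norm_neg]
    exact h1

/-- local midpoints -/
theorem MankInt_local {E F : Type*} [NormedAddCommGroup E] [NormedSpace ℝ E]
    [FiniteDimensional ℝ E] [MeasurableSpace E] [BorelSpace E] [NormedAddCommGroup F]
    [NormedSpace ℝ F] [FiniteDimensional ℝ F]
    [MeasurableSpace F] [BorelSpace F] (hdim : finrank ℝ E = finrank ℝ F)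
    (hc : vol F (ball 0 1) ≤ vol E (ball 0 1)) {f : E → F} {C : Set E}
    (hiso : ∀ a ∈ C, ∀ b ∈ C, ‖f a - f b‖ = ‖a - b‖) {x y : E}
    (hx : closedBall x ‖x - y‖ ⊆ C) (hy : y ∈ C) :
    f (midpoint ℝ x y) = midpoint ℝ (f x) (f y) := by
  rcases eq_or_ne x y with rfl | hxy
  · simp
  have hd : 0 < ‖x - y‖ := norm_sub_pos_iff.mpr hxy
  have hxC : x ∈ C := hx (mem_closedBall_self hd.le)
  set d := ‖x - y‖ with hd'
  have hDC : {z : E | ‖z - x‖ ≤ d ∧ ‖z - y‖ ≤ d} ⊆ C := fun z hz => hx (by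
    rw [mem_closedBall, dist_eq_norm]
    exact hz.1)
  have hball := MankInt_ball hdim hc hd (f := f) (x := x)
    (fun a ha b hb => hiso a (hx ha) b (hx hb))
  refine MankInt_centre (D := {z : E | ‖z - x‖ ≤ d ∧ ‖z - y‖ ≤ d})
    (D' := {z : F | ‖z - f x‖ ≤ d ∧ ‖z - f y‖ ≤ d}) ?_ ?_ (MankInt_sym x y d)
    (MankInt_sym (f x) (f y) d) ?_ (fun a ha b hb => hiso a (hDC ha) b (hDC hb))
  · constructor
    · rw [midpoint_sub_left, norm_smul, norm_sub_rev y x]
      norm_num
      linarith
    · rw [midpoint_sub_right, norm_smul]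
      norm_num
      linarith
  · refine (isBounded_closedBall (x := x) (r := d)).subset fun z hz => ?_
    rw [mem_closedBall, dist_eq_norm]
    exact hz.1
  · refine ⟨?_, ?_, ?_⟩
    · rintro z hz
      exact ⟨by rw [hiso z (hDC hz) x hxC]; exact hz.1, by rw [hiso z (hDC hz) y hy]; exact hz.2⟩
    · intro a ha b hb hab
      have h1 := hiso a (hDC ha) b (hDC hb)
      rw [hab, sub_self, norm_zero] at h1
      exact sub_eq_zero.mp (norm_eq_zero.mp h1.symm)
    · rintro z hz
      obtain ⟨a, ha, rfl⟩ := hball (by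
        rw [mem_closedBall, dist_eq_norm]
        exact hz.1 : z ∈ closedBall (f x) d)
      refine ⟨a, ⟨?_, ?_⟩, rfl⟩
      · rw [← hiso a (hx ha) x hxC]
        exact hz.1
      · rw [← hiso a (hx ha) y hy]
        exact hz.2

theorem MankInt_mid {V : Type*} [NormedAddCommGroup V] [NormedSpace ℝ V] (a b : V) :
    midpoint ℝ a b = (1 / 2 : ℝ) • (a + b) := by
  rw [midpoint_eq_smul_add, invOf_eq_inv, one_div]

/-- midpoints on an interval: from local to global -/
theorem MankInt_line {F : Type*} [NormedAddCommGroup F] [NormedSpace ℝ F] (h : ℝ → F) (η : ℝ)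
    (hη : 0 < η) (hloc : ∀ s ∈ Icc (0 : ℝ) 1, ∀ t ∈ Icc (0 : ℝ) 1, |s - t| ≤ η →
      h ((s + t) / 2) = (1 / 2 : ℝ) • (h s + h t)) :
    ∀ s ∈ Icc (0 : ℝ) 1, ∀ t ∈ Icc (0 : ℝ) 1, h ((s + t) / 2) = (1 / 2 : ℝ) • (h s + h t) := by
  have hk : ∀ k : ℕ, ∀ s ∈ Icc (0 : ℝ) 1, ∀ t ∈ Icc (0 : ℝ) 1, |s - t| ≤ 2 ^ k * η →
      h ((s + t) / 2) = (1 / 2 : ℝ) • (h s + h t) := by
    intro k
    induction k with
    | zero =>
      intro s hs t ht hst
      rw [pow_zero, one_mul] at hst
      exact hloc s hs t ht hst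
    | succ k ih =>
      intro s hs t ht hst
      have hst' : |s - t| / 2 ≤ 2 ^ k * η := by
        rw [pow_succ] at hst
        linarith
      set c := (s + t) / 2 with hcdef
      set b := (s + c) / 2 with hbdef
      set e := (c + t) / 2 with hedef
      have hcI : c ∈ Icc (0 : ℝ) 1 := by
        constructor
        · have := hs.1; have := ht.1; linarith
        · have := hs.2; have := ht.2; linarith
      have hbI : b ∈ Icc (0 : ℝ) 1 := by
        constructor
        · have := hs.1; have := hcI.1; linarith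
        · have := hs.2; have := hcI.2; linarith
      have heI : e ∈ Icc (0 : ℝ) 1 := by
        constructor
        · have := ht.1; have := hcI.1; linarith
        · have := ht.2; have := hcI.2; linarith
      have h1 : h b = (1 / 2 : ℝ) • (h s + h c) := by
        refine ih s hs c hcI ?_
        have : s - c = (s - t) / 2 := by rw [hcdef]; ring
        rw [this, abs_div, abs_two]
        exact hst'
      have h2 : h e = (1 / 2 : ℝ) • (h c + h t) := by
        refine ih c hcI t ht ?_
        have : c - t = (s - t) / 2 := by rw [hcdef]; ring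
        rw [this, abs_div, abs_two]
        exact hst'
      have h3 : h ((b + e) / 2) = (1 / 2 : ℝ) • (h b + h e) := by
        refine ih b hbI e heI ?_
        have : b - e = (s - t) / 2 := by rw [hbdef, hedef, hcdef]; ring
        rw [this, abs_div, abs_two]
        exact hst'
      have h4 : (b + e) / 2 = c := by rw [hbdef, hedef, hcdef]; ring
      rw [h4, h1, h2] at h3
      have h5 : (1 / 2 : ℝ) • h c = (1 / 2 : ℝ) • ((1 / 2 : ℝ) • (h s + h t)) := by
        have h6 : h c = (1 / 4 : ℝ) • h s + (1 / 2 : ℝ) • h c + (1 / 4 : ℝ) • h t := by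
          calc h c = _ := h3
            _ = _ := by
              module
        have h7 : h c = (1 / 2 : ℝ) • h c + (1 / 2 : ℝ) • h c := by module
        have h8 : (1 / 2 : ℝ) • h c + (1 / 2 : ℝ) • h c =
            (1 / 4 : ℝ) • h s + (1 / 2 : ℝ) • h c + (1 / 4 : ℝ) • h t := h7 ▸ h6
        have h9 : (1 / 2 : ℝ) • h c = (1 / 4 : ℝ) • h s + (1 / 4 : ℝ) • h t := by
          have h10 := congrArg (fun v => v - (1 / 2 : ℝ) • h c) h8
          simp only [add_sub_cancel_right] at h10
          rw [h10]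
          abel
        rw [h9]
        module
      exact smul_right_injective F (by norm_num : (1 / 2 : ℝ) ≠ 0) h5
  intro s hs t ht
  obtain ⟨k, hk'⟩ := pow_unbounded_of_one_lt (1 / η) (one_lt_two : (1 : ℝ) < 2)
  refine hk k s hs t ht ?_
  have h1 : |s - t| ≤ 1 := by
    rw [abs_le]
    constructor
    · have := hs.1; have := ht.2; linarith
    · have := hs.2; have := ht.1; linarith
  have h2 : 1 ≤ 2 ^ k * η := by
    rw [div_lt_iff₀ hη] at hk'
    exact hk'.le
  linarith

/-
PROOF (Mankiewicz / Vaisala, for bodies).  Let `vol` be the Hausdorff measure of dimension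
`n = finrank` (see Meas.lean: `vol`, it is an additive Haar measure, instance `vol_isAddHaar`).
(a) Isometric images have the same Hausdorff measure (`Isometry.hausdorffMeasure_image`, or
`LipschitzOnWith.hausdorffMeasure_image_le` in both directions).  Let `c = vol E (ball 0 1)`,
`c' = vol F (ball 0 1)`.  If `closedBall x r ⊆ C` then `f '' closedBall x r ⊆ closedBall (f x) r ∩ C'`, so
`c r^n ≤ vol F (closedBall (f x) r ∩ C') ≤ c' r^n`; applying the same to the inverse map gives `c' ≤ c`, so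
`c = c'` (finite, positive).  Hence `closedBall (f x) r \ C'` is null, and since `C'` is closed,
`closedBall (f x) r ⊆ C'`.  The same for the inverse.
(b) Local midpoints.  Let `x, y ∈ C`, `closedBall x ρ ⊆ C`, `closedBall y ρ ⊆ C`, `2 ‖x - y‖ ≤ ρ`, `d = ‖x - y‖`.
`D = {z | ‖z - x‖ ≤ d ∧ ‖z - y‖ ≤ d}` and `D' = {z | ‖z - f x‖ ≤ d ∧ ‖z - f y‖ ≤ d}` lie in `C`, `C'`
(by (a)), `f` maps `D` bijectively onto `D'`; `D` is symmetric about `m = midpoint x y`, `D'` about
`m' = midpoint (f x) (f y)`, and `m ∈ D`.  Vaisala's trick: every bijective isometry `g` of `D` onto itself fixes `m`: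
let `s` be the supremum of `‖g m - m‖` over all such `g` (bounded); with `ψ` the reflection in `m`,
`g* = ψ g⁻¹ ψ g` is such a map with `‖g* m - m‖ = 2 ‖g m - m‖`, so `2 s ≤ s`, `s = 0` (compare
`IsometryEquiv.midpoint_fixed` in Mathlib).  Apply to `g = f⁻¹ ψ' f ψ`: it fixes `m`, so `ψ' (f m) = f m`, i.e.
`f m = m'`.
(c) For `x, y` in the interior of `C`: the segment is compact in the interior, subdivide it finely; by (b) the images of
the equidistant points have vanishing second differences, so they are equidistant: `f (midpoint) = midpoint`.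
(d) For general `x, y ∈ C`: approximate by `(1-t) x + t c₀`, `(1-t) y + t c₀` with `c₀` interior
(`Convex.combo_interior_closure_mem_interior` etc.) and use continuity of `f` on `C`.
-/
theorem mank_interior {E F : Type*} [NormedAddCommGroup E] [NormedSpace ℝ E]
    [FiniteDimensional ℝ E] [NormedAddCommGroup F] [NormedSpace ℝ F] [FiniteDimensional ℝ F]
    (hdim : finrank ℝ E = finrank ℝ F) {C : Set E} {C' : Set F}
    (hC : Convex ℝ C) (hCc : IsCompact C) (hCi : (interior C).Nonempty)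
    (hC' : Convex ℝ C') (hCc' : IsCompact C') (hCi' : (interior C').Nonempty)
    {f : E → F} (hf : Set.BijOn f C C') (hiso : ∀ x ∈ C, ∀ y ∈ C, ‖f x - f y‖ = ‖x - y‖) :
    ∀ x ∈ C, ∀ y ∈ C, f (midpoint ℝ x y) = midpoint ℝ (f x) (f y) := by
  borelize E F
  -- the inverse
  have hg : Set.InvOn (Function.invFunOn f C) f C C' := hf.invOn_invFunOn
  set g := Function.invFunOn f C with hgdef
  have hgm : Set.MapsTo g C' C := fun y hy => by
    obtain ⟨a, ha, rfl⟩ := hf.surjOn hy
    rw [hg.1 ha]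
    exact ha
  have hgiso : ∀ x ∈ C', ∀ y ∈ C', ‖g x - g y‖ = ‖x - y‖ := by
    intro x hx y hy
    rw [← hiso _ (hgm hx) _ (hgm hy), hg.2 hx, hg.2 hy]
  have hc : vol F (ball 0 1) ≤ vol E (ball 0 1) := by
    obtain ⟨z, hz⟩ := hCi'
    obtain ⟨r, hr, hrC⟩ := Metric.isOpen_iff.mp isOpen_interior z hz
    have h1 : closedBall z (r / 2) ⊆ C' :=
      (closedBall_subset_ball (by linarith)).trans (hrC.trans interior_subset)
    exact MankInt_unit hdim.symm (f := g) (x := z) (half_pos hr)
      (fun a ha b hb => hgiso a (h1 ha) b (h1 hb))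
  have hcont : ContinuousOn f C := by
    have h1 : LipschitzOnWith 1 f C := by
      refine LipschitzOnWith.of_dist_le_mul fun a ha b hb => ?_
      rw [dist_eq_norm, hiso a ha b hb, NNReal.coe_one, one_mul, dist_eq_norm]
    exact h1.continuousOn
  -- interior points
  have hint : ∀ x ∈ interior C, ∀ y ∈ interior C,
      f (midpoint ℝ x y) = midpoint ℝ (f x) (f y) := by
    intro x hx y hy
    have hseg : segment ℝ x y ⊆ interior C := hC.interior.segment_subset hx hy
    have hsegc : IsCompact (segment ℝ x y) := by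
      rw [segment_eq_image_lineMap]
      exact isCompact_Icc.image (AffineMap.lineMap_continuous)
    obtain ⟨ρ, hρ, hρC⟩ := hsegc.exists_cthickening_subset_open isOpen_interior hseg
    have hball : ∀ z ∈ segment ℝ x y, closedBall z ρ ⊆ C := fun z hz =>
      (closedBall_subset_cthickening hz ρ).trans (hρC.trans interior_subset)
    let h : ℝ → F := fun s => f (x + s • (y - x))
    have hmem : ∀ s ∈ Icc (0 : ℝ) 1, x + s • (y - x) ∈ segment ℝ x y := by
      intro s hs
      rw [segment_eq_image']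
      exact ⟨s, hs, rfl⟩
    have hη : 0 < ρ / (‖y - x‖ + 1) := by positivity
    have hline := MankInt_line h (ρ / (‖y - x‖ + 1)) hη (by
      intro s hs t ht hst
      have h1 : (x + s • (y - x)) - (x + t • (y - x)) = (s - t) • (y - x) := by
        rw [sub_smul]; abel
      have h2 : ‖(x + s • (y - x)) - (x + t • (y - x))‖ ≤ ρ := by
        rw [h1, norm_smul, Real.norm_eq_abs]
        rw [le_div_iff₀ (by positivity)] at hst
        have h3 : 0 ≤ |s - t| := abs_nonneg _
        nlinarith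
      have h3 := MankInt_local hdim hc hiso (x := x + s • (y - x)) (y := x + t • (y - x))
        ((closedBall_subset_closedBall h2).trans (hball _ (hmem s hs)))
        (interior_subset (hseg (hmem t ht)))
      rw [MankInt_mid, MankInt_mid] at h3
      change f (x + ((s + t) / 2) • (y - x)) = (1 / 2 : ℝ) • (f (x + s • (y - x)) +
        f (x + t • (y - x)))
      rw [← h3]
      congr 1
      module)
    have h4 := hline 0 ⟨le_rfl, zero_le_one⟩ 1 ⟨zero_le_one, le_rfl⟩
    rw [MankInt_mid, MankInt_mid]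
    have h5 : f (x + ((0 + 1 : ℝ) / 2) • (y - x)) = (1 / 2 : ℝ) • (f (x + (0 : ℝ) • (y - x)) +
        f (x + (1 : ℝ) • (y - x))) := h4
    have h6 : x + (0 : ℝ) • (y - x) = x := by simp
    have h7 : x + (1 : ℝ) • (y - x) = y := by simp
    have h8 : x + ((0 + 1 : ℝ) / 2) • (y - x) = (1 / 2 : ℝ) • (x + y) := by module
    rw [h6, h7, h8] at h5
    exact h5
  -- approximation
  intro x hx y hy
  obtain ⟨c₀, hc₀⟩ := hCi
  let u : ℝ → E → E := fun t z => t • c₀ + (1 - t) • z
  have hu : ∀ z ∈ C, ∀ t ∈ Ioc (0 : ℝ) 1, u t z ∈ interior C := fun z hz t ht =>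
    hC.combo_interior_self_mem_interior hc₀ hz ht.1 (by linarith [ht.2]) (by ring)
  have hut : ∀ z : E, Tendsto (fun t => u t z) (𝓝[>] (0 : ℝ)) (𝓝 z) := by
    intro z
    have h1 : Continuous fun t : ℝ => u t z := by
      unfold u
      fun_prop
    have h2 : Tendsto (fun t => u t z) (𝓝 (0 : ℝ)) (𝓝 (u 0 z)) := h1.tendsto 0
    have h3 : u 0 z = z := by
      change (0 : ℝ) • c₀ + (1 - 0 : ℝ) • z = z
      simp
    rw [h3] at h2
    exact h2.mono_left nhdsWithin_le_nhds
  have hev : ∀ᶠ t in 𝓝[>] (0 : ℝ), t ∈ Ioc (0 : ℝ) 1 := Ioc_mem_nhdsGT one_pos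
  have hfu : ∀ z ∈ C, Tendsto (fun t => f (u t z)) (𝓝[>] (0 : ℝ)) (𝓝 (f z)) := by
    intro z hz
    have h1 : Tendsto (fun t => u t z) (𝓝[>] (0 : ℝ)) (𝓝[C] z) :=
      tendsto_nhdsWithin_iff.mpr ⟨hut z, hev.mono fun t ht => interior_subset (hu z hz t ht)⟩
    exact (hcont z hz).tendsto.comp h1
  have hmC : midpoint ℝ x y ∈ C := hC.midpoint_mem hx hy
  have h1 : Tendsto (fun t => f (midpoint ℝ (u t x) (u t y))) (𝓝[>] (0 : ℝ))
      (𝓝 (f (midpoint ℝ x y))) := by
    have h2 : ∀ t : ℝ, midpoint ℝ (u t x) (u t y) = u t (midpoint ℝ x y) := by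
      intro t
      rw [MankInt_mid, MankInt_mid]
      change (1 / 2 : ℝ) • ((t • c₀ + (1 - t) • x) + (t • c₀ + (1 - t) • y)) =
        t • c₀ + (1 - t) • ((1 / 2 : ℝ) • (x + y))
      module
    simp only [h2]
    exact hfu _ hmC
  have h2 : Tendsto (fun t => f (midpoint ℝ (u t x) (u t y))) (𝓝[>] (0 : ℝ))
      (𝓝 (midpoint ℝ (f x) (f y))) := by
    have h3 : Tendsto (fun t => (1 / 2 : ℝ) • (f (u t x) + f (u t y))) (𝓝[>] (0 : ℝ))
        (𝓝 ((1 / 2 : ℝ) • (f x + f y))) := ((hfu x hx).add (hfu y hy)).const_smul _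
    rw [MankInt_mid]
    refine h3.congr' ?_
    filter_upwards [hev] with t ht
    rw [hint _ (hu x hx t ht) _ (hu y hy t ht), MankInt_mid]
  exact tendsto_nhds_unique h1 h2

end Vale.Agent.P084
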