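import Mathlib
import Vale.Agent.Lib.P084F.MankInt
open Filter Topology Module Metric MeasureTheory Measure Set

namespace Vale.Agent.P084

/-- the translated body in its own span -/
theorem mank_body_interior {E : Type*} [NormedAddCommGroup E] [NormedSpace ℝ E]
    [FiniteDimensional ℝ E] {C : Set E} (hC : Convex ℝ C) {c : E} (hc : c ∈ C) :
    (interior {v : vectorSpan ℝ C | c + (v : E) ∈ C}).Nonempty := by
  have h := (intrinsicInterior_nonempty hC).mpr ⟨c, hc⟩
  obtain ⟨_, ⟨x, hx, rfl⟩⟩ := h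
  have hmem : ∀ v : vectorSpan ℝ C, c + (v : E) ∈ affineSpan ℝ C := by
    intro v
    have h1 : (v : E) ∈ (affineSpan ℝ C).direction := by
      rw [direction_affineSpan]; exact v.2
    have h2 := AffineSubspace.vadd_mem_of_mem_direction h1 (subset_affineSpan ℝ C hc)
    rwa [vadd_eq_add, add_comm] at h2
  have hcont : Continuous (fun v : vectorSpan ℝ C => (⟨c + (v : E), hmem v⟩ : affineSpan ℝ C)) := by
    apply Continuous.subtype_mk
    fun_prop
  have hopen := isOpen_interior (s := ((↑) ⁻¹' C : Set (affineSpan ℝ C)))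
  have hopen' := hopen.preimage hcont
  have hsub : (fun v : vectorSpan ℝ C => (⟨c + (v : E), hmem v⟩ : affineSpan ℝ C)) ⁻¹'
      (interior ((↑) ⁻¹' C : Set (affineSpan ℝ C))) ⊆ {v : vectorSpan ℝ C | c + (v : E) ∈ C} := by
    intro v hv
    have := interior_subset hv
    exact this
  have hxc : (x : E) - c ∈ vectorSpan ℝ C := by
    have h1 := AffineSubspace.vsub_mem_direction x.2 (subset_affineSpan ℝ C hc)
    rw [direction_affineSpan] at h1
    exact h1
  refine ⟨⟨(x : E) - c, hxc⟩, interior_maximal hsub hopen' ?_⟩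
  have : (⟨c + ((x : E) - c), hmem ⟨(x : E) - c, hxc⟩⟩ : affineSpan ℝ C) = x := by
    apply Subtype.ext
    simp
  rw [Set.mem_preimage]
  simp only
  rw [this]
  exact hx

theorem mank_body_convex {E : Type*} [NormedAddCommGroup E] [NormedSpace ℝ E]
    {C : Set E} (hC : Convex ℝ C) (c : E) :
    Convex ℝ {v : vectorSpan ℝ C | c + (v : E) ∈ C} := by
  intro v hv w hw a b ha hb hab
  have := hC hv hw ha hb hab
  show c + ((a • v + b • w : vectorSpan ℝ C) : E) ∈ C
  convert this using 1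
  push_cast
  rw [smul_add, smul_add]
  have : c = a • c + b • c := by rw [← add_smul, hab, one_smul]
  nth_rewrite 1 [this]
  abel

theorem mank_body_compact {E : Type*} [NormedAddCommGroup E] [NormedSpace ℝ E]
    [FiniteDimensional ℝ E] {C : Set E} (hC : IsCompact C) (c : E) :
    IsCompact {v : vectorSpan ℝ C | c + (v : E) ∈ C} := by
  have hemb : Topology.IsClosedEmbedding (fun v : vectorSpan ℝ C => c + (v : E)) := by
    have h1 : Topology.IsClosedEmbedding (fun v : vectorSpan ℝ C => (v : E)) :=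
      (Submodule.closed_of_finiteDimensional (vectorSpan ℝ C)).isClosedEmbedding_subtypeVal
    exact (Homeomorph.addLeft c).isClosedEmbedding.comp h1
  exact hemb.isCompact_preimage hC

theorem mank_finrank {E F : Type*} [NormedAddCommGroup E] [NormedSpace ℝ E]
    [FiniteDimensional ℝ E] [NormedAddCommGroup F] [NormedSpace ℝ F] [FiniteDimensional ℝ F]
    {C : Set E} {C' : Set F} (hC : Convex ℝ C) (hC' : Convex ℝ C') (hne : C.Nonempty)
    {f : E → F} (hf : Set.BijOn f C C') (hiso : ∀ x ∈ C, ∀ y ∈ C, ‖f x - f y‖ = ‖x - y‖) :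
    finrank ℝ (vectorSpan ℝ C) = finrank ℝ (vectorSpan ℝ C') := by
  have h1 := Real.Convex.dimH_eq_finrank_vectorSpan hC hne
  have hne' : C'.Nonempty := by
    obtain ⟨c, hc⟩ := hne
    exact ⟨f c, hf.mapsTo hc⟩
  have h2 := Real.Convex.dimH_eq_finrank_vectorSpan hC' hne'
  have h3 : dimH C = dimH C' := by
    have himg : f '' C = C' := hf.image_eq
    apply le_antisymm
    · classical
      obtain ⟨c, hc⟩ := hne
      set g := Function.invFunOn f C with hg
      have hinv : Set.InvOn g f C C' := by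
        have := hf.invOn_invFunOn
        exact this
      have hgimg : g '' C' = C := by
        have := (hf.symm hinv.symm).image_eq
        exact this
      have hlip : LipschitzOnWith 1 g C' := by
        apply LipschitzOnWith.of_dist_le_mul
        intro x hx y hy
        obtain ⟨x', hx', rfl⟩ := hf.surjOn hx
        obtain ⟨y', hy', rfl⟩ := hf.surjOn hy
        rw [hinv.1 hx', hinv.1 hy', dist_eq_norm, dist_eq_norm, hiso x' hx' y' hy']
        simp
      have := hlip.dimH_image_le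
      rwa [hgimg] at this
    · have hlip : LipschitzOnWith 1 f C := by
        apply LipschitzOnWith.of_dist_le_mul
        intro x hx y hy
        rw [dist_eq_norm, dist_eq_norm, hiso x hx y hy]
        simp
      have := hlip.dimH_image_le
      rwa [himg] at this
  rw [h1, h2] at h3
  exact_mod_cast h3

theorem mank_exists_map {E F : Type*} [NormedAddCommGroup E] [NormedSpace ℝ E]
    [NormedAddCommGroup F] [NormedSpace ℝ F]
    {C : Set E} {C' : Set F} {f : E → F} (hf : Set.BijOn f C C') {x : E} (hx : x ∈ C) :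
    ∃ f₀ : vectorSpan ℝ C → vectorSpan ℝ C',
      ∀ v : vectorSpan ℝ C, x + (v : E) ∈ C → (f₀ v : F) = f (x + (v : E)) - f x := by
  classical
  have hfx : f x ∈ C' := hf.mapsTo hx
  have hmemV' : ∀ z : E, z ∈ C → f z - f x ∈ vectorSpan ℝ C' := fun z hz =>
    vsub_mem_vectorSpan ℝ (hf.mapsTo hz) hfx
  refine ⟨fun v => if h : x + (v : E) ∈ C then ⟨f (x + (v : E)) - f x, hmemV' _ h⟩ else 0, ?_⟩
  intro v hv
  simp only [dif_pos hv]

theorem mank_map_bijOn {E F : Type*} [NormedAddCommGroup E] [NormedSpace ℝ E]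
    [NormedAddCommGroup F] [NormedSpace ℝ F]
    {C : Set E} {C' : Set F} {f : E → F} (hf : Set.BijOn f C C') {x : E} (hx : x ∈ C)
    {f₀ : vectorSpan ℝ C → vectorSpan ℝ C'}
    (hf₀ : ∀ v : vectorSpan ℝ C, x + (v : E) ∈ C → (f₀ v : F) = f (x + (v : E)) - f x) :
    Set.BijOn f₀ {v : vectorSpan ℝ C | x + (v : E) ∈ C}
      {w : vectorSpan ℝ C' | f x + (w : F) ∈ C'} := by
  refine ⟨?_, ?_, ?_⟩
  · intro v hv
    show f x + (f₀ v : F) ∈ C'
    rw [hf₀ v hv]
    have := hf.mapsTo (show x + (v : E) ∈ C from hv)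
    simpa using this
  · intro v hv w hw hvw
    have h1 : (f₀ v : F) = (f₀ w : F) := by rw [hvw]
    rw [hf₀ v hv, hf₀ w hw] at h1
    have h2 := hf.injOn hv hw (sub_left_injective h1)
    exact Subtype.ext (add_left_cancel h2)
  · intro w hw
    obtain ⟨z, hz, hzw⟩ := hf.surjOn (show f x + (w : F) ∈ C' from hw)
    have hzx : z - x ∈ vectorSpan ℝ C := vsub_mem_vectorSpan ℝ hz hx
    have hmem : x + ((⟨z - x, hzx⟩ : vectorSpan ℝ C) : E) ∈ C := by simpa using hz
    refine ⟨⟨z - x, hzx⟩, hmem, ?_⟩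
    apply Subtype.ext
    rw [hf₀ _ hmem]
    simp [hzw]

theorem mank_map_iso {E F : Type*} [NormedAddCommGroup E] [NormedSpace ℝ E]
    [NormedAddCommGroup F] [NormedSpace ℝ F]
    {C : Set E} {C' : Set F} {f : E → F} (hiso : ∀ x ∈ C, ∀ y ∈ C, ‖f x - f y‖ = ‖x - y‖) {x : E}
    {f₀ : vectorSpan ℝ C → vectorSpan ℝ C'}
    (hf₀ : ∀ v : vectorSpan ℝ C, x + (v : E) ∈ C → (f₀ v : F) = f (x + (v : E)) - f x) :
    ∀ v ∈ {v : vectorSpan ℝ C | x + (v : E) ∈ C},
      ∀ w ∈ {v : vectorSpan ℝ C | x + (v : E) ∈ C}, ‖f₀ v - f₀ w‖ = ‖v - w‖ := by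
  intro v hv w hw
  have h1 := hiso _ hv _ hw
  have h2 : ‖f₀ v - f₀ w‖ = ‖((f₀ v : F) - (f₀ w : F))‖ := rfl
  have h3 : ‖v - w‖ = ‖((v : E) - (w : E))‖ := rfl
  rw [h2, h3, hf₀ v hv, hf₀ w hw, sub_sub_sub_cancel_right, h1, add_sub_add_left_eq_sub]

theorem mank_coe_midpoint {E : Type*} [NormedAddCommGroup E] [NormedSpace ℝ E]
    (V : Submodule ℝ E) (v w : V) : ((midpoint ℝ v w : V) : E) = midpoint ℝ (v : E) (w : E) := by
  simp only [midpoint_eq_smul_add, Submodule.coe_smul, Submodule.coe_add]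

theorem mank_midpoint {E F : Type*} [NormedAddCommGroup E] [NormedSpace ℝ E]
    [FiniteDimensional ℝ E] [NormedAddCommGroup F] [NormedSpace ℝ F] [FiniteDimensional ℝ F]
    {C : Set E} {C' : Set F} (hC : Convex ℝ C) (hCc : IsCompact C)
    (hC' : Convex ℝ C') (hCc' : IsCompact C')
    {f : E → F} (hf : Set.BijOn f C C') (hiso : ∀ x ∈ C, ∀ y ∈ C, ‖f x - f y‖ = ‖x - y‖) :
    ∀ x ∈ C, ∀ y ∈ C, f (midpoint ℝ x y) = midpoint ℝ (f x) (f y) := by
  intro x hx y hy
  have hfx : f x ∈ C' := hf.mapsTo hx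
  obtain ⟨f₀, hf₀⟩ := mank_exists_map hf hx
  have key := mank_interior (E := vectorSpan ℝ C) (F := vectorSpan ℝ C')
    (mank_finrank hC hC' ⟨x, hx⟩ hf hiso)
    (mank_body_convex hC x) (mank_body_compact hCc x) (mank_body_interior hC hx)
    (mank_body_convex hC' (f x)) (mank_body_compact hCc' (f x)) (mank_body_interior hC' hfx)
    (mank_map_bijOn hf hx hf₀) (mank_map_iso hiso hf₀)
  have h0 : x + ((0 : vectorSpan ℝ C) : E) ∈ C := by simpa using hx
  have hyx : y - x ∈ vectorSpan ℝ C := vsub_mem_vectorSpan ℝ hy hx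
  obtain ⟨v, hv⟩ : ∃ v : vectorSpan ℝ C, (v : E) = y - x := ⟨⟨y - x, hyx⟩, rfl⟩
  have hy0 : x + (v : E) ∈ C := by rw [hv]; simpa using hy
  have h1 := key 0 h0 v hy0
  have hmid : midpoint ℝ x y ∈ C := hC.midpoint_mem hx hy
  have hco : ((midpoint ℝ (0 : vectorSpan ℝ C) v : vectorSpan ℝ C) : E) =
      midpoint ℝ x y - x := by
    rw [mank_coe_midpoint, hv]
    simp only [midpoint_eq_smul_add, Submodule.coe_zero, zero_add]
    have : (⅟2 : ℝ) = 1 / 2 := by norm_num
    rw [this]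
    module
  have hmem : x + ((midpoint ℝ (0 : vectorSpan ℝ C) v : vectorSpan ℝ C) : E) ∈ C := by
    rw [hco, add_sub_cancel]; exact hmid
  have h2 : ((f₀ (midpoint ℝ 0 v) : vectorSpan ℝ C') : F) =
      ((midpoint ℝ (f₀ 0) (f₀ v) : vectorSpan ℝ C') : F) := by rw [h1]
  rw [hf₀ _ hmem, hco, mank_coe_midpoint, hf₀ _ h0, hf₀ _ hy0, hv] at h2
  rw [Submodule.coe_zero, add_zero, sub_self, add_sub_cancel, add_sub_cancel] at h2
  have h4 : f (midpoint ℝ x y) = f x + midpoint ℝ 0 (f y - f x) := by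
    rw [← h2]; abel
  rw [h4]
  simp only [midpoint_eq_smul_add, zero_add]
  have : (⅟2 : ℝ) = 1 / 2 := by norm_num
  rw [this]
  module

/-- a continuous midpoint-affine map on `[0,1]` vanishing at the endpoints vanishes -/
theorem mank_line {F : Type*} [NormedAddCommGroup F] [NormedSpace ℝ F] {g : ℝ → F}
    (hg : ContinuousOn g (Icc 0 1)) (h0 : g 0 = 0) (h1 : g 1 = 0)
    (hmid : ∀ s ∈ Icc (0 : ℝ) 1, ∀ t ∈ Icc (0 : ℝ) 1, g ((s + t) / 2) = (1 / 2 : ℝ) • (g s + g t)) :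
    ∀ t ∈ Icc (0 : ℝ) 1, g t = 0 := by
  obtain ⟨m, hm, hmax⟩ := isCompact_Icc.exists_isMaxOn (⟨0, by simp⟩ : (Icc (0 : ℝ) 1).Nonempty)
    hg.norm
  by_cases hM : g m = 0
  · intro t ht
    have := hmax ht
    simp only [Set.mem_ofPred_eq, hM, norm_zero] at this
    exact norm_le_zero_iff.1 this
  exfalso
  have hMpos : 0 < ‖g m‖ := norm_pos_iff.2 hM
  have hScl : IsClosed {t ∈ Icc (0 : ℝ) 1 | ‖g t‖ = ‖g m‖} := by
    have := hg.norm.preimage_isClosed_of_isClosed isClosed_Icc (isClosed_singleton (x := ‖g m‖))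
    exact this
  have hScp : IsCompact {t ∈ Icc (0 : ℝ) 1 | ‖g t‖ = ‖g m‖} :=
    isCompact_Icc.of_isClosed_subset hScl (fun t ht => ht.1)
  obtain ⟨t₀, ⟨⟨ht₀, ht₀m⟩, hleast⟩⟩ := hScp.exists_isLeast ⟨m, hm, rfl⟩
  have ht0 : 0 < t₀ := by
    rcases ht₀.1.eq_or_lt with h | h
    · rw [← h, h0, norm_zero] at ht₀m
      exact absurd ht₀m.symm hMpos.ne'
    · exact h
  have ht1 : t₀ < 1 := by
    rcases ht₀.2.eq_or_lt with h | h
    · rw [h, h1, norm_zero] at ht₀m
      exact absurd ht₀m.symm hMpos.ne'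
    · exact h
  set δ := min t₀ (1 - t₀) with hδ
  have hδpos : 0 < δ := lt_min ht0 (by linarith)
  have hδ1 : δ ≤ t₀ := min_le_left _ _
  have hδ2 : δ ≤ 1 - t₀ := min_le_right _ _
  have hl : t₀ - δ ∈ Icc (0 : ℝ) 1 := ⟨by linarith, by linarith⟩
  have hr : t₀ + δ ∈ Icc (0 : ℝ) 1 := ⟨by linarith, by linarith⟩
  have hmm := hmid _ hl _ hr
  have hsum : (t₀ - δ + (t₀ + δ)) / 2 = t₀ := by ring
  rw [hsum] at hmm
  have hlt : ‖g (t₀ - δ)‖ < ‖g m‖ := by
    refine lt_of_le_of_ne (hmax hl) ?_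
    intro heq
    have := hleast ⟨hl, heq⟩
    linarith
  have hle : ‖g (t₀ + δ)‖ ≤ ‖g m‖ := hmax hr
  have hn : ‖g t₀‖ ≤ (1 / 2) * (‖g (t₀ - δ)‖ + ‖g (t₀ + δ)‖) := by
    rw [hmm, norm_smul]
    have h2 : ‖(1 / 2 : ℝ)‖ = 1 / 2 := by norm_num
    rw [h2]
    have := norm_add_le (g (t₀ - δ)) (g (t₀ + δ))
    linarith
  rw [ht₀m] at hn
  linarith

theorem mank {E F : Type*} [NormedAddCommGroup E] [NormedSpace ℝ E]
    [FiniteDimensional ℝ E] [NormedAddCommGroup F] [NormedSpace ℝ F] [FiniteDimensional ℝ F]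
    {C : Set E} {C' : Set F} (hC : Convex ℝ C) (hCc : IsCompact C)
    (hC' : Convex ℝ C') (hCc' : IsCompact C')
    {f : E → F} (hf : Set.BijOn f C C') (hiso : ∀ x ∈ C, ∀ y ∈ C, ‖f x - f y‖ = ‖x - y‖) :
    ∀ x ∈ C, ∀ y ∈ C, ∀ t : ℝ, 0 ≤ t → t ≤ 1 → f (x + t • (y - x)) = f x + t • (f y - f x) := by
  intro x hx y hy t ht0 ht1
  have hmidp := mank_midpoint hC hCc hC' hCc' hf hiso
  have hmem : ∀ s ∈ Icc (0 : ℝ) 1, x + s • (y - x) ∈ C := fun s hs =>
    hC.add_smul_sub_mem hx hy hs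
  have hfc : ContinuousOn f C := by
    have hlip : LipschitzOnWith 1 f C := by
      apply LipschitzOnWith.of_dist_le_mul
      intro x hx y hy
      rw [dist_eq_norm, dist_eq_norm, hiso x hx y hy]
      simp
    exact hlip.continuousOn
  have hg : ContinuousOn (fun s : ℝ => f (x + s • (y - x)) - (f x + s • (f y - f x))) (Icc 0 1) := by
    apply ContinuousOn.sub
    · exact hfc.comp (by fun_prop) hmem
    · fun_prop
  have := mank_line hg (by simp) (by simp) (by
    intro s hs u hu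
    have h1 := hmidp _ (hmem s hs) _ (hmem u hu)
    have h2 : midpoint ℝ (x + s • (y - x)) (x + u • (y - x)) = x + ((s + u) / 2) • (y - x) := by
      rw [midpoint_eq_smul_add]
      have : (⅟2 : ℝ) = 1 / 2 := by norm_num
      rw [this]
      module
    rw [h2, midpoint_eq_smul_add] at h1
    rw [h1]
    have : (⅟2 : ℝ) = 1 / 2 := by norm_num
    rw [this]
    module) t ⟨ht0, ht1⟩
  exact sub_eq_zero.1 this

end Vale.Agent.P084
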