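import Mathlib

open Filter Topology Module Metric MeasureTheory Measure Set

namespace Vale.Agent.P084

theorem strasz_sum_embed {ι α : Type*} [Fintype ι] [AddCommMonoid α] {n : ℕ} (e : ι ↪ Fin n)
    (g : Fin n → α) (hg : ∀ j, (¬ ∃ i, e i = j) → g j = 0) : ∑ j, g j = ∑ i, g (e i) := by
  classical
  rw [← Finset.sum_map Finset.univ e g]
  symm
  refine Finset.sum_subset (Finset.subset_univ _) fun j _ hj => hg j ?_
  simpa using hj

/-- the convex hull of a compact set in a finite-dimensional space is compact (Caratheodory) -/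
theorem strasz_isCompact_convexHull {X : Type*} [NormedAddCommGroup X] [NormedSpace ℝ X]
    [FiniteDimensional ℝ X] {K : Set X} (hK : IsCompact K) : IsCompact (convexHull ℝ K) := by
  rcases K.eq_empty_or_nonempty with rfl | ⟨k₀, hk₀⟩
  · simp
  set n := finrank ℝ X + 1 with hn
  have hS : IsCompact (stdSimplex ℝ (Fin n) ×ˢ (Set.pi univ fun _ : Fin n => K)) :=
    (isCompact_stdSimplex ..).prod (isCompact_univ_pi fun _ => hK)
  have hf : Continuous (fun q : (Fin n → ℝ) × (Fin n → X) => ∑ i, q.1 i • q.2 i) := by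
    fun_prop
  have himg : (fun q : (Fin n → ℝ) × (Fin n → X) => ∑ i, q.1 i • q.2 i) ''
      (stdSimplex ℝ (Fin n) ×ˢ (Set.pi univ fun _ : Fin n => K)) = convexHull ℝ K := by
    apply Subset.antisymm
    · rintro _ ⟨⟨w, z⟩, ⟨hw, hz⟩, rfl⟩
      refine (convex_convexHull ℝ K).sum_mem (fun i _ => hw.1 i) hw.2 fun i _ => ?_
      exact subset_convexHull ℝ K (hz i (mem_univ i))
    · intro x hx
      obtain ⟨ι, hι, z, w, hz, hind, hw0, hw1, hwx⟩ := eq_pos_convex_span_of_mem_convexHull hx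
      have hcard : Fintype.card ι ≤ Fintype.card (Fin n) := by
        rw [Fintype.card_fin]
        exact hind.card_le_finrank_succ.trans (Nat.succ_le_succ (Submodule.finrank_le _))
      obtain ⟨e⟩ := Function.Embedding.nonempty_of_card_le hcard
      refine ⟨(Function.extend e w 0, Function.extend e z fun _ => k₀), ⟨⟨?_, ?_⟩, ?_⟩, ?_⟩
      · intro j
        by_cases hj : ∃ i, e i = j
        · obtain ⟨i, rfl⟩ := hj
          change 0 ≤ Function.extend e w 0 (e i)
          rw [e.injective.extend_apply]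
          exact (hw0 i).le
        · change 0 ≤ Function.extend e w 0 j
          rw [Function.extend_apply' _ _ _ hj]
          exact le_rfl
      · change ∑ j, Function.extend e w 0 j = 1
        rw [strasz_sum_embed e (Function.extend e w 0) fun j hj => by
          rw [Function.extend_apply' _ _ _ hj]
          rfl]
        simpa [e.injective.extend_apply] using hw1
      · intro j _
        by_cases hj : ∃ i, e i = j
        · obtain ⟨i, rfl⟩ := hj
          change Function.extend e z (fun _ => k₀) (e i) ∈ K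
          rw [e.injective.extend_apply]
          exact hz (mem_range_self i)
        · change Function.extend e z (fun _ => k₀) j ∈ K
          rw [Function.extend_apply' _ _ _ hj]
          exact hk₀
      · change ∑ j, Function.extend e w 0 j • Function.extend e z (fun _ => k₀) j = x
        rw [strasz_sum_embed e _ fun j hj => by
          rw [Function.extend_apply' _ _ _ hj]
          exact zero_smul ℝ _]
        simpa [e.injective.extend_apply] using hwx
  rw [← himg]
  exact hS.image hf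

/-- a point of the unit ball with maximal Euclidean distance from `c` is exposed -/
theorem strasz_far {X : Type*} [NormedAddCommGroup X] [NormedSpace ℝ X] [Nontrivial X]
    {V : Type*} [NormedAddCommGroup V] [InnerProductSpace ℝ V] (Φ : X ≃L[ℝ] V) (c : V) {e : X}
    (he : ‖e‖ ≤ 1) (hmax : ∀ z, ‖z‖ ≤ 1 → ‖Φ z - c‖ ≤ ‖Φ e - c‖) :
    ‖e‖ = 1 ∧ ∃ ψ : X →L[ℝ] ℝ, ‖ψ‖ ≤ 1 ∧ ψ e = 1 ∧ ∀ z, ‖z‖ ≤ 1 → ψ z = 1 → z = e := by
  set φ : X →L[ℝ] ℝ := (innerSL ℝ (Φ e - c)).comp (Φ : X →L[ℝ] V) with hφ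
  have hφa : ∀ z, φ z = inner ℝ (Φ e - c) (Φ z) := fun z => rfl
  have hdiff : ∀ z, φ z - φ e = inner ℝ (Φ e - c) (Φ z - c) - ‖Φ e - c‖ ^ 2 := by
    intro z
    rw [hφa, hφa, ← real_inner_self_eq_norm_sq, ← inner_sub_right, ← inner_sub_right]
    congr 1
    abel
  have hle : ∀ z, ‖z‖ ≤ 1 → φ z ≤ φ e := by
    intro z hz
    have h1 := real_inner_le_norm (Φ e - c) (Φ z - c)
    have h2 := mul_le_mul_of_nonneg_left (hmax z hz) (norm_nonneg (Φ e - c))
    have h3 := hdiff z
    nlinarith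
  have heq : ∀ z, ‖z‖ ≤ 1 → φ z = φ e → z = e := by
    intro z hz h
    have h3 := hdiff z
    rw [h, sub_self] at h3
    have h4 : ‖(Φ z - c) - (Φ e - c)‖ ^ 2 ≤ 0 := by
      rw [norm_sub_sq_real, real_inner_comm]
      have h5 := hmax z hz
      have h6 : ‖Φ z - c‖ ^ 2 ≤ ‖Φ e - c‖ ^ 2 := pow_le_pow_left₀ (norm_nonneg _) h5 2
      linarith
    have h5 : ‖(Φ z - c) - (Φ e - c)‖ = 0 := by
      have := sq_nonneg ‖(Φ z - c) - (Φ e - c)‖
      exact pow_eq_zero_iff (two_ne_zero) |>.mp (le_antisymm h4 this)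
    have h6 : Φ z = Φ e := by
      have := norm_eq_zero.mp h5
      have h7 : Φ z - Φ e = 0 := by rw [← this]; abel
      exact sub_eq_zero.mp h7
    exact Φ.injective h6
  have hnn : 0 ≤ φ e := by
    have := hle 0 (by simp)
    simpa using this
  have hpos : 0 < φ e := by
    rcases hnn.eq_or_lt with h0 | h0
    · exfalso
      have h1 : (0 : X) = e := heq 0 (by simp) (by rw [map_zero, ← h0])
      obtain ⟨x, hx⟩ := exists_norm_eq X (zero_le_one (α := ℝ))
      have h2 : φ x ≤ φ e := hle x hx.le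
      have h3 : φ (-x) ≤ φ e := hle (-x) (by rw [norm_neg]; exact hx.le)
      rw [map_neg] at h3
      have h4 : φ x = φ e := by linarith
      have h5 : x = e := heq x hx.le h4
      rw [h5, ← h1, norm_zero] at hx
      exact zero_ne_one hx
    · exact h0
  set ψ : X →L[ℝ] ℝ := (φ e)⁻¹ • φ with hψ
  have hψa : ∀ z, ψ z = (φ e)⁻¹ * φ z := fun z => rfl
  have hψe : ψ e = 1 := by rw [hψa, inv_mul_cancel₀ hpos.ne']
  have hψ1 : ∀ z, ‖z‖ ≤ 1 → ψ z ≤ 1 := by
    intro z hz
    rw [hψa, inv_mul_le_iff₀ hpos, mul_one]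
    exact hle z hz
  have hnorm : ‖ψ‖ ≤ 1 := by
    refine ψ.opNorm_le_bound zero_le_one fun z => ?_
    rw [one_mul]
    rcases eq_or_ne z 0 with rfl | hz
    · simp
    · have hz' : 0 < ‖z‖ := norm_pos_iff.mpr hz
      have h1 : ‖(‖z‖⁻¹ • z)‖ ≤ 1 := by
        rw [norm_smul, norm_inv, norm_norm, inv_mul_cancel₀ hz'.ne']
      have h2 := hψ1 _ h1
      have h3 := hψ1 (-(‖z‖⁻¹ • z)) (by rw [norm_neg]; exact h1)
      rw [map_neg, map_smul, smul_eq_mul] at h3
      rw [map_smul, smul_eq_mul, inv_mul_le_iff₀ hz', mul_one] at h2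
      have h4 : ‖z‖⁻¹ * (-ψ z) ≤ 1 := by linarith
      rw [inv_mul_le_iff₀ hz', mul_one] at h4
      rw [Real.norm_eq_abs, abs_le]
      constructor <;> linarith
  refine ⟨le_antisymm he ?_, ψ, hnorm, hψe, fun z hz h => heq z hz ?_⟩
  · have h1 := ψ.le_opNorm e
    rw [hψe, norm_one] at h1
    calc (1 : ℝ) ≤ ‖ψ‖ * ‖e‖ := h1
      _ ≤ 1 * ‖e‖ := mul_le_mul_of_nonneg_right hnorm (norm_nonneg _)
      _ = ‖e‖ := one_mul _
  · rw [hψa, inv_mul_eq_iff_eq_mul₀ hpos.ne', mul_one] at h
    exact h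

/-
PROOF.  Let `E` be the set on the right (before the closure), `K = closure E`, compact, contained in the unit ball.
Claim: `closedBall 0 1 ⊆ convexHull ℝ K`.  `convexHull ℝ K` is compact (finite dimension: `IsCompact.convexHull` if
available, otherwise Caratheodory; or argue with `closure (convexHull ℝ K)` and afterwards use Milman's converse).
If `p` is in the ball but not in this compact convex set, separate strictly: pass to a Euclidean structure
(`toEuclidean`), take a ball with a far away centre `c` that contains `K` but not `p`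
(`c = q - R ν`, `R` large); let `e` be a point of the unit ball of `X` farthest (Euclidean) from `c`.  Then
`|e - c| ≥ |p - c|`, so `e ∉ K`; but `e` is exposed: `ψ z = ⟪e - c, z⟫ / M` with `M = max over the ball` ... : for `z` in the
ball `⟪e-c, z-c⟫ ≤ |e-c| |z-c| ≤ |e-c|^2` with equality only for `z = e`.  So the functional `φ z = ⟪e-c, z⟫` attains its
maximum `φ e` over the unit ball of `X` exactly at `e`; `φ e = ‖φ‖ > 0` (nontrivial space, `e ≠ c`), `‖e‖ = 1`, and `ψ = φ / φ e` shows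
`e ∈ E`.  Contradiction.  Finally an extreme point of the ball lies in `convexHull ℝ K` and is extreme there, so it is in
`K` (`extremePoints_convexHull_subset`).
-/
theorem straszewicz {X : Type*} [NormedAddCommGroup X] [NormedSpace ℝ X] [FiniteDimensional ℝ X]
    [Nontrivial X] : (closedBall (0 : X) 1).extremePoints ℝ ⊆
      closure {e : X | ‖e‖ = 1 ∧ ∃ ψ : X →L[ℝ] ℝ, ‖ψ‖ ≤ 1 ∧ ψ e = 1 ∧
        ∀ z, ‖z‖ ≤ 1 → ψ z = 1 → z = e} := by
  set E : Set X := {e : X | ‖e‖ = 1 ∧ ∃ ψ : X →L[ℝ] ℝ, ‖ψ‖ ≤ 1 ∧ ψ e = 1 ∧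
        ∀ z, ‖z‖ ≤ 1 → ψ z = 1 → z = e} with hE
  have hEB : E ⊆ closedBall (0 : X) 1 := fun e he => by
    rw [mem_closedBall_zero_iff]
    exact he.1.le
  have hKB : closure E ⊆ closedBall (0 : X) 1 := closure_minimal hEB isClosed_closedBall
  have hBc : IsCompact (closedBall (0 : X) 1) := isCompact_closedBall 0 1
  have hKc : IsCompact (closure E) := hBc.of_isClosed_subset isClosed_closure hKB
  have hHc : IsCompact (convexHull ℝ (closure E)) := strasz_isCompact_convexHull hKc
  have hHB : convexHull ℝ (closure E) ⊆ closedBall (0 : X) 1 :=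
    convexHull_min hKB (convex_closedBall 0 1)
  have hclaim : closedBall (0 : X) 1 ⊆ convexHull ℝ (closure E) := by
    intro p hp
    by_contra hpH
    obtain ⟨f, u, hfu, hup⟩ :=
      geometric_hahn_banach_closed_point (convex_convexHull ℝ (closure E)) hHc.isClosed hpH
    set Φ : X ≃L[ℝ] EuclideanSpace ℝ (Fin (finrank ℝ X)) := toEuclidean with hΦ
    set g : EuclideanSpace ℝ (Fin (finrank ℝ X)) →L[ℝ] ℝ :=
      f.comp (Φ.symm : EuclideanSpace ℝ (Fin (finrank ℝ X)) →L[ℝ] X) with hg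
    set ν := (InnerProductSpace.toDual ℝ (EuclideanSpace ℝ (Fin (finrank ℝ X)))).symm g with hν
    have hνa : ∀ z, inner ℝ ν (Φ z) = f z := by
      intro z
      rw [hν, InnerProductSpace.toDual_symm_apply]
      change f (Φ.symm (Φ z)) = f z
      rw [Φ.symm_apply_apply]
    set M : ℝ := ‖(Φ : X →L[ℝ] EuclideanSpace ℝ (Fin (finrank ℝ X)))‖ ^ 2 with hM
    have hM0 : 0 ≤ M := sq_nonneg _
    have hΦM : ∀ z, ‖z‖ ≤ 1 → ‖Φ z‖ ^ 2 ≤ M := by
      intro z hz
      refine pow_le_pow_left₀ (norm_nonneg _) ?_ 2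
      have h1 := (Φ : X →L[ℝ] EuclideanSpace ℝ (Fin (finrank ℝ X))).le_opNorm z
      refine h1.trans ?_
      exact mul_le_of_le_one_right (norm_nonneg _) hz
    have hgap : 0 < f p - u := sub_pos.mpr hup
    set R : ℝ := (M + 1) / (f p - u) with hR
    have hR0 : 0 < R := div_pos (by linarith) hgap
    have hRg : R * (f p - u) = M + 1 := div_mul_cancel₀ _ hgap.ne'
    have hdist : ∀ z, ‖Φ z - (-(R • ν))‖ ^ 2 = ‖Φ z‖ ^ 2 + 2 * R * f z + ‖R • ν‖ ^ 2 := by
      intro z
      rw [sub_neg_eq_add, norm_add_sq_real, inner_smul_right, real_inner_comm, hνa]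
      ring
    obtain ⟨e, heB, hemax⟩ := hBc.exists_isMaxOn (⟨0, by simp⟩ : (closedBall (0 : X) 1).Nonempty)
      (f := fun z => ‖Φ z - (-(R • ν))‖) (by fun_prop)
    have he1 : ‖e‖ ≤ 1 := mem_closedBall_zero_iff.mp heB
    have hfar := strasz_far Φ (-(R • ν)) he1
      (fun z hz => hemax (mem_closedBall_zero_iff.mpr hz))
    have heE : e ∈ E := hfar
    have heH : e ∈ convexHull ℝ (closure E) := subset_convexHull ℝ _ (subset_closure heE)
    have h1 : ‖Φ p - (-(R • ν))‖ ≤ ‖Φ e - (-(R • ν))‖ := hemax hp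
    have h2 : ‖Φ p - (-(R • ν))‖ ^ 2 ≤ ‖Φ e - (-(R • ν))‖ ^ 2 :=
      pow_le_pow_left₀ (norm_nonneg _) h1 2
    rw [hdist, hdist] at h2
    have h3 := hfu e heH
    have h4 := hΦM e he1
    have h5 : 0 ≤ ‖Φ p‖ ^ 2 := sq_nonneg _
    have h6 : R * (f p - f e) ≥ R * (f p - u) :=
      mul_le_mul_of_nonneg_left (by linarith) hR0.le
    nlinarith
  intro x hx
  have hxH : x ∈ convexHull ℝ (closure E) := hclaim hx.1
  have h1 : x ∈ (convexHull ℝ (closure E)).extremePoints ℝ :=
    inter_extremePoints_subset_extremePoints_of_subset hHB ⟨hxH, hx⟩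
  exact extremePoints_convexHull_subset h1

end Vale.Agent.P084
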