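import Mathlib
import Vale.Agent.Lib.P084F.ExpFix
import Vale.Agent.Lib.P084F.Face
import Vale.Agent.Lib.P084F.Mank
import Vale.Agent.Lib.P084F.Strasz
open Filter Topology Module Metric MeasureTheory Measure Set

namespace Vale.Agent.P084

/-- the face of a unit vector at which the norm is differentiable -/
theorem odd_face_diff {X : Type*} [NormedAddCommGroup X] [NormedSpace ℝ X]
    [FiniteDimensional ℝ X] {s : X} (hs : ‖s‖ = 1)
    (hd : DifferentiableAt ℝ (fun z : X => ‖z‖) s) :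
    ∃ C R : Set X, Convex ℝ C ∧ IsCompact C ∧ (∀ x ∈ C, ‖x‖ = 1) ∧ R ⊆ C ∧ C ⊆ closure R ∧
      (∀ x ∈ R, ∀ y : X, (‖y‖ = 1 ∧ ‖x + y‖ = 2) ↔ y ∈ C) ∧ s ∈ C ∧ ∀ y ∈ C, dN s y = 1 := by
  have hss : dN s s = 1 := by rw [dN_self hd, hs]
  have hCconv : Convex ℝ {y : X | ‖y‖ ≤ 1 ∧ dN s y = 1} := by
    intro a ha b hb α β hα hβ hαβ
    refine ⟨?_, ?_⟩
    · calc ‖α • a + β • b‖ ≤ ‖α • a‖ + ‖β • b‖ := norm_add_le _ _
        _ = α * ‖a‖ + β * ‖b‖ := by
          rw [norm_smul, norm_smul, Real.norm_of_nonneg hα, Real.norm_of_nonneg hβ]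
        _ ≤ α * 1 + β * 1 := add_le_add (mul_le_mul_of_nonneg_left ha.1 hα)
          (mul_le_mul_of_nonneg_left hb.1 hβ)
        _ = 1 := by linarith
    · rw [map_add, map_smul, map_smul, ha.2, hb.2]
      simp only [smul_eq_mul, mul_one]
      exact hαβ
  have hCn : ∀ y ∈ {y : X | ‖y‖ ≤ 1 ∧ dN s y = 1}, ‖y‖ = 1 := by
    intro y hy
    refine le_antisymm hy.1 ?_
    have := dN_le s y
    rw [hy.2] at this
    exact this
  have hCclosed : IsClosed {y : X | ‖y‖ ≤ 1 ∧ dN s y = 1} :=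
    (isClosed_le continuous_norm continuous_const).inter
      (isClosed_eq (dN s).continuous continuous_const)
  have hCc : IsCompact {y : X | ‖y‖ ≤ 1 ∧ dN s y = 1} := by
    refine (isCompact_closedBall (0 : X) 1).of_isClosed_subset hCclosed ?_
    intro y hy
    rw [mem_closedBall_zero_iff]
    exact hy.1
  have hsC : s ∈ {y : X | ‖y‖ ≤ 1 ∧ dN s y = 1} := ⟨hs.le, hss⟩
  refine ⟨{y : X | ‖y‖ ≤ 1 ∧ dN s y = 1},
    {x : X | ∃ y ∈ {y : X | ‖y‖ ≤ 1 ∧ dN s y = 1}, ∃ t : ℝ, 0 < t ∧ t ≤ 1 ∧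
      x = (1 - t) • y + t • s}, hCconv, hCc, hCn, ?_, ?_, ?_, hsC, fun y hy => hy.2⟩
  · rintro x ⟨y, hy, t, ht0, ht1, rfl⟩
    exact hCconv hy hsC (by linarith) ht0.le (by ring)
  · intro y hy
    have hlim : Tendsto (fun t : ℝ => (1 - t) • y + t • s) (𝓝[>] (0 : ℝ)) (𝓝 y) := by
      have hc : Continuous (fun t : ℝ => (1 - t) • y + t • s) := by fun_prop
      have h0 := hc.tendsto 0
      simp only [sub_zero, one_smul, zero_smul, add_zero] at h0
      exact h0.mono_left nhdsWithin_le_nhds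
    refine mem_closure_of_tendsto hlim ?_
    have h1 : ∀ᶠ t : ℝ in 𝓝[>] (0 : ℝ), t < 1 := by
      apply nhdsWithin_le_nhds
      exact Iio_mem_nhds one_pos
    filter_upwards [self_mem_nhdsWithin, h1] with t ht0 ht1
    exact ⟨y, hy, t, ht0, ht1.le, rfl⟩
  · rintro x ⟨y', hy', t, ht0, ht1, rfl⟩ y
    have hxC : (1 - t) • y' + t • s ∈ {y : X | ‖y‖ ≤ 1 ∧ dN s y = 1} :=
      hCconv hy' hsC (by linarith) ht0.le (by ring)
    constructor
    · rintro ⟨hy, hxy⟩
      obtain ⟨ψ, hψ, hψ2⟩ := exists_dual_vector'' ℝ ((1 - t) • y' + t • s + y)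
      have hψle : ∀ v, ψ v ≤ ‖v‖ := by
        intro v
        calc ψ v ≤ ‖ψ v‖ := Real.le_norm_self _
          _ ≤ ‖ψ‖ * ‖v‖ := ψ.le_opNorm v
          _ ≤ 1 * ‖v‖ := mul_le_mul_of_nonneg_right hψ (norm_nonneg _)
          _ = ‖v‖ := one_mul _
      rw [hxy] at hψ2
      have e1 : ψ ((1 - t) • y' + t • s + y) = (1 - t) * ψ y' + t * ψ s + ψ y := by
        simp [map_add, map_smul]
      rw [e1] at hψ2
      have hψ2' : (1 - t) * ψ y' + t * ψ s + ψ y = 2 := by
        simpa using hψ2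
      have b1 : ψ y' ≤ 1 := le_trans (hψle y') hy'.1
      have b2 : ψ s ≤ 1 := le_trans (hψle s) hs.le
      have b3 : ψ y ≤ 1 := le_trans (hψle y) hy.le
      have b4 : (1 - t) * ψ y' ≤ (1 - t) * 1 := mul_le_mul_of_nonneg_left b1 (by linarith)
      have b5 : t * ψ s ≤ t * 1 := mul_le_mul_of_nonneg_left b2 ht0.le
      have c1 : ψ s = 1 := by
        have : t * 1 ≤ t * ψ s := by linarith
        exact le_antisymm b2 (le_of_mul_le_mul_left this ht0)
      have c2 : ψ y = 1 := by linarith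
      have hψs : ψ = dN s := support_eq_dN hd hψle (by rw [c1, hs])
      refine ⟨hy.le, ?_⟩
      rw [← hψs]; exact c2
    · intro hy
      refine ⟨hCn y hy, ?_⟩
      apply le_antisymm
      · calc ‖(1 - t) • y' + t • s + y‖ ≤ ‖(1 - t) • y' + t • s‖ + ‖y‖ := norm_add_le _ _
          _ ≤ 1 + 1 := add_le_add hxC.1 hy.1
          _ = 2 := by norm_num
      · have := dN_le s ((1 - t) • y' + t • s + y)
        rw [map_add, hxC.2, hy.2] at this
        linarith

/-- the core of Tingley's argument for two maps `F`, `G` on the whole space -/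
theorem odd_core {X Y : Type*} [NormedAddCommGroup X] [NormedSpace ℝ X]
    [FiniteDimensional ℝ X] [NormedAddCommGroup Y] [NormedSpace ℝ Y] {F G : X → Y}
    (hFn : ∀ x, ‖x‖ = 1 → ‖F x‖ = 1) (hGn : ∀ x, ‖x‖ = 1 → ‖G x‖ = 1)
    (hFs : ∀ y, ‖y‖ = 1 → ∃ x, ‖x‖ = 1 ∧ F x = y)
    (hGs : ∀ y, ‖y‖ = 1 → ∃ x, ‖x‖ = 1 ∧ G x = y)
    (hFi : ∀ x y, ‖x‖ = 1 → ‖y‖ = 1 → ‖F x - F y‖ = ‖x - y‖)
    (hGi : ∀ x y, ‖x‖ = 1 → ‖y‖ = 1 → ‖G x - G y‖ = ‖x - y‖)
    (hFG : ∀ x, ‖x‖ = 1 → G x = -F (-x)) {x : X} (hx : ‖x‖ = 1) : F x = G x := by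
  have hex : ∀ x : X, ∃ z : X, ‖x‖ = 1 → (‖z‖ = 1 ∧ G z = F x) := by
    intro x
    by_cases h : ‖x‖ = 1
    · obtain ⟨z, hz⟩ := hGs (F x) (hFn x h)
      exact ⟨z, fun _ => hz⟩
    · exact ⟨0, fun h' => absurd h' h⟩
  choose h hh using hex
  have hn : ∀ x, ‖x‖ = 1 → ‖h x‖ = 1 := fun x hx => (hh x hx).1
  have hiso : ∀ x y, ‖x‖ = 1 → ‖y‖ = 1 → ‖h x - h y‖ = ‖x - y‖ := by
    intro x y hx hy
    rw [← hGi (h x) (h y) (hn x hx) (hn y hy), (hh x hx).2, (hh y hy).2, hFi x y hx hy]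
  have hGinj : ∀ a b, ‖a‖ = 1 → ‖b‖ = 1 → G a = G b → a = b := by
    intro a b ha hb hab
    have := hGi a b ha hb
    rw [hab, sub_self, norm_zero] at this
    exact sub_eq_zero.1 (norm_eq_zero.1 this.symm)
  have hcont : ContinuousOn h (sphere 0 1) := by
    have hL : LipschitzOnWith 1 h (sphere 0 1) := by
      apply LipschitzOnWith.of_dist_le_mul
      intro a ha b hb
      rw [mem_sphere_zero_iff_norm] at ha hb
      rw [dist_eq_norm, dist_eq_norm, hiso a b ha hb, NNReal.coe_one, one_mul]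
    exact hL.continuousOn
  -- faces are mapped onto themselves
  have hface : ∀ C R : Set X, Convex ℝ C → IsCompact C → (∀ x ∈ C, ‖x‖ = 1) → R ⊆ C →
      C ⊆ closure R → (∀ x ∈ R, ∀ y : X, (‖y‖ = 1 ∧ ‖x + y‖ = 2) ↔ y ∈ C) →
      Set.BijOn h C C := by
    intro C R hC hCc hCn hRC hCR hR
    have himg := (face_image hFn hGn hFs hGs hFi hGi hFG hC hCc hCn hRC hCR hR).1
    refine ⟨?_, ?_, ?_⟩
    · intro s hs
      have : F s ∈ G '' C := by
        rw [← himg]; exact mem_image_of_mem _ hs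
      obtain ⟨c, hc, hcs⟩ := this
      rw [← (hh s (hCn s hs)).2] at hcs
      rw [← hGinj c (h s) (hCn c hc) (hn s (hCn s hs)) hcs]
      exact hc
    · intro a ha b hb hab
      have := hiso a b (hCn a ha) (hCn b hb)
      rw [hab, sub_self, norm_zero] at this
      exact sub_eq_zero.1 (norm_eq_zero.1 this.symm)
    · intro c hc
      have : G c ∈ F '' C := by
        rw [himg]; exact mem_image_of_mem _ hc
      obtain ⟨s, hs, hsc⟩ := this
      refine ⟨s, hs, ?_⟩
      apply hGinj (h s) c (hn s (hCn s hs)) (hCn c hc)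
      rw [(hh s (hCn s hs)).2, hsc]
  -- step 1
  have hstep1 : ∀ s : X, ‖s‖ = 1 → DifferentiableAt ℝ (fun z : X => ‖z‖) s →
      dN s (h s) = 1 := by
    intro s hs hd
    obtain ⟨C, R, hC, hCc, hCn, hRC, hCR, hR, hsC, hC1⟩ := odd_face_diff hs hd
    exact hC1 _ ((hface C R hC hCc hCn hRC hCR hR).1 hsC)
  have hnt : Nontrivial X := ⟨x, 0, by
    intro h0
    rw [h0, norm_zero] at hx
    exact zero_ne_one hx⟩
  -- step 2
  have hstep2 : ∀ e ∈ (closedBall (0 : X) 1).extremePoints ℝ, ‖e‖ = 1 → h e = e := by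
    intro e he hen
    have hcl := straszewicz he
    by_contra hne
    have hpos : 0 < ‖h e - e‖ := norm_pos_iff.2 (sub_ne_zero.2 hne)
    obtain ⟨u, hu, hue⟩ := Metric.mem_closure_iff.1 hcl (‖h e - e‖ / 2) (by positivity)
    obtain ⟨hun, ψ, hψ, hψu, hexp⟩ := hu
    have hfix : h u = u := exposed_fixed hcont hn hstep1 hun hψ hψu hexp
    rw [dist_eq_norm] at hue
    have h1 : ‖h e - e‖ ≤ ‖h e - h u‖ + ‖u - e‖ := by
      calc ‖h e - e‖ = ‖(h e - h u) + (u - e)‖ := by rw [hfix]; congr 1; abel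
        _ ≤ ‖h e - h u‖ + ‖u - e‖ := norm_add_le _ _
    rw [hiso e u hen hun, norm_sub_rev u e] at h1
    linarith
  -- step 3
  have hxx : ‖x + x‖ = 2 := by
    rw [← two_smul ℝ, norm_smul, hx]; norm_num
  obtain ⟨C, hC, hCc, hxC, _, hCn, R, hRC, hCR, hR⟩ := exists_face hx hx hxx
  have hbij := hface C R hC hCc hCn hRC hCR hR
  have haff := mank hC hCc hC hCc hbij (fun a ha b hb => hiso a b (hCn a ha) (hCn b hb))
  have hRne : R.Nonempty := by
    by_contra hemp
    rw [Set.not_nonempty_iff_eq_empty] at hemp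
    rw [hemp, closure_empty] at hCR
    exact hCR hxC
  obtain ⟨r, hr⟩ := hRne
  have hrn : ‖r‖ = 1 := hCn r (hRC hr)
  have hext : ∀ c ∈ C.extremePoints ℝ, h c = c := by
    intro c hc
    have hcC : c ∈ C := hc.1
    refine hstep2 c ⟨?_, ?_⟩ (hCn c hcC)
    · rw [mem_closedBall_zero_iff]; exact (hCn c hcC).le
    · intro a ha b hb hab
      rw [mem_closedBall_zero_iff] at ha hb
      have hrc : ‖r + c‖ = 2 := ((hR r hr c).2 hcC).2
      have hab' := hab
      obtain ⟨α, β, hα, hβ, hαβ, hceq⟩ := hab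
      have e1 : r + c = α • (r + a) + β • (r + b) := by
        rw [← hceq, smul_add, smul_add]
        have : r = α • r + β • r := by rw [← add_smul, hαβ, one_smul]
        nth_rewrite 1 [this]
        abel
      have e2 : ‖r + c‖ ≤ α * ‖r + a‖ + β * ‖r + b‖ := by
        rw [e1]
        refine (norm_add_le _ _).trans ?_
        rw [norm_smul, norm_smul, Real.norm_of_nonneg hα.le, Real.norm_of_nonneg hβ.le]
      have e3 : ‖r + a‖ ≤ ‖r‖ + ‖a‖ := norm_add_le _ _
      have e4 : ‖r + b‖ ≤ ‖r‖ + ‖b‖ := norm_add_le _ _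
      rw [hrc] at e2
      rw [hrn] at e3 e4
      have f1 : α * ‖r + a‖ ≤ α * 2 := mul_le_mul_of_nonneg_left (by linarith) hα.le
      have f2 : β * ‖r + b‖ ≤ β * 2 := mul_le_mul_of_nonneg_left (by linarith) hβ.le
      have g1 : 2 ≤ ‖r + a‖ := by
        have : α * 2 ≤ α * ‖r + a‖ := by linarith
        exact le_of_mul_le_mul_left this hα
      have g2 : 2 ≤ ‖r + b‖ := by
        have : β * 2 ≤ β * ‖r + b‖ := by linarith
        exact le_of_mul_le_mul_left this hβ
      have haC : a ∈ C := (hR r hr a).1 ⟨by linarith, by linarith⟩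
      have hbC : b ∈ C := (hR r hr b).1 ⟨by linarith, by linarith⟩
      exact hc.2 haC hbC hab'
  have hfixconv : Convex ℝ {c : X | c ∈ C ∧ h c = c} := by
    intro a ha b hb α β hα hβ hαβ
    refine ⟨hC ha.1 hb.1 hα hβ hαβ, ?_⟩
    have e : α • a + β • b = a + β • (b - a) := by
      have : α = 1 - β := by linarith
      rw [this, sub_smul, one_smul, smul_sub]; abel
    rw [e, haff a ha.1 b hb.1 β hβ (by linarith), ha.2, hb.2]
  have hfixclosed : IsClosed {c : X | c ∈ C ∧ h c = c} := by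
    have hcC : ContinuousOn (fun c => h c - c) C :=
      (hcont.mono (fun c hc => by rw [mem_sphere_zero_iff_norm]; exact hCn c hc)).sub
        continuousOn_id
    have := hcC.preimage_isClosed_of_isClosed hCc.isClosed (isClosed_singleton (x := (0 : X)))
    have e : {c : X | c ∈ C ∧ h c = c} = C ∩ (fun c => h c - c) ⁻¹' {0} := by
      ext c
      simp only [mem_ofPred_eq, mem_inter_iff, mem_preimage, mem_singleton_iff, sub_eq_zero]
    rw [e]; exact this
  have hkm := closure_convexHull_extremePoints hCc hC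
  have hall : C ⊆ {c : X | c ∈ C ∧ h c = c} := by
    nth_rewrite 1 [← hkm]
    refine closure_minimal (convexHull_min ?_ hfixconv) hfixclosed
    intro c hc
    exact ⟨hc.1, hext c hc⟩
  have hfx : h x = x := (hall hxC).2
  have := (hh x hx).2
  rw [hfx] at this
  exact this.symm

/-
PROOF (Tingley).  Extend `f` to `F : X → Y` (any values off the sphere), `G x = -F (-x)`; both are isometric and onto
between the unit spheres.  `h = G⁻¹ ∘ F` is an isometry of the unit sphere of `X` onto itself.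
(1) For a unit vector `s` at which the norm is differentiable put `C = {y | ‖y‖ = 1 ∧ dN s y = 1}`,
`R = {(1-t) y + t s | y ∈ C, 0 < t ≤ 1}`.  For `x ∈ R` every support functional at `x` is `dN s` (it is `1` at `s`; use
`support_eq_dN` from Sep.lean), so `{y | ‖y‖ = 1 ∧ ‖x + y‖ = 2} = C`; `face_image` gives `F '' C = G '' C`, so
`h s ∈ C`, i.e. `dN s (h s) = 1`.
(2) By `exposed_fixed` and `straszewicz`, `h` (continuous) fixes every extreme point of the unit ball.
(3) Let `x` be any unit vector, `C` the face from `exists_face` with `x₀ = y₀ = x`.  By `face_image` `F '' C = G '' C`, so `h`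
maps `C` bijectively and isometrically onto itself; by `mank` `h` is affine on `C`.  Extreme points of `C` are extreme
points of the unit ball (`C` is a face: if `c ∈ C` is the midpoint of `a, b` in the ball then a functional of norm `≤ 1`
with value one at an `r ∈ R`...; simplest: `‖r + a‖ = 2` for `r ∈ R`, because `2 = ‖r + c‖ ≤ (‖r+a‖ + ‖r+b‖)/2`).
So `h` fixes the extreme points of `C`, and `C = convexHull (extremePoints C)` in finite dimension (Krein-Milman
`closure_convexHull_extremePoints`), so `h = id` on `C` (the fixed points of the affine continuous map `h` in `C` form a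
closed convex set).  So `F x = G x = -F (-x)`.
If `X` is trivial the sphere is empty.
-/
theorem map_neg_of_isometry {X Y : Type*} [NormedAddCommGroup X] [NormedSpace ℝ X]
    [FiniteDimensional ℝ X] [NormedAddCommGroup Y] [NormedSpace ℝ Y]
    (f : sphere (0 : X) 1 → sphere (0 : Y) 1) (hf : Isometry f) (hsurj : Function.Surjective f)
    (x : sphere (0 : X) 1) : (f (-x) : Y) = -(f x : Y) := by
  classical
  set F : X → Y := fun z => if hz : ‖z‖ = 1 then (f ⟨z, mem_sphere_zero_iff_norm.2 hz⟩ : Y) else 0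
    with hF
  have hFe : ∀ z (hz : ‖z‖ = 1), F z = (f ⟨z, mem_sphere_zero_iff_norm.2 hz⟩ : Y) := by
    intro z hz
    simp only [hF, dif_pos hz]
  have hFn : ∀ z, ‖z‖ = 1 → ‖F z‖ = 1 := by
    intro z hz
    rw [hFe z hz]
    exact mem_sphere_zero_iff_norm.1 (f ⟨z, mem_sphere_zero_iff_norm.2 hz⟩).2
  have hFs : ∀ y, ‖y‖ = 1 → ∃ z, ‖z‖ = 1 ∧ F z = y := by
    intro y hy
    obtain ⟨z, hz⟩ := hsurj ⟨y, mem_sphere_zero_iff_norm.2 hy⟩
    have hzn : ‖(z : X)‖ = 1 := mem_sphere_zero_iff_norm.1 z.2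
    refine ⟨z, hzn, ?_⟩
    rw [hFe _ hzn]
    have : (⟨(z : X), mem_sphere_zero_iff_norm.2 hzn⟩ : sphere (0 : X) 1) = z := rfl
    rw [this, hz]
  have hFi : ∀ a b, ‖a‖ = 1 → ‖b‖ = 1 → ‖F a - F b‖ = ‖a - b‖ := by
    intro a b ha hb
    rw [hFe a ha, hFe b hb]
    have := hf.dist_eq ⟨a, mem_sphere_zero_iff_norm.2 ha⟩ ⟨b, mem_sphere_zero_iff_norm.2 hb⟩
    rw [Subtype.dist_eq, Subtype.dist_eq, dist_eq_norm, dist_eq_norm] at this
    exact this
  have hxn : ‖(x : X)‖ = 1 := mem_sphere_zero_iff_norm.1 x.2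
  have hcore : F (x : X) = (fun z => -F (-z)) (x : X) := by
    refine odd_core (F := F) (G := fun z => -F (-z)) hFn ?_ hFs ?_ hFi ?_ (fun z _ => rfl) hxn
    · intro z hz
      show ‖-F (-z)‖ = 1
      rw [norm_neg]; exact hFn _ (by rw [norm_neg]; exact hz)
    · intro y hy
      obtain ⟨z, hz, hzy⟩ := hFs (-y) (by rw [norm_neg]; exact hy)
      refine ⟨-z, by rw [norm_neg]; exact hz, ?_⟩
      show -F (-(-z)) = y
      rw [neg_neg, hzy, neg_neg]
    · intro a b ha hb
      show ‖-F (-a) - -F (-b)‖ = ‖a - b‖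
      rw [neg_sub_neg, hFi (-b) (-a) (by rw [norm_neg]; exact hb) (by rw [norm_neg]; exact ha)]
      congr 1
      abel
  have e1 : (f x : Y) = F (x : X) := by rw [hFe _ hxn]
  have hnx : ‖((-x : sphere (0 : X) 1) : X)‖ = 1 := mem_sphere_zero_iff_norm.1 (-x).2
  have e2 : (f (-x) : Y) = F ((-x : sphere (0 : X) 1) : X) := by rw [hFe _ hnx]
  have e3 : ((-x : sphere (0 : X) 1) : X) = -(x : X) := rfl
  rw [e1, e2, e3, hcore]
  simp

/-
PROOF.  `exists_face` for `x, y` gives `C, R`; `face_image` with `f = g = T` (odd: `SphereIso.map_neg`) gives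
`Convex ℝ (T '' C)`; `T '' C` is compact; `mank` for `T : C → T '' C` (`Y` is finite dimensional by
`SphereIso.finiteDimensional`; `T` is injective).
-/
theorem SphereIso.affine_segment {X Y : Type*} [NormedAddCommGroup X] [NormedSpace ℝ X]
    [FiniteDimensional ℝ X] [NormedAddCommGroup Y] [NormedSpace ℝ Y] {T : X → Y}
    (hT : SphereIso T) (hsurj : Function.Surjective T) {x y : X} (hx : ‖x‖ = 1) (hy : ‖y‖ = 1)
    (hxy : ‖x + y‖ = 2) {t : ℝ} (ht0 : 0 ≤ t) (ht1 : t ≤ 1) :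
    T (x + t • (y - x)) = T x + t • (T y - T x) := by
  obtain ⟨C, hC, hCc, hxC, hyC, hCn, R, hRC, hCR, hR⟩ := exists_face hx hy hxy
  have hiso : ∀ a b, ‖a‖ = 1 → ‖b‖ = 1 → ‖T a - T b‖ = ‖a - b‖ := by
    intro a b ha hb
    exact hT.dist a b (by rw [ha, hb])
  have hTn : ∀ a, ‖a‖ = 1 → ‖T a‖ = 1 := fun a ha => by rw [hT.norm_map, ha]
  have hTs : ∀ y, ‖y‖ = 1 → ∃ x, ‖x‖ = 1 ∧ T x = y := by
    intro y hy
    obtain ⟨z, hz⟩ := hsurj y
    exact ⟨z, by rw [← hT.norm_map, hz, hy], hz⟩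
  have himg := (face_image (f := T) (g := T) hTn hTn hTs hTs hiso hiso
    (fun a _ => by rw [hT.map_neg, neg_neg]) hC hCc hCn hRC hCR hR).2
  have hYfd : FiniteDimensional ℝ Y := hT.finiteDimensional hsurj
  have hcont : ContinuousOn T C := by
    have hL : LipschitzOnWith 1 T C := by
      apply LipschitzOnWith.of_dist_le_mul
      intro a ha b hb
      rw [dist_eq_norm, dist_eq_norm, hiso a b (hCn a ha) (hCn b hb), NNReal.coe_one, one_mul]
    exact hL.continuousOn
  have hbij : Set.BijOn T C (T '' C) := by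
    refine ⟨mapsTo_image _ _, ?_, surjOn_image _ _⟩
    intro a ha b hb hab
    have := hiso a b (hCn a ha) (hCn b hb)
    rw [hab, sub_self, norm_zero] at this
    exact sub_eq_zero.1 (norm_eq_zero.1 this.symm)
  exact mank hC hCc himg (hCc.image_of_continuousOn hcont) hbij
    (fun a ha b hb => hiso a b (hCn a ha) (hCn b hb)) x hxC y hyC t ht0 ht1

end Vale.Agent.P084
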