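import Mathlib
import Vale.Agent.Lib.P084F.Defs

open Filter Topology Module Metric MeasureTheory Measure

namespace Vale.Agent.P084

section

variable {E : Type*} [NormedAddCommGroup E] [NormedSpace ℝ E]

theorem isOpen_Dir (z : E) : IsOpen (Dir z) := by
  have h : Dir z = ⋃ t : ℝ, ⋃ _ : 0 < t, {y : E | ‖z - t • y‖ < ‖z‖} := by
    ext y
    simp [Dir]
  rw [h]
  refine isOpen_iUnion fun t => isOpen_iUnion fun _ => ?_
  exact isOpen_lt (by fun_prop) continuous_const

theorem self_mem_Dir {z : E} (hz : z ≠ 0) : z ∈ Dir z := by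
  refine ⟨1, one_pos, ?_⟩
  rw [one_smul, sub_self, norm_zero]
  exact norm_pos_iff.mpr hz

theorem smul_mem_Dir {z y : E} (hy : y ∈ Dir z) {c : ℝ} (hc : 0 < c) : c • y ∈ Dir z := by
  obtain ⟨t, ht, h⟩ := hy
  refine ⟨t / c, by positivity, ?_⟩
  rw [smul_smul, div_mul_cancel₀ _ hc.ne']
  exact h

/-- the cone of directions is open jointly in the base point -/
theorem eventually_mem_Dir {z y : E} (hy : y ∈ Dir z) : ∀ᶠ p : E × E in 𝓝 (z, y), p.2 ∈ Dir p.1 := by
  obtain ⟨t, ht, h⟩ := hy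
  have hc : ∀ᶠ p : E × E in 𝓝 (z, y), ‖p.1 - t • p.2‖ < ‖p.1‖ := by
    have h1 : Continuous fun p : E × E => ‖p.1 - t • p.2‖ := by fun_prop
    have h2 : Continuous fun p : E × E => ‖p.1‖ := by fun_prop
    exact h1.continuousAt.eventually_lt h2.continuousAt h
  filter_upwards [hc] with p hp
  exact ⟨t, ht, hp⟩

/-- Derivatives of the norm on the cone of directions of a nonzero point separate points. -/
theorem eq_zero_of_Dir {z : E} (hz : z ≠ 0) {D : Set E} (hD : Dir z ⊆ closure D)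
    (hd : ∀ y ∈ D, DifferentiableAt ℝ (fun z : E => ‖z‖) y) {v : E}
    (hv : ∀ y ∈ D, dN y v = 0) : v = 0 := by
  have h1 : ∀ t : ℝ, ∀ y ∈ Dir z, ‖y‖ ≤ ‖y + t • v‖ := by
    intro t y hy
    have hcl : closure D ⊆ {y : E | ‖y‖ ≤ ‖y + t • v‖} := by
      apply (isClosed_le (by fun_prop) (by fun_prop)).closure_subset_iff.mpr
      intro d hdD
      show ‖d‖ ≤ ‖d + t • v‖
      calc ‖d‖ = dN d (d + t • v) := by
            rw [map_add, map_smul, hv d hdD, smul_zero, add_zero, dN_self (hd d hdD)]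
        _ ≤ _ := dN_le _ _
    exact hcl (hD hy)
  -- near `z` the norm is constant along the line
  have hev : ∀ᶠ t : ℝ in 𝓝 0, z + t • v ∈ Dir z := by
    have hc : Continuous fun t : ℝ => z + t • v := by fun_prop
    have h2 : z + (0 : ℝ) • v ∈ Dir z := by simpa using self_mem_Dir hz
    exact hc.continuousAt.eventually ((isOpen_Dir z).mem_nhds h2)
  have hev2 : ∀ᶠ t : ℝ in 𝓝 0, ‖z + t • v‖ = ‖z‖ := by
    filter_upwards [hev] with t ht
    apply le_antisymm _ (h1 t z (self_mem_Dir hz))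
    have := h1 (-t) _ ht
    rwa [neg_smul, add_neg_cancel_right] at this
  -- the whole line lies in the cone
  have hall : ∀ s : ℝ, z + s • v ∈ Dir z := by
    intro s
    have h2 : Tendsto (fun t : ℝ => -(t * s / (1 - t))) (𝓝 0) (𝓝 0) := by
      have h3 : ContinuousAt (fun t : ℝ => -(t * s / (1 - t))) 0 := by
        apply ContinuousAt.neg
        apply ContinuousAt.div (by fun_prop) (by fun_prop)
        norm_num
      have h4 := h3.tendsto
      simpa using h4
    have h3 : ∀ᶠ t : ℝ in 𝓝[>] 0, ‖z + (-(t * s / (1 - t))) • v‖ = ‖z‖ :=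
      eventually_nhdsWithin_of_eventually_nhds (h2.eventually hev2)
    have h4 : ∀ᶠ t : ℝ in 𝓝[>] 0, t < 1 :=
      eventually_nhdsWithin_of_eventually_nhds (gt_mem_nhds one_pos)
    obtain ⟨t, ⟨ht3, ht4⟩, ht⟩ := ((h3.and h4).and self_mem_nhdsWithin).exists
    have ht' : 0 < t := ht
    refine ⟨t, ht', ?_⟩
    have e1 : z - t • (z + s • v) = (1 - t) • (z + (-(t * s / (1 - t))) • v) := by
      have hne : 1 - t ≠ 0 := by linarith
      have e2 : (1 - t) * -(t * s / (1 - t)) = -(t * s) := by field_simp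
      rw [smul_add (1 - t), smul_smul (1 - t), e2]
      module
    rw [e1, norm_smul, Real.norm_of_nonneg (by linarith), ht3]
    have := norm_pos_iff.mpr hz
    nlinarith
  have heq : ∀ s : ℝ, ‖z + s • v‖ = ‖z‖ := by
    intro s
    apply le_antisymm _ (h1 s z (self_mem_Dir hz))
    have := h1 (-s) _ (hall s)
    rwa [neg_smul, add_neg_cancel_right] at this
  by_contra hv0
  have hnv : 0 < ‖v‖ := norm_pos_iff.mpr hv0
  set s : ℝ := (2 * ‖z‖ + 1) / ‖v‖ with hs
  have hspos : 0 < s := by positivity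
  have h3 : ‖s • v‖ ≤ ‖z + s • v‖ + ‖z‖ := by
    calc ‖s • v‖ = ‖(z + s • v) - z‖ := by congr 1; abel
      _ ≤ _ := norm_sub_le _ _
  rw [heq, norm_smul, Real.norm_of_nonneg hspos.le, hs, div_mul_cancel₀ _ hnv.ne'] at h3
  linarith [norm_nonneg z]

theorem eq_zero_of_Dir_ae [FiniteDimensional ℝ E] [MeasurableSpace E] [BorelSpace E] {z : E}
    (hz : z ≠ 0) {v : E} (hv : ∀ᵐ y ∂(vol E), y ∈ Dir z → dN y v = 0) : v = 0 := by
  have hX : ∀ᵐ y ∂(vol E), DifferentiableAt ℝ (fun z : E => ‖z‖) y :=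
    (lipschitzWith_one_norm (E := E)).ae_differentiableAt (μ := vol E)
  have hG : ∀ᵐ y ∂(vol E), y ∈ {y : E | DifferentiableAt ℝ (fun z : E => ‖z‖) y ∧
      (y ∈ Dir z → dN y v = 0)} := by
    filter_upwards [hX, hv] with y h1 h2
    exact ⟨h1, h2⟩
  have hdense := dense_of_ae hG
  refine eq_zero_of_Dir hz (D := Dir z ∩ {y : E | DifferentiableAt ℝ (fun z : E => ‖z‖) y ∧
      (y ∈ Dir z → dN y v = 0)}) (hdense.open_subset_closure_inter (isOpen_Dir z)) ?_ ?_
  · rintro y ⟨-, h1, -⟩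
    exact h1
  · rintro y ⟨h0, -, h2⟩
    exact h2 h0

end

end Vale.Agent.P084
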