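import Mathlib
import Vale.Agent.Lib.P084.Sep
import Vale.Agent.Lib.P084F.FactA
import Vale.Agent.Lib.P084F.OmLem

open Filter Topology Module Metric MeasureTheory Measure
open scoped NNReal ENNReal

namespace Vale.Agent.P084

section null

variable {E : Type*} [NormedAddCommGroup E] [NormedSpace ℝ E] [MeasurableSpace E] [BorelSpace E]

theorem vol_preimage_Wv_null_Om [SecondCountableTopology E] {z : E}
    {Z : Set E} (hZ : vol E Z = 0) :
    vol E {b : E | Om z b ∧ Wv z b ∈ Z} = 0 := by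
  apply measure_null_of_locally_null
  rintro b₀ ⟨hb₀, -⟩
  have hz : z ≠ 0 := hb₀.ne_left
  have hna : 0 < ‖z‖ := norm_pos_iff.mpr hz
  have hg := gp_pos hb₀
  have hgle := gp_le hz hb₀.ne_right
  set γ : ℝ := gp z b₀ / 2 with hγ
  have hγpos : 0 < γ := by positivity
  set r : ℝ := min (γ / 4) (‖z‖ / 4) with hr
  have hrpos : 0 < r := lt_min (by positivity) (by positivity)
  have hball := antilip_quant (a₀ := z) (b₀ := b₀) hγpos (by rw [hγ, add_comm b₀ z]; linarith)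
    (r := r) (by have := min_le_left (γ / 4) (‖z‖ / 4); linarith)
    (by have := min_le_right (γ / 4) (‖z‖ / 4); linarith) hz
  refine ⟨{b : E | Om z b ∧ Wv z b ∈ Z} ∩ ball b₀ r,
    inter_mem_nhdsWithin _ (ball_mem_nhds _ hrpos), ?_⟩
  have h1 := vol_inter_preimage_le (X := E) (E := E) rfl (f := fun b => Wv z b) (s := ball b₀ r)
    (K := ⟨2 / γ * ‖z‖ * (2 / ‖z‖) + 2 / ‖z‖, by positivity⟩)
    (fun b hb b' hb' => hball z (mem_ball_self hrpos) b hb b' hb') Z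
  rw [hZ, mul_zero] at h1
  refine le_antisymm (le_trans (measure_mono ?_) h1) bot_le
  rintro b ⟨⟨-, hb2⟩, hb3⟩
  exact ⟨hb3, hb2⟩

end null

section sep

variable {X Y : Type*} [NormedAddCommGroup X] [NormedSpace ℝ X] [NormedAddCommGroup Y]
  [NormedSpace ℝ Y] [MeasurableSpace X] [BorelSpace X] [MeasurableSpace Y] [BorelSpace Y]
  {T : X → Y}

namespace SphereIso

/-- almost every `b` is good -/
theorem ae_good_Om [FiniteDimensional ℝ X] [FiniteDimensional ℝ Y] (hT : SphereIso T)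
    (hsurj : Function.Surjective T) (hfin : finrank ℝ X = finrank ℝ Y) (x₀ : X) :
    ∀ᵐ b ∂(vol X), Om x₀ b → DifferentiableAt ℝ (fun z : X => ‖z‖) (Wv x₀ b) ∧
      DifferentiableAt ℝ (fun z : Y => ‖z‖) (Wv (T x₀) (T b)) := by
  have hX : vol X {y : X | ¬ DifferentiableAt ℝ (fun z : X => ‖z‖) y} = 0 :=
    (lipschitzWith_one_norm (E := X)).ae_differentiableAt (μ := vol X)
  have hY : vol Y {y : Y | ¬ DifferentiableAt ℝ (fun z : Y => ‖z‖) y} = 0 :=
    (lipschitzWith_one_norm (E := Y)).ae_differentiableAt (μ := vol Y)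
  have h1 := vol_preimage_Wv_null_Om (z := x₀) hX
  have h2 := vol_preimage_Wv_null_Om (z := T x₀) hY
  obtain ⟨S, hS, hST, hTS⟩ := hT.exists_inverse hsurj
  have h3 := vol_image_null hfin.symm hS.lipschitz h2
  have h4 : vol X ({b : X | Om x₀ b ∧ Wv x₀ b ∈
      {y : X | ¬ DifferentiableAt ℝ (fun z : X => ‖z‖) y}} ∪
      S '' {b : Y | Om (T x₀) b ∧ Wv (T x₀) b ∈
        {y : Y | ¬ DifferentiableAt ℝ (fun z : Y => ‖z‖) y}}) = 0 :=
    measure_union_null h1 h3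
  refine measure_mono_null ?_ h4
  intro b hb
  by_contra hno
  apply hb
  simp only [Set.mem_union, not_or] at hno
  obtain ⟨n2, n3⟩ := hno
  intro e1
  refine ⟨?_, ?_⟩
  · by_contra hd
    exact n2 ⟨e1, hd⟩
  · by_contra hd
    apply n3
    exact ⟨T b, ⟨hT.Om_map e1, hd⟩, hST b⟩

/-- the support functionals at good points separate points -/
theorem separates_Om [FiniteDimensional ℝ X] [FiniteDimensional ℝ Y] (hT : SphereIso T)
    (hsurj : Function.Surjective T)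
    (hfin : finrank ℝ X = finrank ℝ Y) {x₀ : X} (hx₀ : x₀ ≠ 0)
    {v : Y} (hv : ∀ᵐ b ∂(vol X), Om x₀ b → dN (Wv (T x₀) (T b)) v = 0) : v = 0 := by
  have hTx0 : T x₀ ≠ 0 := hT.map_ne_zero hx₀
  apply eq_zero_of_Dir_ae hTx0
  obtain ⟨K, hK⟩ := hT.lipschitz_Wv x₀
  have hB : vol X {b : X | ¬ (Om x₀ b → dN (Wv (T x₀) (T b)) v = 0)} = 0 := hv
  have h1 := vol_image_null hfin hK hB
  refine measure_mono_null ?_ h1
  intro y hy
  simp only [Set.mem_compl_iff, Set.mem_setOf_eq, Classical.not_imp] at hy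
  obtain ⟨hy1, hy2⟩ := hy
  obtain ⟨c, s, hs, hc1, -, hc2⟩ := exists_Om_Wv hTx0 hy1
  obtain ⟨b, rfl⟩ := hsurj c
  have hinv : 0 < s⁻¹ := inv_pos.mpr hs
  have e1 : Wv (T x₀) (T (s⁻¹ • b)) = y := by
    rw [hT.smul, Wv_smul_right _ _ hinv.le, hc2, smul_smul, inv_mul_cancel₀ hs.ne', one_smul]
  refine ⟨s⁻¹ • b, ?_, e1⟩
  simp only [Set.mem_setOf_eq, Classical.not_imp]
  exact ⟨(hT.Om_of_map hc1).smul_right hinv, by rw [e1]; exact hy2⟩

end SphereIso

theorem separates_id [FiniteDimensional ℝ X] {x₀ : X} (hx₀ : x₀ ≠ 0)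
    {v : X} (hv : ∀ᵐ b ∂(vol X), Om x₀ b → dN (Wv x₀ b) v = 0) : v = 0 :=
  (SphereIso.id_iso (X := X)).separates_Om (fun z => ⟨z, rfl⟩) rfl hx₀ hv

end sep

end Vale.Agent.P084
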