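import Mathlib
import Vale.Agent.Lib.P084F.Sep2

open Filter Topology Module Metric MeasureTheory Measure
open scoped NNReal ENNReal

namespace Vale.Agent.P084

section basic

variable {E : Type*} [NormedAddCommGroup E] [NormedSpace ℝ E]

theorem norm_dN_le (y : E) : ‖dN y‖ ≤ 1 := by
  have := norm_fderiv_le_of_lipschitz ℝ (x₀ := y) (lipschitzWith_one_norm (E := E))
  rw [NNReal.coe_one] at this
  exact this

theorem Dir_small {z y : E} {t : ℝ} (ht : 0 < t) (h : ‖z - t • y‖ < ‖z‖) {s : ℝ} (hs : 0 < s)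
    (hst : s ≤ t) : ‖z - s • y‖ < ‖z‖ := by
  set l : ℝ := s / t with hl
  have hl0 : 0 < l := by positivity
  have hl1 : l ≤ 1 := by rw [hl, div_le_one ht]; exact hst
  have hlt : l * t = s := by rw [hl]; field_simp
  have e3 : z - s • y = (1 - l) • z + l • (z - t • y) := by
    rw [← hlt]; module
  rw [e3]
  refine lt_of_le_of_lt (norm_add_le _ _) ?_
  rw [norm_smul, norm_smul, Real.norm_of_nonneg hl0.le,
    Real.norm_of_nonneg (by linarith : 0 ≤ 1 - l)]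
  nlinarith

theorem Om_of_Wv_mem_Dir {z c : E} (h : Wv z c ∈ Dir z) : Om z c := by
  obtain ⟨t, ht, hty⟩ := h
  have hz : z ≠ 0 := by
    rintro rfl
    rw [norm_zero] at hty
    exact absurd (norm_nonneg _) (not_le.mpr hty)
  have hc : c ≠ 0 := by
    rintro rfl
    rw [Wv_zero_right, smul_zero, sub_zero] at hty
    exact lt_irrefl _ hty
  have hnz : 0 < ‖z‖ := norm_pos_iff.mpr hz
  have hnc : 0 < ‖c‖ := norm_pos_iff.mpr hc
  set s : ℝ := min t (1 / (2 * ‖c‖)) with hs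
  have hspos : 0 < s := lt_min ht (by positivity)
  have hs1 : s * ‖c‖ ≤ 1 / 2 := by
    have h1 : s ≤ 1 / (2 * ‖c‖) := min_le_right _ _
    calc s * ‖c‖ ≤ 1 / (2 * ‖c‖) * ‖c‖ := mul_le_mul_of_nonneg_right h1 hnc.le
      _ = 1 / 2 := by field_simp
  have h2 := Dir_small ht hty hspos (min_le_left _ _)
  have e1 : z - s • Wv z c = (1 - s * ‖c‖) • z + (s * ‖z‖) • c := by
    rw [Wv_def]; module
  rw [e1] at h2
  have hA : 0 < 1 - s * ‖c‖ := by linarith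
  have hB : 0 < s * ‖z‖ := by positivity
  have h3 : Om ((1 - s * ‖c‖) • z) ((s * ‖z‖) • c) := by
    unfold Om
    rw [norm_smul (1 - s * ‖c‖), norm_smul (s * ‖z‖), Real.norm_of_nonneg hA.le,
      Real.norm_of_nonneg hB.le]
    calc _ < ‖z‖ := h2
      _ = _ := by ring
  have h4 := h3.smul_left (inv_pos.mpr hA)
  rw [smul_smul, inv_mul_cancel₀ hA.ne', one_smul] at h4
  exact (Om_smul_right_iff hB).mp h4

theorem Wv_near {x c : E} (hx : x ≠ 0) (hy : ‖Wv x c - (2 * ‖x‖) • x‖ < ‖x‖ ^ 2) :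
    ‖c + x‖ ≤ 2 * ‖x‖⁻¹ * ‖Wv x c - (2 * ‖x‖) • x‖ := by
  have hnx : 0 < ‖x‖ := norm_pos_iff.mpr hx
  set e : E := Wv x c - (2 * ‖x‖) • x with he
  have h1 : ‖x‖ • c = (‖c‖ - 2 * ‖x‖) • x - e := by
    rw [he, Wv_def]; module
  have h2 : ‖x‖ * ‖c‖ = ‖(‖c‖ - 2 * ‖x‖) • x - e‖ := by
    rw [← h1, norm_smul, norm_norm]
  have h3 : |‖(‖c‖ - 2 * ‖x‖) • x‖ - ‖(‖c‖ - 2 * ‖x‖) • x - e‖| ≤ ‖e‖ := by
    have := abs_norm_sub_norm_le ((‖c‖ - 2 * ‖x‖) • x) ((‖c‖ - 2 * ‖x‖) • x - e)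
    rwa [sub_sub_cancel] at this
  rw [← h2, norm_smul, Real.norm_eq_abs] at h3
  obtain ⟨h4, h5⟩ := abs_le.mp h3
  have h6 : ‖c‖ < 2 * ‖x‖ := by
    by_contra hno
    push Not at hno
    rw [abs_of_nonneg (by linarith : 0 ≤ ‖c‖ - 2 * ‖x‖)] at h4
    nlinarith
  rw [abs_of_neg (by linarith : ‖c‖ - 2 * ‖x‖ < 0)] at h4 h5
  have h7 : |‖c‖ - ‖x‖| * ‖x‖ ≤ ‖e‖ := by
    rcases le_total 0 (‖c‖ - ‖x‖) with h | h
    · rw [abs_of_nonneg h]; nlinarith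
    · rw [abs_of_nonpos h]; nlinarith
  have h8 : ‖x‖ • (c + x) = (‖c‖ - ‖x‖) • x - e := by
    rw [smul_add, h1]; module
  have h9 : ‖x‖ * ‖c + x‖ ≤ 2 * ‖e‖ := by
    have e1 : ‖x‖ * ‖c + x‖ = ‖(‖c‖ - ‖x‖) • x - e‖ := by
      rw [← h8, norm_smul, norm_norm]
    rw [e1]
    refine (norm_sub_le _ _).trans ?_
    rw [norm_smul, Real.norm_eq_abs]
    linarith
  calc ‖c + x‖ = ‖x‖⁻¹ * (‖x‖ * ‖c + x‖) := by field_simp
    _ ≤ ‖x‖⁻¹ * (2 * ‖e‖) := by gcongr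
    _ = _ := by ring

end basic

section pair

variable {X Y : Type*} [NormedAddCommGroup X] [NormedSpace ℝ X] [NormedAddCommGroup Y]
  [NormedSpace ℝ Y] [MeasurableSpace X] [BorelSpace X] [MeasurableSpace Y] [BorelSpace Y]
  {T : X → Y}

namespace SphereIso

theorem exists_good_near [FiniteDimensional ℝ X] [FiniteDimensional ℝ Y] (hT : SphereIso T)
    (hsurj : Function.Surjective T) (hfin : finrank ℝ X = finrank ℝ Y) {x : X} (hx : x ≠ 0)
    {P : X → Prop} (hP : ∀ᵐ b ∂(vol X), Om x b → P b)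
    {ψ₀ : X →L[ℝ] ℝ} (h1 : ‖ψ₀‖ ≤ 1) (h2 : ψ₀ x = ‖x‖) (u : X) {ε : ℝ} (hε : 0 < ε) :
    ∃ c, Om x c ∧ P c ∧ DifferentiableAt ℝ (fun z : X => ‖z‖) (Wv x c) ∧
      DifferentiableAt ℝ (fun z : Y => ‖z‖) (Wv (T x) (T c)) ∧ ‖c + x‖ < ε ∧
      ‖Wv x c - (2 * ‖x‖) • x‖ < ε ∧ ψ₀ u - ε ≤ dN (Wv x c) u := by
  have hnx : 0 < ‖x‖ := norm_pos_iff.mpr hx
  have hgood := hT.ae_good_Om hsurj hfin x
  set Bad : Set X := {c | ¬ (Om x c → P c ∧ DifferentiableAt ℝ (fun z : X => ‖z‖) (Wv x c) ∧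
      DifferentiableAt ℝ (fun z : Y => ‖z‖) (Wv (T x) (T c)))} with hBad
  have hBad0 : vol X Bad = 0 := by
    have : ∀ᵐ c ∂(vol X), (Om x c → P c ∧ DifferentiableAt ℝ (fun z : X => ‖z‖) (Wv x c) ∧
      DifferentiableAt ℝ (fun z : Y => ‖z‖) (Wv (T x) (T c))) := by
      filter_upwards [hP, hgood] with c g1 g2 g3
      exact ⟨g1 g3, g2 g3⟩
    exact this
  obtain ⟨K, hK⟩ := (id_iso (X := X)).lipschitz_Wv x
  have himg : vol X ((fun b : X => Wv x b) '' Bad) = 0 := vol_image_null rfl hK hBad0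
  have hdense : Dense ((fun b : X => Wv x b) '' Bad)ᶜ := by
    have h3 : ∀ᵐ y ∂(vol X), y ∈ ((fun b : X => Wv x b) '' Bad)ᶜ := by
      rw [ae_iff]
      refine measure_mono_null ?_ himg
      intro y hy
      exact not_not.mp hy
    exact dense_of_ae h3
  -- the small parameter
  set cc : ℝ := 2 * ‖x‖ with hcc
  have hccpos : 0 < cc := by positivity
  -- for small `t` the point `cc • (x + t • u)` is in the good region
  have hlim : Tendsto (fun t : ℝ => cc • (x + t • u)) (𝓝 0) (𝓝 (cc • x)) := by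
    have hc : Continuous fun t : ℝ => cc • (x + t • u) := by fun_prop
    have := hc.tendsto 0
    simpa using this
  set δ : ℝ := min (min (ε / 2) (ε * ‖x‖ / 8)) (‖x‖ ^ 2) with hδ
  have hδpos : 0 < δ := by positivity
  have hδ1 : δ ≤ ε / 2 := (min_le_left _ _).trans (min_le_left _ _)
  have hδ2 : δ ≤ ε * ‖x‖ / 8 := (min_le_left _ _).trans (min_le_right _ _)
  have hδ3 : δ ≤ ‖x‖ ^ 2 := min_le_right _ _
  have hdirx : cc • x ∈ Dir x := smul_mem_Dir (self_mem_Dir hx) hccpos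
  have hopen : IsOpen (Dir x ∩ ball (cc • x) δ) := (isOpen_Dir x).inter isOpen_ball
  have hev1 : ∀ᶠ t : ℝ in 𝓝[>] 0, cc • (x + t • u) ∈ Dir x ∩ ball (cc • x) δ :=
    eventually_nhdsWithin_of_eventually_nhds
      (hlim.eventually (hopen.mem_nhds ⟨hdirx, mem_ball_self hδpos⟩))
  obtain ⟨t, ht1, ht⟩ := (hev1.and self_mem_nhdsWithin).exists
  have htpos : 0 < t := ht
  -- the open set of admissible vectors
  set ρ : ℝ := t * cc * (ε / 2) with hρ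
  have hρpos : 0 < ρ := by positivity
  have hO : IsOpen ((Dir x ∩ ball (cc • x) δ) ∩ ball (cc • (x + t • u)) ρ) :=
    hopen.inter isOpen_ball
  obtain ⟨y, hyO, hyn⟩ := hdense.inter_open_nonempty _ hO ⟨_, ht1, mem_ball_self hρpos⟩
  obtain ⟨⟨hyD, hyδ⟩, hyρ⟩ := hyO
  rw [mem_ball, dist_eq_norm] at hyδ hyρ
  obtain ⟨c, hc⟩ := exists_Wv_eq (z := x) (y := y) hx (lt_of_lt_of_le hyδ hδ3)
  have hOm : Om x c := Om_of_Wv_mem_Dir (by rw [hc]; exact hyD)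
  have hcBad : c ∉ Bad := fun hcb => hyn ⟨c, hcb, hc⟩
  have hgc := not_not.mp hcBad hOm
  refine ⟨c, hOm, hgc.1, hgc.2.1, hgc.2.2, ?_, ?_, ?_⟩
  · have h3 := Wv_near (x := x) (c := c) hx (by rw [hc]; exact lt_of_lt_of_le hyδ hδ3)
    rw [hc] at h3
    refine lt_of_le_of_lt h3 ?_
    calc 2 * ‖x‖⁻¹ * ‖y - (2 * ‖x‖) • x‖ ≤ 2 * ‖x‖⁻¹ * (ε * ‖x‖ / 8) := by
          gcongr
          exact hyδ.le.trans hδ2
      _ = ε / 4 := by field_simp; ring
      _ < ε := by linarith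
  · rw [hc]; linarith
  · -- monotonicity
    have hd : DifferentiableAt ℝ (fun z : X => ‖z‖) y := by rw [← hc]; exact hgc.2.1
    rw [hc]
    set f : X →L[ℝ] ℝ := dN y with hf
    set e : X := y - cc • (x + t • u) with he
    have hy2 : y = cc • x + (cc * t) • u + e := by rw [he]; module
    have e1 : f y = ‖y‖ := dN_self hd
    have e2 : f (cc • x) ≤ ‖cc • x‖ := dN_le _ _
    have e3 : ψ₀ y ≤ ‖y‖ := apply_le_of_norm_le_one h1 y
    rw [norm_smul, Real.norm_of_nonneg hccpos.le] at e2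
    have e4 : f y = f (cc • x) + (cc * t) * f u + f e := by
      conv_lhs => rw [hy2]
      rw [map_add, map_add, map_smul _ (cc * t), smul_eq_mul]
    have e5 : ψ₀ y = cc * ‖x‖ + (cc * t) * ψ₀ u + ψ₀ e := by
      conv_lhs => rw [hy2]
      rw [map_add, map_add, map_smul, map_smul, smul_eq_mul, smul_eq_mul, h2]
    have e6 : f e ≤ ‖e‖ := dN_le _ _
    have e7 : -‖e‖ ≤ ψ₀ e := by
      have := apply_le_of_norm_le_one h1 (-e)
      rw [_root_.map_neg, _root_.norm_neg] at this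
      linarith
    have e8 : ‖e‖ < ρ := hyρ
    have e9 : (cc * t) * (ψ₀ u - ε) ≤ (cc * t) * f u := by
      have : (cc * t) * ε = 2 * ρ := by rw [hρ]; ring
      linarith
    exact le_of_mul_le_mul_left e9 (by positivity)

theorem exists_pair [FiniteDimensional ℝ X] [FiniteDimensional ℝ Y] (hT : SphereIso T)
    (hsurj : Function.Surjective T) (hfin : finrank ℝ X = finrank ℝ Y) {x : X} (hx : x ≠ 0)
    {P : X → Prop} (hP : ∀ᵐ b ∂(vol X), Om x b → P b)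
    {ψ₀ : X →L[ℝ] ℝ} (h1 : ‖ψ₀‖ ≤ 1) (h2 : ψ₀ x = ‖x‖) (u : X) :
    ∃ (ψ : X →L[ℝ] ℝ) (ψ' : Y →L[ℝ] ℝ), ‖ψ‖ ≤ 1 ∧ ψ x = ‖x‖ ∧ ‖ψ'‖ ≤ 1 ∧ ψ' (T x) = ‖x‖ ∧
      ψ₀ u ≤ ψ u ∧ (ψ, ψ') ∈ closure {p : (X →L[ℝ] ℝ) × (Y →L[ℝ] ℝ) |
        ∃ b, Om x b ∧ P b ∧ p = (dN (Wv x b), dN (Wv (T x) (T b)))} := by
  have hnx : 0 < ‖x‖ := norm_pos_iff.mpr hx
  have hex : ∀ n : ℕ, ∃ c, Om x c ∧ P c ∧ DifferentiableAt ℝ (fun z : X => ‖z‖) (Wv x c) ∧
      DifferentiableAt ℝ (fun z : Y => ‖z‖) (Wv (T x) (T c)) ∧ ‖c + x‖ < 1 / ((n : ℝ) + 1) ∧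
      ‖Wv x c - (2 * ‖x‖) • x‖ < 1 / ((n : ℝ) + 1) ∧ ψ₀ u - 1 / ((n : ℝ) + 1) ≤ dN (Wv x c) u :=
    fun n => hT.exists_good_near hsurj hfin hx hP h1 h2 u (by positivity)
  choose c hc1 hc2 hc3 hc4 hc5 hc6 hc7 using hex
  have hε : Tendsto (fun n : ℕ => 1 / ((n : ℝ) + 1)) atTop (𝓝 0) :=
    tendsto_one_div_add_atTop_nhds_zero_nat
  have hclim : Tendsto c atTop (𝓝 (-x)) := by
    rw [tendsto_iff_norm_sub_tendsto_zero]
    refine squeeze_zero (fun n => norm_nonneg _) (fun n => ?_) hε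
    rw [sub_neg_eq_add]
    exact (hc5 n).le
  have hWlim : Tendsto (fun n => Wv x (c n)) atTop (𝓝 ((2 * ‖x‖) • x)) := by
    rw [tendsto_iff_norm_sub_tendsto_zero]
    exact squeeze_zero (fun n => norm_nonneg _) (fun n => (hc6 n).le) hε
  have hWlim' : Tendsto (fun n => Wv (T x) (T (c n))) atTop (𝓝 ((2 * ‖x‖) • T x)) := by
    have hcont : Continuous fun b : X => Wv (T x) (T b) :=
      (continuous_Wv_right (T x)).comp hT.lipschitz.continuous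
    have := (hcont.tendsto (-x)).comp hclim
    rw [hT.map_neg, Wv_neg_self, hT.norm_map] at this
    exact this
  set F : Ultrafilter ℕ := Ultrafilter.of atTop with hF
  have hFle : (F : Filter ℕ) ≤ atTop := Ultrafilter.of_le _
  -- compactness
  have hcomp : IsCompact (closedBall (0 : X →L[ℝ] ℝ) 1) := isCompact_closedBall _ _
  have hcomp' : IsCompact (closedBall (0 : Y →L[ℝ] ℝ) 1) := isCompact_closedBall _ _
  have hle : ((F.map fun n => dN (Wv x (c n)) : Ultrafilter (X →L[ℝ] ℝ)) :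
      Filter (X →L[ℝ] ℝ)) ≤ 𝓟 (closedBall (0 : X →L[ℝ] ℝ) 1) := by
    rw [le_principal_iff, Ultrafilter.mem_coe, Ultrafilter.mem_map]
    apply Filter.univ_mem'
    intro n
    simpa using norm_dN_le (Wv x (c n))
  have hle' : ((F.map fun n => dN (Wv (T x) (T (c n))) : Ultrafilter (Y →L[ℝ] ℝ)) :
      Filter (Y →L[ℝ] ℝ)) ≤ 𝓟 (closedBall (0 : Y →L[ℝ] ℝ) 1) := by
    rw [le_principal_iff, Ultrafilter.mem_coe, Ultrafilter.mem_map]
    apply Filter.univ_mem'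
    intro n
    simpa using norm_dN_le (Wv (T x) (T (c n)))
  obtain ⟨ψ, hψ1, hψ2⟩ := hcomp.ultrafilter_le_nhds _ hle
  obtain ⟨ψ', hψ'1, hψ'2⟩ := hcomp'.ultrafilter_le_nhds _ hle'
  have hψt : Tendsto (fun n => (dN (Wv x (c n)) : X →L[ℝ] ℝ)) F (𝓝 ψ) := hψ2
  have hψ't : Tendsto (fun n => (dN (Wv (T x) (T (c n))) : Y →L[ℝ] ℝ)) F (𝓝 ψ') := hψ'2
  refine ⟨ψ, ψ', by simpa using hψ1, ?_, by simpa using hψ'1, ?_, ?_, ?_⟩
  · have g1 := tendsto_clm_apply hψt (hWlim.mono_left hFle)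
    have g2 : Tendsto (fun n => (dN (Wv x (c n)) : X →L[ℝ] ℝ) (Wv x (c n))) F
        (𝓝 ‖(2 * ‖x‖) • x‖) := by
      have : (fun n => (dN (Wv x (c n)) : X →L[ℝ] ℝ) (Wv x (c n))) = fun n => ‖Wv x (c n)‖ := by
        funext n; exact dN_self (hc3 n)
      rw [this]
      exact (hWlim.mono_left hFle).norm
    have g3 := tendsto_nhds_unique g1 g2
    rw [map_smul, smul_eq_mul, norm_smul, Real.norm_of_nonneg (by positivity)] at g3
    exact mul_left_cancel₀ (by positivity) g3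
  · have g1 := tendsto_clm_apply hψ't (hWlim'.mono_left hFle)
    have g2 : Tendsto (fun n => (dN (Wv (T x) (T (c n))) : Y →L[ℝ] ℝ) (Wv (T x) (T (c n)))) F
        (𝓝 ‖(2 * ‖x‖) • T x‖) := by
      have : (fun n => (dN (Wv (T x) (T (c n))) : Y →L[ℝ] ℝ) (Wv (T x) (T (c n))))
          = fun n => ‖Wv (T x) (T (c n))‖ := by
        funext n; exact dN_self (hc4 n)
      rw [this]
      exact (hWlim'.mono_left hFle).norm
    have g3 := tendsto_nhds_unique g1 g2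
    rw [map_smul, smul_eq_mul, norm_smul, Real.norm_of_nonneg (by positivity), hT.norm_map] at g3
    exact mul_left_cancel₀ (by positivity) g3
  · have g1 : Tendsto (fun n => (dN (Wv x (c n)) : X →L[ℝ] ℝ) u) F (𝓝 (ψ u)) :=
      tendsto_clm_apply hψt tendsto_const_nhds
    have g2 : Tendsto (fun n : ℕ => ψ₀ u - 1 / ((n : ℝ) + 1)) F (𝓝 (ψ₀ u - 0)) :=
      (hε.mono_left hFle).const_sub _
    rw [sub_zero] at g2
    exact le_of_tendsto_of_tendsto' g2 g1 hc7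
  · have g1 : Tendsto (fun n => ((dN (Wv x (c n)) : X →L[ℝ] ℝ),
        (dN (Wv (T x) (T (c n))) : Y →L[ℝ] ℝ))) F (𝓝 (ψ, ψ')) := hψt.prodMk_nhds hψ't
    apply mem_closure_of_tendsto g1
    exact Filter.Eventually.of_forall fun n => ⟨c n, hc1 n, hc2 n, rfl⟩

end SphereIso

end pair

end Vale.Agent.P084
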