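import Mathlib
import Vale.Agent.Lib.P084.Blow
import Vale.Agent.Lib.P084F.Odd
import Vale.Agent.Lib.P084F.Pair

open Filter Topology Module Metric MeasureTheory Measure Set
open scoped NNReal ENNReal

namespace Vale.Agent.P084

section slope

variable {E : Type*} [NormedAddCommGroup E] [NormedSpace ℝ E] {U : Ultrafilter ℝ}

theorem degMain_exists_dual (y : E) : ∃ ψ : E →L[ℝ] ℝ, ‖ψ‖ ≤ 1 ∧ ψ y = ‖y‖ := by
  by_cases hy : y = 0
  · exact ⟨0, by simp, by simp [hy]⟩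
  · obtain ⟨g, hg1, hg2⟩ := exists_dual_vector ℝ y (norm_ne_zero_iff.mpr hy)
    exact ⟨g, hg1.le, by simpa using hg2⟩

/-- the slope is the maximum of the support functionals -/
theorem IsSlope.degMain_support [FiniteDimensional ℝ E] (hU : (U : Filter ℝ) ≤ 𝓝[>] (0 : ℝ))
    {x : E} {p : E → ℝ} (hp : IsSlope U x p) (u : E) :
    ∃ ψ : E →L[ℝ] ℝ, ‖ψ‖ ≤ 1 ∧ ψ x = ‖x‖ ∧ p u ≤ ψ u := by
  have hpos : ∀ᶠ t : ℝ in U, 0 < t := hU self_mem_nhdsWithin
  have hex := fun y : E => degMain_exists_dual y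
  choose ψ hψ1 hψ2 using hex
  have hcomp : IsCompact (closedBall (0 : E →L[ℝ] ℝ) 1) := isCompact_closedBall _ _
  have hle : ((U.map (fun t : ℝ => ψ (x + t • u)) : Ultrafilter (E →L[ℝ] ℝ)) :
      Filter (E →L[ℝ] ℝ)) ≤ 𝓟 (closedBall (0 : E →L[ℝ] ℝ) 1) := by
    rw [le_principal_iff, Ultrafilter.mem_coe, Ultrafilter.mem_map]
    apply Filter.univ_mem'
    intro z
    simpa using hψ1 (x + z • u)
  obtain ⟨χ, hχ1, hχ2⟩ := hcomp.ultrafilter_le_nhds _ hle
  have hχt : Tendsto (fun t : ℝ => ψ (x + t • u)) U (𝓝 χ) := hχ2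
  have ht0 : Tendsto (fun t : ℝ => t) U (𝓝 0) := hU.trans nhdsWithin_le_nhds
  have hxt : Tendsto (fun t : ℝ => x + t • u) U (𝓝 x) := by
    simpa using (ht0.smul_const u).const_add x
  have h1 : Tendsto (fun t : ℝ => ψ (x + t • u) (x + t • u)) U (𝓝 (χ x)) :=
    tendsto_clm_apply hχt hxt
  have h2 : Tendsto (fun t : ℝ => ψ (x + t • u) (x + t • u)) U (𝓝 ‖x‖) := by
    simp only [hψ2]
    exact hxt.norm
  refine ⟨χ, by simpa using hχ1, tendsto_nhds_unique h1 h2, ?_⟩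
  have h3 : Tendsto (fun t : ℝ => ψ (x + t • u) u) U (𝓝 (χ u)) :=
    tendsto_clm_apply hχt tendsto_const_nhds
  refine le_of_tendsto_of_tendsto (hp u) h3 ?_
  filter_upwards [hpos] with t ht
  have e1 := hψ2 (x + t • u)
  rw [map_add, map_smul, smul_eq_mul] at e1
  have e2 : ψ (x + t • u) x ≤ ‖x‖ := apply_le_of_norm_le_one (hψ1 _) x
  rw [smul_eq_mul, ← div_eq_inv_mul, div_le_iff₀ ht]
  linarith

theorem IsSlope.degMain_add_le [FiniteDimensional ℝ E] (hU : (U : Filter ℝ) ≤ 𝓝[>] (0 : ℝ))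
    {x : E} {p : E → ℝ} (hp : IsSlope U x p) (u v : E) : p (u + v) ≤ p u + p v := by
  obtain ⟨ψ, h1, h2, h3⟩ := hp.degMain_support hU (u + v)
  have e1 := hp.ge_support hU h1 h2 u
  have e2 := hp.ge_support hU h1 h2 v
  rw [map_add] at h3
  linarith

theorem IsSlope.degMain_le_sub [FiniteDimensional ℝ E] (hU : (U : Filter ℝ) ≤ 𝓝[>] (0 : ℝ))
    {x : E} {p : E → ℝ} (hp : IsSlope U x p) (y : E) : p (y - x) ≤ ‖y‖ - ‖x‖ := by
  obtain ⟨ψ, h1, h2, h3⟩ := hp.degMain_support hU (y - x)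
  have e1 := apply_le_of_norm_le_one h1 y
  rw [map_sub] at h3
  linarith

theorem IsSlope.degMain_mem_Dir [FiniteDimensional ℝ E] (hU : (U : Filter ℝ) ≤ 𝓝[>] (0 : ℝ))
    {x : E} {p : E → ℝ} (hp : IsSlope U x p) (y : E) : y ∈ Dir x ↔ p (-y) < 0 := by
  have hpos : ∀ᶠ t : ℝ in U, 0 < t := hU self_mem_nhdsWithin
  constructor
  · rintro ⟨t, ht, h⟩
    obtain ⟨ψ, h1, h2, h3⟩ := hp.degMain_support hU (-y)
    have e1 := apply_le_of_norm_le_one h1 (x - t • y)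
    rw [map_sub, map_smul, smul_eq_mul, h2] at e1
    rw [_root_.map_neg] at h3
    have e2 : 0 < t * ψ y := by linarith
    have e3 : 0 < ψ y := by
      by_contra hno
      push Not at hno
      nlinarith
    linarith
  · intro h
    have hev : ∀ᶠ t : ℝ in U, t⁻¹ • (‖x + t • (-y)‖ - ‖x‖) < 0 :=
      (hp (-y)).eventually (gt_mem_nhds h)
    obtain ⟨t, ht, htlt⟩ := (hpos.and hev).exists
    refine ⟨t, ht, ?_⟩
    rw [smul_neg, ← sub_eq_add_neg, smul_eq_mul] at htlt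
    by_contra hno
    push Not at hno
    have : 0 ≤ t⁻¹ * (‖x - t • y‖ - ‖x‖) := mul_nonneg (by positivity) (by linarith)
    linarith

theorem IsSlope.degMain_self (hU : (U : Filter ℝ) ≤ 𝓝[>] (0 : ℝ))
    {x : E} {p : E → ℝ} (hp : IsSlope U x p) : p x = ‖x‖ := by
  have hpos : ∀ᶠ t : ℝ in U, 0 < t := hU self_mem_nhdsWithin
  refine tendsto_nhds_unique (hp x) ?_
  refine tendsto_const_nhds.congr' ?_
  filter_upwards [hpos] with t ht
  have e1 : x + t • x = (1 + t) • x := by rw [add_smul, one_smul]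
  rw [e1, norm_smul, Real.norm_of_nonneg (by linarith : 0 ≤ 1 + t), smul_eq_mul]
  field_simp
  ring

end slope

section blow

variable {X Y : Type*} [NormedAddCommGroup X] [NormedSpace ℝ X] [NormedAddCommGroup Y]
  [NormedSpace ℝ Y] {T : X → Y} {U : Ultrafilter ℝ}

namespace SphereIso

theorem degMain_blow_self (hT : SphereIso T) (hU : (U : Filter ℝ) ≤ 𝓝[>] (0 : ℝ)) {x : X}
    {q : X → Y} (hq : IsBlow U T x q) : q x = T x := by
  have hpos : ∀ᶠ t : ℝ in U, 0 < t := hU self_mem_nhdsWithin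
  refine tendsto_nhds_unique (hq x) ?_
  refine tendsto_const_nhds.congr' ?_
  filter_upwards [hpos] with t ht
  have e1 : x + t • x = (1 + t) • x := by rw [add_smul, one_smul]
  rw [e1, hT.smul, add_smul, one_smul, add_sub_cancel_left, smul_smul,
    inv_mul_cancel₀ ht.ne', one_smul]

/-- the computation `hrel` in NonSmooth.lean -/
theorem degMain_blow_kap (hT : SphereIso T) (hU : (U : Filter ℝ) ≤ 𝓝[>] (0 : ℝ)) {x : X}
    (hx : x ≠ 0) {p : X → ℝ} (hp : IsSlope U x p) {q : X → Y} (hq : IsBlow U T x q) {b : X}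
    (hb0 : b ≠ 0) (hb : DifferentiableAt ℝ (fun z : X => ‖z‖) (Wv x b))
    (hb' : DifferentiableAt ℝ (fun z : Y => ‖z‖) (Wv (T x) (T b))) (u : X) :
    dN (Wv (T x) (T b)) (q u) = dN (Wv x b) u + kap T x b * (‖x‖⁻¹ * p u) := by
  have hnx : 0 < ‖x‖ := norm_pos_iff.mpr hx
  have hnb : 0 < ‖b‖ := norm_pos_iff.mpr hb0
  have e1 := hT.blow_relation hU hp hq hb hb' u
  simp only [map_sub, map_smul, smul_eq_mul] at e1
  have hW' : Wv (T x) (T b) = ‖b‖ • T x - ‖x‖ • T b := hT.Wv_map x b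
  have hW : Wv x b = ‖b‖ • x - ‖x‖ • b := rfl
  unfold kap
  set φ : Y →L[ℝ] ℝ := dN (Wv (T x) (T b)) with hφ
  set f : X →L[ℝ] ℝ := dN (Wv x b) with hf
  have h2 : φ (Wv (T x) (T b)) = f (Wv x b) := by
    rw [hφ, hf, dN_self hb, dN_self hb', hT.norm_Wv]
  rw [hW', hW, map_sub, map_sub, map_smul, map_smul, map_smul, map_smul, smul_eq_mul, smul_eq_mul,
    smul_eq_mul, smul_eq_mul] at h2
  have h3 : ‖b‖ * (φ (T x) - f x) = ‖x‖ * (φ (T b) - f b) := by linarith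
  apply mul_left_cancel₀ hnb.ne'
  have h5 : ‖b‖ * φ (q u) = ‖b‖ * f u + p u * (φ (T b) - f b) := by linarith
  rw [h5]
  calc ‖b‖ * f u + p u * (φ (T b) - f b)
      = ‖b‖ * f u + p u * (‖x‖⁻¹ * (‖x‖ * (φ (T b) - f b))) := by
        rw [← mul_assoc ‖x‖⁻¹, inv_mul_cancel₀ hnx.ne', one_mul]
    _ = ‖b‖ * f u + p u * (‖x‖⁻¹ * (‖b‖ * (φ (T x) - f x))) := by rw [h3]
    _ = ‖b‖ * (f u + (φ (T x) - f x) * (‖x‖⁻¹ * p u)) := by ring

/-- if all blow ups are equal to one linear map then the map is differentiable -/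
theorem degMain_hasFDerivAt [FiniteDimensional ℝ X] [FiniteDimensional ℝ Y] (hT : SphereIso T)
    {x : X} {L : X →L[ℝ] Y}
    (h : ∀ U : Ultrafilter ℝ, (U : Filter ℝ) ≤ 𝓝[>] (0 : ℝ) → ∀ q : X → Y, IsBlow U T x q →
      ∀ u, q u = L u) : HasFDerivAt T L x := by
  have hright : ∀ u, Tendsto (fun t : ℝ => t⁻¹ • (T (x + t • u) - T x)) (𝓝[>] 0) (𝓝 (L u)) := by
    intro u
    rw [tendsto_iff_ultrafilter]
    intro g hg
    obtain ⟨q, hq⟩ := hT.exists_isBlow hg x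
    rw [← h g hg q hq u]
    exact hq u
  refine hT.lipschitz.hasFDerivAt_of_hasLineDerivAt_of_closure (s := Set.univ)
    (by rw [closure_univ]; exact Set.subset_univ _) ?_
  intro u _
  rw [hasLineDerivAt_iff_tendsto_slope_zero, ← nhdsLT_sup_nhdsGT, tendsto_sup]
  refine ⟨?_, hright u⟩
  have hneg : Tendsto (fun t : ℝ => -t) (𝓝[<] 0) (𝓝[>] 0) := by
    have h0 : Tendsto (fun t : ℝ => -t) (𝓝[<] 0) (𝓝 0) := by
      have : Tendsto (fun t : ℝ => -t) (𝓝 0) (𝓝 (-0)) := (continuous_neg).tendsto 0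
      rw [neg_zero] at this
      exact this.mono_left nhdsWithin_le_nhds
    refine tendsto_nhdsWithin_iff.mpr ⟨h0, ?_⟩
    filter_upwards [self_mem_nhdsWithin] with t ht
    have ht' : t < 0 := ht
    show 0 < -t
    linarith
  have h1 := ((hright (-u)).comp hneg).neg
  rw [_root_.map_neg, neg_neg] at h1
  refine h1.congr fun t => ?_
  simp only [Function.comp_apply]
  rw [smul_neg, neg_smul, neg_neg, inv_neg, neg_smul, neg_neg]

end SphereIso

end blow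


section rel

variable {X Y : Type*} [NormedAddCommGroup X] [NormedSpace ℝ X] [NormedAddCommGroup Y]
  [NormedSpace ℝ Y] [MeasurableSpace X] [BorelSpace X]

/-- the relations between the support functionals at a degenerate point -/
def DegRel (T : X → Y) (x : X) (L : X ≃L[ℝ] Y) (w : Y) : Prop :=
  ∀ᵐ b ∂(vol X), Om x b → (∀ u, dN (Wv (T x) (T b)) (L u) = dN (Wv x b) u) ∧
    dN (Wv (T x) (T b)) w = kap T x b

variable [MeasurableSpace Y] [BorelSpace Y] [FiniteDimensional ℝ X] [FiniteDimensional ℝ Y]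
  {T : X → Y} {U : Ultrafilter ℝ}

namespace SphereIso

theorem degMain_ae_blow (hT : SphereIso T) (hsurj : Function.Surjective T)
    (hfin : finrank ℝ X = finrank ℝ Y) (hU : (U : Filter ℝ) ≤ 𝓝[>] (0 : ℝ)) {x : X}
    (hx : x ≠ 0) {p : X → ℝ} (hp : IsSlope U x p) {q : X → Y} (hq : IsBlow U T x q) :
    ∀ᵐ b ∂(vol X), Om x b → ∀ u,
      dN (Wv (T x) (T b)) (q u) = dN (Wv x b) u + kap T x b * (‖x‖⁻¹ * p u) := by
  filter_upwards [hT.ae_good_Om hsurj hfin x] with b hb hOm u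
  obtain ⟨h1, h2⟩ := hb hOm
  exact hT.degMain_blow_kap hU hx hp hq hOm.ne_right h1 h2 u

theorem degMain_exists_rel (hT : SphereIso T) (hsurj : Function.Surjective T)
    (hfin : finrank ℝ X = finrank ℝ Y) (hU : (U : Filter ℝ) ≤ 𝓝[>] (0 : ℝ)) {x : X}
    (hx : x ≠ 0) {p : X → ℝ} (hp : IsSlope U x p) {q : X → Y} (hq : IsBlow U T x q) {w : Y}
    (hw : ∀ᵐ b ∂(vol X), Om x b → dN (Wv (T x) (T b)) w = kap T x b) :
    ∃ L : X ≃L[ℝ] Y, (∀ u, L u = q u - (‖x‖⁻¹ * p u) • w) ∧ DegRel T x L w := by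
  set Lf : X → Y := fun u => q u - (‖x‖⁻¹ * p u) • w with hLf
  have hae : ∀ᵐ b ∂(vol X), Om x b → (∀ u, dN (Wv (T x) (T b)) (Lf u) = dN (Wv x b) u) ∧
      dN (Wv (T x) (T b)) w = kap T x b := by
    filter_upwards [hT.degMain_ae_blow hsurj hfin hU hx hp hq, hw] with b h1 h2 hOm
    refine ⟨fun u => ?_, h2 hOm⟩
    rw [hLf]
    simp only [map_sub, map_smul, smul_eq_mul]
    rw [h1 hOm, h2 hOm]
    ring
  let L : X →ₗ[ℝ] Y :=
    { toFun := Lf
      map_add' := by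
        intro u u'
        rw [← sub_eq_zero]
        apply hT.separates_Om hsurj hfin hx
        filter_upwards [hae] with b hb hOm
        obtain ⟨h1, -⟩ := hb hOm
        rw [map_sub, map_add, h1, h1, h1, map_add, sub_self]
      map_smul' := by
        intro c u
        rw [← sub_eq_zero]
        apply hT.separates_Om hsurj hfin hx
        filter_upwards [hae] with b hb hOm
        obtain ⟨h1, -⟩ := hb hOm
        rw [map_sub, h1, map_smul, RingHom.id_apply, map_smul, h1, sub_self] }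
  have hLapp : ∀ u, L u = Lf u := fun u => rfl
  have hLinj : Function.Injective L := by
    rw [injective_iff_map_eq_zero]
    intro u hu
    apply separates_id hx
    filter_upwards [hae] with b hb hOm
    obtain ⟨h1, -⟩ := hb hOm
    rw [← h1, ← hLapp, hu, _root_.map_zero]
  refine ⟨(L.linearEquivOfInjective hLinj hfin).toContinuousLinearEquiv, fun u => rfl, ?_⟩
  exact hae

end SphereIso

namespace DegRel

omit [FiniteDimensional ℝ X] [FiniteDimensional ℝ Y] in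
theorem inv (hT : SphereIso T) (hfin : finrank ℝ X = finrank ℝ Y) {S : Y → X} (hS : SphereIso S)
    (hST : ∀ x, S (T x) = x) (hTS : ∀ y, T (S y) = y) {x : X} {L : X ≃L[ℝ] Y} {w : Y}
    (h : DegRel T x L w) : DegRel S (T x) L.symm (-(L.symm w)) := by
  have hB : vol X {b | ¬ (Om x b → (∀ u, dN (Wv (T x) (T b)) (L u) = dN (Wv x b) u) ∧
      dN (Wv (T x) (T b)) w = kap T x b)} = 0 := h
  have h1 := vol_image_null hfin hT.lipschitz hB
  refine measure_mono_null ?_ h1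
  intro y hy
  by_contra hno
  apply hy
  intro hOm
  have hOm' : Om x (S y) := by
    have := hS.Om_map hOm
    rwa [hST] at this
  have hgood : (∀ u, dN (Wv (T x) (T (S y))) (L u) = dN (Wv x (S y)) u) ∧
      dN (Wv (T x) (T (S y))) w = kap T x (S y) := by
    by_contra hbad
    apply hno
    refine ⟨S y, ?_, hTS y⟩
    intro h2
    exact hbad (h2 hOm')
  obtain ⟨h2, h3⟩ := hgood
  unfold kap at h3 ⊢
  rw [hTS] at h2 h3
  rw [hST]
  refine ⟨fun v => ?_, ?_⟩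
  · rw [← h2, L.apply_symm_apply]
  · rw [_root_.map_neg, ← h2, L.apply_symm_apply, h3]
    ring

theorem pair (hT : SphereIso T) (hsurj : Function.Surjective T)
    (hfin : finrank ℝ X = finrank ℝ Y) (hU : (U : Filter ℝ) ≤ 𝓝[>] (0 : ℝ)) {x : X}
    (hx : x ≠ 0) {p : X → ℝ} (hp : IsSlope U x p) {L : X ≃L[ℝ] Y} {w : Y}
    (h : DegRel T x L w) (u : X) :
    ∃ (ψ : X →L[ℝ] ℝ) (ψ' : Y →L[ℝ] ℝ), ‖ψ‖ ≤ 1 ∧ ψ x = ‖x‖ ∧ ‖ψ'‖ ≤ 1 ∧ ψ' (T x) = ‖x‖ ∧
      p u ≤ ψ u ∧ (∀ v, ψ' (L v) = ψ v) ∧ ψ' w = 0 := by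
  obtain ⟨ψ₀, g1, g2, g3⟩ := hp.degMain_support hU u
  obtain ⟨ψ, ψ', k1, k2, k3, k4, k5, k6⟩ := hT.exists_pair hsurj hfin hx h g1 g2 u
  have hcl : IsClosed {r : (X →L[ℝ] ℝ) × (Y →L[ℝ] ℝ) | (∀ v, r.2 (L v) = r.1 v) ∧
      r.2 w = r.2 (T x) - r.1 x} := by
    have h1 : ∀ v : X, IsClosed {r : (X →L[ℝ] ℝ) × (Y →L[ℝ] ℝ) | r.2 (L v) = r.1 v} := by
      intro v
      exact isClosed_eq (by fun_prop) (by fun_prop)
    have h2 : IsClosed {r : (X →L[ℝ] ℝ) × (Y →L[ℝ] ℝ) | r.2 w = r.2 (T x) - r.1 x} :=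
      isClosed_eq (by fun_prop) (by fun_prop)
    have h3 : {r : (X →L[ℝ] ℝ) × (Y →L[ℝ] ℝ) | (∀ v, r.2 (L v) = r.1 v) ∧
        r.2 w = r.2 (T x) - r.1 x}
        = (⋂ v, {r : (X →L[ℝ] ℝ) × (Y →L[ℝ] ℝ) | r.2 (L v) = r.1 v}) ∩
          {r : (X →L[ℝ] ℝ) × (Y →L[ℝ] ℝ) | r.2 w = r.2 (T x) - r.1 x} := by
      ext r
      simp
    rw [h3]
    exact (isClosed_iInter h1).inter h2
  have hsub : {r : (X →L[ℝ] ℝ) × (Y →L[ℝ] ℝ) | ∃ b, Om x b ∧
      ((∀ u, dN (Wv (T x) (T b)) (L u) = dN (Wv x b) u) ∧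
        dN (Wv (T x) (T b)) w = kap T x b) ∧ r = (dN (Wv x b), dN (Wv (T x) (T b)))} ⊆
      {r : (X →L[ℝ] ℝ) × (Y →L[ℝ] ℝ) | (∀ v, r.2 (L v) = r.1 v) ∧
      r.2 w = r.2 (T x) - r.1 x} := by
    rintro r ⟨b, -, ⟨hb1, hb2⟩, rfl⟩
    exact ⟨hb1, hb2⟩
  have hmem := (hcl.closure_subset_iff.mpr hsub) k6
  obtain ⟨m1, m2⟩ := hmem
  refine ⟨ψ, ψ', k1, k2, k3, k4, g3.trans k5, m1, ?_⟩
  have m3 : ψ' w = ψ' (T x) - ψ x := m2
  rw [m3, k4, k2, sub_self]

theorem slope_le (hT : SphereIso T) (hsurj : Function.Surjective T)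
    (hfin : finrank ℝ X = finrank ℝ Y) (hU : (U : Filter ℝ) ≤ 𝓝[>] (0 : ℝ)) {x : X}
    (hx : x ≠ 0) {p : X → ℝ} (hp : IsSlope U x p) {p' : Y → ℝ} (hp' : IsSlope U (T x) p')
    {L : X ≃L[ℝ] Y} {w : Y} (h : DegRel T x L w) (u : X) : p u ≤ p' (L u) := by
  obtain ⟨ψ, ψ', k1, k2, k3, k4, k5, k6, -⟩ := h.pair hT hsurj hfin hU hx hp u
  have e1 := hp'.ge_support hU k3 (by rw [k4, hT.norm_map]) (L u)
  rw [k6] at e1
  exact k5.trans e1

theorem slope_inv_le (hT : SphereIso T) (hsurj : Function.Surjective T)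
    (hfin : finrank ℝ X = finrank ℝ Y) (hU : (U : Filter ℝ) ≤ 𝓝[>] (0 : ℝ)) {x : X}
    (hx : x ≠ 0) {p : X → ℝ} (hp : IsSlope U x p)
    {L : X ≃L[ℝ] Y} {w : Y} (h : DegRel T x L w) :
    p (L.symm w) ≤ 0 ∧ p (-(L.symm w)) ≤ 0 := by
  constructor
  · obtain ⟨ψ, ψ', k1, k2, k3, k4, k5, k6, k7⟩ := h.pair hT hsurj hfin hU hx hp (L.symm w)
    rw [← k6, L.apply_symm_apply, k7] at k5
    exact k5
  · obtain ⟨ψ, ψ', k1, k2, k3, k4, k5, k6, k7⟩ := h.pair hT hsurj hfin hU hx hp (-(L.symm w))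
    rw [← k6, _root_.map_neg, _root_.map_neg, L.apply_symm_apply, k7, neg_zero] at k5
    exact k5

theorem norm_le (hT : SphereIso T) (hsurj : Function.Surjective T)
    (hfin : finrank ℝ X = finrank ℝ Y) {x : X} (hx : x ≠ 0)
    {L : X ≃L[ℝ] Y} {w : Y} (h : DegRel T x L w) {y : X} (hy : y ∈ Dir x) : ‖y‖ ≤ ‖L y‖ := by
  set Bad : Set X := {c | ¬ (Om x c → ((∀ u, dN (Wv (T x) (T c)) (L u) = dN (Wv x c) u) ∧
    dN (Wv (T x) (T c)) w = kap T x c) ∧ DifferentiableAt ℝ (fun z : X => ‖z‖) (Wv x c))}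
    with hBad
  have hBad0 : vol X Bad = 0 := by
    have : ∀ᵐ c ∂(vol X), (Om x c → ((∀ u, dN (Wv (T x) (T c)) (L u) = dN (Wv x c) u) ∧
        dN (Wv (T x) (T c)) w = kap T x c) ∧ DifferentiableAt ℝ (fun z : X => ‖z‖) (Wv x c)) := by
      filter_upwards [h, hT.ae_good_Om hsurj hfin x] with c g1 g2 g3
      exact ⟨g1 g3, (g2 g3).1⟩
    exact this
  obtain ⟨K, hK⟩ := (SphereIso.id_iso (X := X)).lipschitz_Wv x
  have himg : vol X ((fun b : X => Wv x b) '' Bad) = 0 := vol_image_null rfl hK hBad0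
  have hdense : Dense ((fun b : X => Wv x b) '' Bad)ᶜ := by
    have h3 : ∀ᵐ y ∂(vol X), y ∈ ((fun b : X => Wv x b) '' Bad)ᶜ := by
      rw [ae_iff]
      refine measure_mono_null ?_ himg
      intro y hy
      exact not_not.mp hy
    exact dense_of_ae h3
  have hsub := hdense.open_subset_closure_inter (isOpen_Dir x)
  have hcl : closure (Dir x ∩ ((fun b : X => Wv x b) '' Bad)ᶜ) ⊆ {y : X | ‖y‖ ≤ ‖L y‖} := by
    apply (isClosed_le (by fun_prop) (by fun_prop)).closure_subset_iff.mpr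
    rintro y ⟨hyD, hyn⟩
    obtain ⟨c, s, hs, hc1, -, hc2⟩ := exists_Om_Wv hx hyD
    have hinv : 0 < s⁻¹ := inv_pos.mpr hs
    have e1 : Wv x (s⁻¹ • c) = y := by
      rw [Wv_smul_right _ _ hinv.le, hc2, smul_smul, inv_mul_cancel₀ hs.ne', one_smul]
    have e2 : Om x (s⁻¹ • c) := hc1.smul_right hinv
    have e3 : (s⁻¹ • c) ∉ Bad := fun hb => hyn ⟨_, hb, e1⟩
    have e4 := not_not.mp e3 e2
    obtain ⟨⟨g1, -⟩, g2⟩ := e4
    rw [e1] at g2
    show ‖y‖ ≤ ‖L y‖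
    rw [← dN_self g2]
    have g3 := g1 y
    rw [e1] at g3
    rw [← g3]
    exact dN_le _ _
  exact hcl (hsub hy)

theorem slope_eq (hT : SphereIso T) (hsurj : Function.Surjective T)
    (hfin : finrank ℝ X = finrank ℝ Y) (hU : (U : Filter ℝ) ≤ 𝓝[>] (0 : ℝ)) {x : X}
    (hx : x ≠ 0) {p : X → ℝ} (hp : IsSlope U x p) {p' : Y → ℝ} (hp' : IsSlope U (T x) p')
    {L : X ≃L[ℝ] Y} {w : Y} (h : DegRel T x L w) (u : X) : p' (L u) = p u := by
  obtain ⟨S, hS, hST, hTS⟩ := hT.exists_inverse hsurj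
  apply le_antisymm _ (h.slope_le hT hsurj hfin hU hx hp hp' u)
  have h' := h.inv hT hfin hS hST hTS
  have hp2 : IsSlope U (S (T x)) p := by rw [hST]; exact hp
  have := h'.slope_le hS (fun x => ⟨T x, hST x⟩) hfin.symm hU (hT.map_ne_zero hx) hp' hp2 (L u)
  rwa [L.symm_apply_apply] at this

theorem mem_Dir (hT : SphereIso T) (hsurj : Function.Surjective T)
    (hfin : finrank ℝ X = finrank ℝ Y) {x : X}
    (hx : x ≠ 0) {L : X ≃L[ℝ] Y} {w : Y} (h : DegRel T x L w) (y : X) :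
    L y ∈ Dir (T x) ↔ y ∈ Dir x := by
  have hU : ((Ultrafilter.of (𝓝[>] (0 : ℝ)) : Ultrafilter ℝ) : Filter ℝ) ≤ 𝓝[>] (0 : ℝ) :=
    Ultrafilter.of_le _
  obtain ⟨p, hp⟩ := exists_isSlope hU x
  obtain ⟨p', hp'⟩ := exists_isSlope hU (T x)
  rw [hp'.degMain_mem_Dir hU, hp.degMain_mem_Dir hU, ← _root_.map_neg,
    h.slope_eq hT hsurj hfin hU hx hp hp']

theorem norm_eq (hT : SphereIso T) (hsurj : Function.Surjective T)
    (hfin : finrank ℝ X = finrank ℝ Y) {x : X} (hx : x ≠ 0)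
    {L : X ≃L[ℝ] Y} {w : Y} (h : DegRel T x L w) {y : X} (hy : y ∈ Dir x) : ‖L y‖ = ‖y‖ := by
  obtain ⟨S, hS, hST, hTS⟩ := hT.exists_inverse hsurj
  apply le_antisymm _ (h.norm_le hT hsurj hfin hx hy)
  have h' := h.inv hT hfin hS hST hTS
  have h2 := h'.norm_le hS (fun x => ⟨T x, hST x⟩) hfin.symm (hT.map_ne_zero hx)
    ((h.mem_Dir hT hsurj hfin hx y).mpr hy)
  rwa [L.symm_apply_apply] at h2

end DegRel

end rel

section segment

variable {X Y : Type*} [NormedAddCommGroup X] [NormedSpace ℝ X] [NormedAddCommGroup Y]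
  [NormedSpace ℝ Y] [MeasurableSpace X] [BorelSpace X] [MeasurableSpace Y] [BorelSpace Y]
  [FiniteDimensional ℝ X] [FiniteDimensional ℝ Y] {T : X → Y} {U : Ultrafilter ℝ}

omit [MeasurableSpace X] [BorelSpace X] [MeasurableSpace Y] [BorelSpace Y]
  [FiniteDimensional ℝ Y] in
theorem SphereIso.degMain_segment (hT : SphereIso T) (hsurj : Function.Surjective T) {x y : X}
    (hx : x ≠ 0) (hy : ‖y‖ = ‖x‖) (hxy : ‖x + y‖ = 2 * ‖x‖) {t : ℝ} (ht0 : 0 ≤ t)
    (ht1 : t ≤ 1) : T (x + t • (y - x)) = T x + t • (T y - T x) := by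
  have hnx : 0 < ‖x‖ := norm_pos_iff.mpr hx
  have h := hT.affine_segment hsurj (x := ‖x‖⁻¹ • x) (y := ‖x‖⁻¹ • y)
    (by rw [norm_smul, norm_inv, norm_norm, inv_mul_cancel₀ hnx.ne'])
    (by rw [norm_smul, norm_inv, norm_norm, hy, inv_mul_cancel₀ hnx.ne'])
    (by rw [← smul_add, norm_smul, norm_inv, norm_norm, hxy]; field_simp) ht0 ht1
  have e1 : ‖x‖⁻¹ • x + t • (‖x‖⁻¹ • y - ‖x‖⁻¹ • x) = ‖x‖⁻¹ • (x + t • (y - x)) := by module
  rw [e1, hT.smul, hT.smul, hT.smul] at h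
  have e2 : ‖x‖⁻¹ • T x + t • (‖x‖⁻¹ • T y - ‖x‖⁻¹ • T x)
      = ‖x‖⁻¹ • (T x + t • (T y - T x)) := by module
  rw [e2] at h
  exact smul_right_injective Y (inv_ne_zero hnx.ne') h

theorem DegRel.step (hT : SphereIso T) (hsurj : Function.Surjective T)
    (hfin : finrank ℝ X = finrank ℝ Y) (hU : (U : Filter ℝ) ≤ 𝓝[>] (0 : ℝ)) {x : X}
    (hx : x ≠ 0) {p : X → ℝ} (hp : IsSlope U x p) {q : X → Y} (hq : IsBlow U T x q)
    {L : X ≃L[ℝ] Y} {w : Y} (hL : ∀ u, L u = q u - (‖x‖⁻¹ * p u) • w) (h : DegRel T x L w)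
    {y : X} (hy1 : ‖y‖ = ‖x‖) (hy2 : ‖x + y‖ = 2 * ‖x‖) (hy3 : y ∈ Dir x) :
    ‖y + L.symm w‖ = ‖x‖ ∧ ‖x + (y + L.symm w)‖ = 2 * ‖x‖ ∧ y + L.symm w ∈ Dir x := by
  have hnx : 0 < ‖x‖ := norm_pos_iff.mpr hx
  have hpos : ∀ᶠ t : ℝ in U, 0 < t := hU self_mem_nhdsWithin
  have hlt1 : ∀ᶠ t : ℝ in U, t < 1 := by
    have h1 : ∀ᶠ t : ℝ in 𝓝 (0 : ℝ), t < 1 := gt_mem_nhds one_pos
    exact (hU.trans nhdsWithin_le_nhds) h1
  obtain ⟨hpv1, hpv2⟩ := h.slope_inv_le hT hsurj hfin hU hx hp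
  set v : X := L.symm w with hv
  have hLv : L v = w := L.apply_symm_apply w
  obtain ⟨ψ, hψ1, hψ2⟩ := degMain_exists_dual (x + y)
  have hψx : ψ x = ‖x‖ := by
    have e1 := apply_le_of_norm_le_one hψ1 x
    have e2 := apply_le_of_norm_le_one hψ1 y
    rw [map_add, hy2] at hψ2
    linarith
  have hψy : ψ y = ‖x‖ := by
    rw [map_add, hy2] at hψ2
    linarith
  have e1 : p (y - x) = 0 := by
    apply le_antisymm
    · have := hp.degMain_le_sub hU y
      rwa [hy1, sub_self] at this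
    · have := hp.ge_support hU hψ1 hψx (y - x)
      rwa [map_sub, hψx, hψy, sub_self] at this
  have e2 : q (y - x) = T y - T x := by
    refine tendsto_nhds_unique (hq (y - x)) ?_
    refine tendsto_const_nhds.congr' ?_
    filter_upwards [hpos, hlt1] with t ht ht1
    rw [hT.degMain_segment hsurj hx hy1 hy2 ht.le ht1.le, add_sub_cancel_left, smul_smul,
      inv_mul_cancel₀ ht.ne', one_smul]
  have e3 : L (y - x) = T y - T x := by
    rw [hL, e1, e2, mul_zero, zero_smul, sub_zero]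
  have e4 : L x = T x - w := by
    rw [hL, hT.degMain_blow_self hU hq, hp.degMain_self hU, inv_mul_cancel₀ hnx.ne', one_smul]
  have e5 : L (y + v) = T y := by
    have : y + v = (y - x) + x + v := by abel
    rw [this, map_add, map_add, e3, e4, hLv]
    abel
  have e6 : y + v ∈ Dir x := by
    rw [hp.degMain_mem_Dir hU] at hy3 ⊢
    have := hp.degMain_add_le hU (-y) (-v)
    rw [neg_add]
    linarith
  have e7 : ‖y + v‖ = ‖x‖ := by
    rw [← h.norm_eq hT hsurj hfin hx e6, e5, hT.norm_map, hy1]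
  have e8 : ψ v = 0 := by
    have g1 := hp.ge_support hU hψ1 hψx v
    have g2 := hp.ge_support hU hψ1 hψx (-v)
    rw [_root_.map_neg] at g2
    linarith
  refine ⟨e7, ?_, e6⟩
  apply le_antisymm
  · have := norm_add_le x (y + v)
    linarith
  · have := apply_le_of_norm_le_one hψ1 (x + (y + v))
    rw [map_add, map_add, hψx, hψy, e8] at this
    linarith

theorem DegRel.w_eq_zero (hT : SphereIso T) (hsurj : Function.Surjective T)
    (hfin : finrank ℝ X = finrank ℝ Y) (hU : (U : Filter ℝ) ≤ 𝓝[>] (0 : ℝ)) {x : X}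
    (hx : x ≠ 0) {p : X → ℝ} (hp : IsSlope U x p) {q : X → Y} (hq : IsBlow U T x q)
    {L : X ≃L[ℝ] Y} {w : Y} (hL : ∀ u, L u = q u - (‖x‖⁻¹ * p u) • w) (h : DegRel T x L w) :
    w = 0 := by
  have key : ∀ k : ℕ, ‖x + (k : ℝ) • L.symm w‖ = ‖x‖ ∧ ‖x + (x + (k : ℝ) • L.symm w)‖ = 2 * ‖x‖ ∧
      x + (k : ℝ) • L.symm w ∈ Dir x := by
    intro k
    induction k with
    | zero =>
      rw [Nat.cast_zero, zero_smul, add_zero]
      refine ⟨rfl, ?_, self_mem_Dir hx⟩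
      rw [← two_smul ℝ x, norm_smul, Real.norm_ofNat]
    | succ k ih =>
      obtain ⟨h1, h2, h3⟩ := ih
      have e1 : x + ((k + 1 : ℕ) : ℝ) • L.symm w = (x + (k : ℝ) • L.symm w) + L.symm w := by
        rw [Nat.cast_add, Nat.cast_one, add_smul, one_smul, add_assoc]
      rw [e1]
      exact h.step hT hsurj hfin hU hx hp hq hL h1 h2 h3
  have hv : L.symm w = 0 := by
    by_contra hv0
    have hnv : 0 < ‖L.symm w‖ := norm_pos_iff.mpr hv0
    obtain ⟨k, hk⟩ := exists_nat_gt (2 * ‖x‖ / ‖L.symm w‖)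
    rw [div_lt_iff₀ hnv] at hk
    have e1 : ‖(k : ℝ) • L.symm w‖ ≤ ‖x + (k : ℝ) • L.symm w‖ + ‖x‖ := by
      calc ‖(k : ℝ) • L.symm w‖ = ‖(x + (k : ℝ) • L.symm w) - x‖ := by congr 1; abel
        _ ≤ _ := norm_sub_le _ _
    rw [(key k).1, norm_smul, Real.norm_of_nonneg (Nat.cast_nonneg k)] at e1
    linarith
  rw [← L.apply_symm_apply w, hv, _root_.map_zero]

end segment

variable {X Y : Type*} [NormedAddCommGroup X] [NormedSpace ℝ X] [NormedAddCommGroup Y]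
  [NormedSpace ℝ Y] [FiniteDimensional ℝ X] [FiniteDimensional ℝ Y]
  [MeasurableSpace X] [BorelSpace X] [MeasurableSpace Y] [BorelSpace Y] {T : X → Y}

namespace SphereIso

/-
In this file: `f_b = dN (Wv x b)`, `φ_b = dN (Wv (T x) (T b))`, `κ_b = kap T x b = φ_b (T x) - f_b x`.
Fix an ultrafilter `U ≤ 𝓝[>] 0`; `p` = slope of the norm at `x` (`exists_isSlope`), `p'` = slope of the norm of `Y` at `T x`,
`q` = blow up of `T` at `x` (`exists_isBlow`), see `Vale/Agent/Lib/P084/Blow.lean`; `slope_blow`: `p' (q u) = p u`.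
For almost every `b` with `Om x b` (`ae_good_Om` in Sep2.lean) `blow_relation` and `norm_Wv` give, for all `u`,
`φ_b (q u) = f_b u + p u * ‖x‖⁻¹ * κ_b`  (this is the computation `hrel` in NonSmooth.lean and `first_order_full` in Deg.lean).
Separation: `separates_Om`, `separates_id` in Sep2.lean.
-/

/-
PROOF of `deg_main`.  Take `w` from `Deg`, `w₁ = ‖x‖⁻¹ • w`, `L u = q u - p u • w₁`.  For a.e. `b` with `Om x b`: `φ_b (L u) = f_b u` for all `u`.
By separation in `Y`, `L` is linear; by separation in `X` it is injective, hence a linear equivalence (same proof as in NonSmooth.lean).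
(2) `p' (L u) = p u` for all `u`, and `p' (± w) = 0`: let `P b` be `(∀ u, φ_b (L u) = f_b u) ∧ φ_b w = κ_b`.  Let `ψ₀` be a support functional at `x` with
`ψ₀ u = p u` (Hahn-Banach for the sublinear function `p`; or avoid it by using `p u ≤ ...` directly: it is enough to redo `exists_good_near` with
`(‖x + t u‖ - ‖x‖)/t ≥ p u` instead of `ψ₀ u`).  `exists_pair` gives `ψ, ψ'` supports at `x`, `T x`, `ψ u ≥ p u`, and since the relations in `P` are closed
(`κ_b = φ_b (T x) - f_b x`): `ψ' ∘ L = ψ`, `ψ' w = ψ' (T x) - ψ x = 0`.  So `p u ≤ ψ u = ψ' (L u) ≤ p' (L u)` (`IsSlope.ge_support`).  Apply the same to the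
inverse map `S` at `T x` (`S` is a SphereIso; pairs `(dN (Wv (T x) y), dN (Wv x (S y)))`; null sets are transported by `vol_image_null`, and `L⁻¹` plays the role of `L`):
for every `v ∈ Y` there are supports `ψ', ψ` with `ψ' v ≥ p' v`, `ψ' ∘ L = ψ`, `ψ' w = 0`.  With `v = L u`: `p' (L u) ≤ ψ' (L u) = ψ u ≤ p u`; with `v = ± w`: `p' (± w) ≤ 0`, so
`= 0` (sublinearity).
(3) `y ∈ Dir x ↔ p (-y) < 0` (convexity), the same in `Y`; so `L` maps `Dir x` onto `Dir (T x)`.  For `y ∈ Dir x`, `‖y‖ ≤ ‖L y‖`: it holds for a.e. `y ∈ Dir x` (scale as in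
`separates_Om`: `y` is a positive multiple of `Wv x b`, `b` good, `‖y‖ = f_b y = φ_b (L y) ≤ ‖L y‖`), so on all of `Dir x` by density.  Symmetrically `‖v‖ ≤ ‖L⁻¹ v‖` on `Dir (T x)`.
So `‖L y‖ = ‖y‖` on `Dir x`.
(4) `w = 0`.  By homogeneity assume `‖x‖ = 1` (or work with `x / ‖x‖`; `Deg`, `Dir`, `Om` are scale invariant) ; `L x = T x - w₁` (`q x = T x`, `p x = ‖x‖`).  Let `v = L⁻¹ w₁`; `p (± v) = p' (± w₁) = 0`.
Claim: if `‖y‖ = 1`, `‖x + y‖ = 2`, `y ∈ Dir x`, then `y + v` has the same three properties.  `T` is affine on the segment `[x,y]` (`affine_segment` in Odd.lean) so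
`q (y - x) = T y - T x`, and `p (y - x) = 0` (the norm is `1` on the segment), so `L (y - x) = T y - T x`, `L (y + v) = T y`.  `p (-y-v) ≤ p (-y) + p (-v) < 0`, so `y + v ∈ Dir x` and
`‖y + v‖ = ‖L (y + v)‖ = ‖T y‖ = 1`.  Take a functional `ψ`, `‖ψ‖ ≤ 1`, `ψ x = ψ y = 1`; `ψ v = 0` since `± ψ v ≤ p (± v) = 0`; so `ψ (x + y + v) = 2`, `‖x + (y + v)‖ = 2`.
Starting with `y = x` we get `‖x + k v‖ = 1` for all `k : ℕ`, so `v = 0`, `w = 0`.
(5) Hence `κ_b = φ_b 0 = 0` a.e., `q = L`.  `L` is determined by `φ_b ∘ L = f_b` a.e. (separation), so it does not depend on the ultrafilter: for every ultrafilter `U ≤ 𝓝[>] 0` the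
blow up is `L`; so the one sided directional derivatives of `T` at `x` exist and equal `L u` (`tendsto_iff_ultrafilter`), and `HasFDerivAt T L x` follows from
`LipschitzWith.hasFDerivAt_of_hasLineDerivAt_of_closure` (or by compactness), `T` being Lipschitz (`SphereIso.lipschitz`).
-/
theorem deg_main (hT : SphereIso T) (hsurj : Function.Surjective T)
    (hfin : finrank ℝ X = finrank ℝ Y) {x : X} (hx : x ≠ 0) (hdeg : Deg T x) :
    (∀ᵐ b ∂(vol X), Om x b → kap T x b = 0) ∧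
      ∃ L : X ≃L[ℝ] Y, HasFDerivAt T (L : X →L[ℝ] Y) x ∧
        (∀ᵐ b ∂(vol X), Om x b → ∀ u, dN (Wv (T x) (T b)) (L u) = dN (Wv x b) u) ∧
        ∀ u ∈ Dir x, ‖L u‖ = ‖u‖ := by
  obtain ⟨w, hw⟩ := hdeg
  set U : Ultrafilter ℝ := Ultrafilter.of (𝓝[>] (0 : ℝ)) with hUdef
  have hU : (U : Filter ℝ) ≤ 𝓝[>] (0 : ℝ) := Ultrafilter.of_le _
  obtain ⟨p, hp⟩ := exists_isSlope hU x
  obtain ⟨q, hq⟩ := hT.exists_isBlow hU x
  obtain ⟨L, hL, hrel⟩ := hT.degMain_exists_rel hsurj hfin hU hx hp hq hw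
  have hw0 : w = 0 := hrel.w_eq_zero hT hsurj hfin hU hx hp hq hL
  have hkap : ∀ᵐ b ∂(vol X), Om x b → kap T x b = 0 := by
    filter_upwards [hrel] with b hb hOm
    rw [← (hb hOm).2, hw0, _root_.map_zero]
  refine ⟨hkap, L, ?_, ?_, fun u hu => hrel.norm_eq hT hsurj hfin hx hu⟩
  · apply hT.degMain_hasFDerivAt
    intro V hV q' hq' u
    obtain ⟨p', hp'⟩ := exists_isSlope hV x
    rw [← sub_eq_zero]
    apply hT.separates_Om hsurj hfin hx
    filter_upwards [hT.degMain_ae_blow hsurj hfin hV hx hp' hq', hrel, hkap] with b h1 h2 h3 hOm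
    have e1 : dN (Wv (T x) (T b)) ((L : X →L[ℝ] Y) u) = dN (Wv x b) u := (h2 hOm).1 u
    rw [map_sub, h1 hOm, e1, h3 hOm]
    ring
  · filter_upwards [hrel] with b hb hOm
    exact (hb hOm).1

/-
PROOF.  As in NonSmooth.lean: there are two support functionals at `x` (`exists_two_supports`), a direction `v` with `p v + p (-v) > 0`
(`exists_support_dir`, `IsSlope.ge_support`), and `w = ‖x‖ (p v + p (-v))⁻¹ (q v + q (-v))` works for a.e. `b` with `Om x b`.
-/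
theorem deg_of_not_diff (hT : SphereIso T) (hsurj : Function.Surjective T)
    (hfin : finrank ℝ X = finrank ℝ Y) {x : X} (hx : x ≠ 0)
    (hnd : ¬ DifferentiableAt ℝ (fun z : X => ‖z‖) x) : Deg T x := by
  have hnx : 0 < ‖x‖ := norm_pos_iff.mpr hx
  obtain ⟨ψ₁, ψ₂, h1, h2, h3, h4, hne⟩ := exists_two_supports hnd
  obtain ⟨v, σ, hσ, hv1, hv2⟩ := exists_support_dir hx h3 h4 hne
  set U : Ultrafilter ℝ := Ultrafilter.of (𝓝[>] (0 : ℝ)) with hUdef
  have hU : (U : Filter ℝ) ≤ 𝓝[>] (0 : ℝ) := Ultrafilter.of_le _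
  obtain ⟨p, hp⟩ := exists_isSlope hU x
  obtain ⟨q, hq⟩ := hT.exists_isBlow hU x
  set s : ℝ := p v + p (-v) with hs
  have hspos : 0 < s := by
    have e1 := hp.ge_support hU h1 h3 v
    have e2 := hp.ge_support hU h2 h4 (-v)
    rw [hv1] at e1
    rw [_root_.map_neg, hv2] at e2
    rw [hs]; linarith
  refine ⟨(‖x‖ * s⁻¹) • (q v + q (-v)), ?_⟩
  filter_upwards [hT.degMain_ae_blow hsurj hfin hU hx hp hq] with b hb hOm
  rw [map_smul, map_add, hb hOm, hb hOm, _root_.map_neg, smul_eq_mul]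
  have e1 : dN (Wv x b) v + kap T x b * (‖x‖⁻¹ * p v)
      + (-dN (Wv x b) v + kap T x b * (‖x‖⁻¹ * p (-v))) = kap T x b * (‖x‖⁻¹ * s) := by
    rw [hs]; ring
  rw [e1]
  field_simp

/-
PROOF.  If the norm is not differentiable at `x` use `deg_of_not_diff`, `deg_main` (`kap = 0` a.e.; `fderiv` of the non differentiable norm is `0`).
If it is differentiable at `x`, the slope is `p = dN x`, linear, so for every ultrafilter `φ_b (q u) = f_b u + dN x u * ‖x‖⁻¹ * κ_b` determines `q u` (separation): `q` is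
linear and independent of the ultrafilter, so `T` is differentiable at `x` as in (5) above with `fderiv ℝ T x = q`.
-/
theorem differentiableAt_FO (hT : SphereIso T) (hsurj : Function.Surjective T)
    (hfin : finrank ℝ X = finrank ℝ Y) {x : X} (hx : x ≠ 0) :
    DifferentiableAt ℝ T x ∧
      ∀ᵐ b ∂(vol X), Om x b → ∀ u, dN (Wv (T x) (T b)) (fderiv ℝ T x u)
        = dN (Wv x b) u + kap T x b * (‖x‖⁻¹ * dN x u) := by
  by_cases hnd : DifferentiableAt ℝ (fun z : X => ‖z‖) x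
  · have hslope : ∀ V : Ultrafilter ℝ, (V : Filter ℝ) ≤ 𝓝[>] (0 : ℝ) → ∀ p : X → ℝ,
        IsSlope V x p → ∀ u, p u = dN x u := by
      intro V hV p hp u
      refine tendsto_nhds_unique (hp u) ?_
      exact tendsto_slope_seq (hasFDerivAt_norm hnd) hV tendsto_const_nhds
    set U : Ultrafilter ℝ := Ultrafilter.of (𝓝[>] (0 : ℝ)) with hUdef
    have hU : (U : Filter ℝ) ≤ 𝓝[>] (0 : ℝ) := Ultrafilter.of_le _
    obtain ⟨p, hp⟩ := exists_isSlope hU x
    obtain ⟨q, hq⟩ := hT.exists_isBlow hU x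
    have hae : ∀ᵐ b ∂(vol X), Om x b → ∀ u,
        dN (Wv (T x) (T b)) (q u) = dN (Wv x b) u + kap T x b * (‖x‖⁻¹ * dN x u) := by
      filter_upwards [hT.degMain_ae_blow hsurj hfin hU hx hp hq] with b hb hOm u
      rw [hb hOm, hslope U hU p hp u]
    let Q : X →ₗ[ℝ] Y :=
      { toFun := q
        map_add' := by
          intro u u'
          rw [← sub_eq_zero]
          apply hT.separates_Om hsurj hfin hx
          filter_upwards [hae] with b hb hOm
          rw [map_sub, map_add, hb hOm, hb hOm, hb hOm, map_add, map_add]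
          ring
        map_smul' := by
          intro c u
          rw [← sub_eq_zero]
          apply hT.separates_Om hsurj hfin hx
          filter_upwards [hae] with b hb hOm
          rw [map_sub, hb hOm, map_smul, map_smul, RingHom.id_apply, map_smul, hb hOm,
            smul_eq_mul, smul_eq_mul, smul_eq_mul]
          ring }
    have hQ : HasFDerivAt T (LinearMap.toContinuousLinearMap Q) x := by
      apply hT.degMain_hasFDerivAt
      intro V hV q' hq' u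
      obtain ⟨p', hp'⟩ := exists_isSlope hV x
      rw [← sub_eq_zero]
      apply hT.separates_Om hsurj hfin hx
      filter_upwards [hT.degMain_ae_blow hsurj hfin hV hx hp' hq', hae] with b h1 h2 hOm
      have e1 : dN (Wv (T x) (T b)) ((LinearMap.toContinuousLinearMap Q) u)
        = dN (Wv x b) u + kap T x b * (‖x‖⁻¹ * dN x u) := h2 hOm u
      rw [map_sub, h1 hOm, e1, hslope V hV p' hp' u, sub_self]
    refine ⟨hQ.differentiableAt, ?_⟩
    rw [hQ.fderiv]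
    exact hae
  · obtain ⟨h1, L, h2, h3, -⟩ := hT.deg_main hsurj hfin hx (hT.deg_of_not_diff hsurj hfin hx hnd)
    refine ⟨h2.differentiableAt, ?_⟩
    filter_upwards [h1, h3] with b g1 g2 hOm u
    rw [g1 hOm, zero_mul, add_zero, h2.fderiv]
    exact g2 hOm u

theorem degMain_Deg_inv (hT : SphereIso T) (hsurj : Function.Surjective T)
    (hfin : finrank ℝ X = finrank ℝ Y) {S : Y → X} (hS : SphereIso S) (hST : ∀ x, S (T x) = x)
    (hTS : ∀ y, T (S y) = y) {x : X} (hx : x ≠ 0) (hdeg : Deg T x) : Deg S (T x) := by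
  obtain ⟨w, hw⟩ := hdeg
  set U : Ultrafilter ℝ := Ultrafilter.of (𝓝[>] (0 : ℝ)) with hUdef
  have hU : (U : Filter ℝ) ≤ 𝓝[>] (0 : ℝ) := Ultrafilter.of_le _
  obtain ⟨p, hp⟩ := exists_isSlope hU x
  obtain ⟨q, hq⟩ := hT.exists_isBlow hU x
  obtain ⟨L, hL, hrel⟩ := hT.degMain_exists_rel hsurj hfin hU hx hp hq hw
  have h' := hrel.inv hT hfin hS hST hTS
  refine ⟨-(L.symm w), ?_⟩
  filter_upwards [h'] with b hb hOm
  exact (hb hOm).2

/-- PROOF.  `kap S (T x) (T b) = - kap T x b`; transport null sets (`vol_image_null`); `deg_main`. -/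
theorem Deg_inv (hT : SphereIso T) (hsurj : Function.Surjective T)
    (hfin : finrank ℝ X = finrank ℝ Y) {S : Y → X} (hS : SphereIso S) (hST : ∀ x, S (T x) = x)
    (hTS : ∀ y, T (S y) = y) {x : X} (hx : x ≠ 0) : Deg S (T x) ↔ Deg T x := by
  constructor
  · intro h
    have := hS.degMain_Deg_inv (fun x => ⟨T x, hST x⟩) hfin.symm hT hTS hST
      (hT.map_ne_zero hx) h
    rwa [hST] at this
  · intro h
    exact hT.degMain_Deg_inv hsurj hfin hS hST hTS hx h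

end SphereIso

end Vale.Agent.P084
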