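import Mathlib
import Vale.Agent.Lib.P084.Meas
import Vale.Agent.Lib.P084.Regular

open Filter Topology Module Metric MeasureTheory Measure Set
open scoped NNReal ENNReal

namespace Vale.Agent.P084

/-
PROOF.  Let `𝒮` be the set of functionals `z ↦ ∫ b in ball b₀ r, G b z` with `0 < r` and `P b₀ r`.  If `z` is killed by all of `𝒮` then for a.e. `b₀ ∈ O` all small balls around `b₀` have
`∫ G b z = 0`, so by the Lebesgue differentiation theorem (`IsUnifLocDoublingMeasure.ae_tendsto_average` or `Besicovitch.ae_tendsto_...`; open or closed balls, spheres are null: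
`Measure.addHaar_sphere`) `G b₀ z = 0` for a.e. `b₀ ∈ O`, so `z = 0` by `hsep`.  A separating set of functionals on a finite dimensional space contains a finite separating subset
(`exists_finset_separating` in `Vale/Agent/Lib/P084/Regular.lean`, used in the same way in `exists_rep` in Boot3.lean); enumerate it.
-/
theorem exists_sep_general {X Z : Type*} [NormedAddCommGroup X] [NormedSpace ℝ X]
    [FiniteDimensional ℝ X] [MeasurableSpace X] [BorelSpace X] [NormedAddCommGroup Z]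
    [NormedSpace ℝ Z] [FiniteDimensional ℝ Z] {G : X → Z →L[ℝ] ℝ}
    (hG : LocallyIntegrable G (vol X)) {O : Set X}
    (hsep : ∀ z : Z, (∀ᵐ b ∂(vol X), b ∈ O → G b z = 0) → z = 0) (P : X → ℝ → Prop)
    (hP : ∀ᵐ b₀ ∂(vol X), b₀ ∈ O → ∃ r₀ : ℝ, 0 < r₀ ∧ ∀ r, 0 < r → r < r₀ → P b₀ r) :
    ∃ (n : ℕ) (β : Fin n → X) (ρ : Fin n → ℝ), (∀ i, 0 < ρ i ∧ P (β i) (ρ i)) ∧
      ∀ z : Z, (∀ i, ∫ b in ball (β i) (ρ i), G b z ∂(vol X) = 0) → z = 0 := by
  have hint : ∀ (b₀ : X) (r : ℝ), IntegrableOn G (ball b₀ r) (vol X) := fun b₀ r =>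
    (hG.integrableOn_isCompact (isCompact_closedBall b₀ r)).mono_set ball_subset_closedBall
  set Ψ : X → ℝ → (Z →L[ℝ] ℝ) := fun b₀ r => ∫ b in ball b₀ r, G b ∂(vol X) with hΨ
  have hΨapp : ∀ b₀ r z, Ψ b₀ r z = ∫ b in ball b₀ r, G b z ∂(vol X) := fun b₀ r z =>
    ContinuousLinearMap.integral_apply (hint b₀ r) z
  obtain ⟨s, hsS, hs⟩ := exists_finset_separating
    {L : Z →L[ℝ] ℝ | ∃ b r, (0 < r ∧ P b r) ∧ L = Ψ b r} (by
    intro v hv
    apply hsep
    have hloc : LocallyIntegrable (fun b => G b v) (vol X) := by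
      intro x
      obtain ⟨t, ht, h⟩ := hG x
      exact ⟨t, ht, (ContinuousLinearMap.apply ℝ ℝ v).integrable_comp h⟩
    filter_upwards [IsUnifLocDoublingMeasure.ae_tendsto_average (vol X) hloc 1, hP] with b₀ h1 h2
    intro hb₀
    obtain ⟨r₀, hr₀, hPr⟩ := h2 hb₀
    have h3 := h1 (ι := ℝ) (l := 𝓝[>] 0) (fun _ => b₀) (fun r => r) tendsto_id (by
      filter_upwards [self_mem_nhdsWithin] with r hr
      rw [one_mul]
      exact mem_closedBall_self (le_of_lt hr))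
    have h4 : ∀ᶠ r : ℝ in 𝓝[>] 0, (⨍ y in closedBall b₀ r, G y v ∂(vol X)) = 0 := by
      filter_upwards [self_mem_nhdsWithin,
        eventually_nhdsWithin_of_eventually_nhds (gt_mem_nhds hr₀)] with r hr hr'
      have e1 : (∫ y in closedBall b₀ r, G y v ∂(vol X)) = ∫ y in ball b₀ r, G y v ∂(vol X) := by
        refine (setIntegral_congr_set ?_).symm
        refine ae_eq_of_subset_of_measure_ge ball_subset_closedBall ?_
          measurableSet_ball.nullMeasurableSet measure_closedBall_lt_top.ne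
        rw [← ball_union_sphere]
        refine (measure_union_le _ _).trans ?_
        rw [addHaar_sphere_of_ne_zero (vol X) b₀ (ne_of_gt hr), add_zero]
      have e2 : (∫ y in ball b₀ r, G y v ∂(vol X)) = 0 := by
        rw [← hΨapp]
        exact hv _ ⟨b₀, r, ⟨hr, hPr r hr hr'⟩, rfl⟩
      rw [setAverage_eq, e1, e2, smul_zero]
    have h5 : Tendsto (fun _ : ℝ => (0 : ℝ)) (𝓝[>] 0) (𝓝 (G b₀ v)) :=
      h3.congr' h4
    exact (tendsto_nhds_unique h5 tendsto_const_nhds))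
  have hchoice : ∀ i : Fin s.card, ∃ b r, (0 < r ∧ P b r) ∧
      ((s.equivFin.symm i : s) : Z →L[ℝ] ℝ) = Ψ b r := fun i => hsS (s.equivFin.symm i).2
  choose β ρ hβρ hψ using hchoice
  refine ⟨s.card, β, ρ, hβρ, fun z hz => hs z fun φ hφ => ?_⟩
  have h1 := hψ (s.equivFin ⟨φ, hφ⟩)
  rw [Equiv.symm_apply_apply] at h1
  change φ = _ at h1
  rw [h1, hΨapp]
  exact hz _

/-- PROOF: a variant of `exists_theta` in `Vale/Agent/Lib/P084/Boot1.lean`; same proof, keep the whole solution `(D a).prod (δ a) = Ring.inverse (A (m a)) ∘ B (m a)` instead of its second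
component. -/
theorem exists_theta_pair {X Y : Type*} [NormedAddCommGroup X] [NormedSpace ℝ X]
    [NormedAddCommGroup Y] [NormedSpace ℝ Y] [FiniteDimensional ℝ Y] {ι : Type*} [Fintype ι]
    (Φ : ι → X → Y →L[ℝ] ℝ) (F : ι → X → X →L[ℝ] ℝ) (T : X → Y) {x₀ : X}
    (D : X → X →L[ℝ] Y) (δ : X → X →L[ℝ] ℝ)
    (hid : ∀ᶠ a in 𝓝 x₀, ∀ i h,
      Φ i a (D a h) - (Φ i a (T a) - F i a a) * δ a h = F i a h)
    (hsep : ∀ (w : Y) (α : ℝ), (∀ i, Φ i x₀ w - (Φ i x₀ (T x₀) - F i x₀ x₀) * α = 0) →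
      w = 0 ∧ α = 0)
    (hcont : ContinuousAt (fun a => ((fun i => Φ i a, fun i => F i a, T a, a) :
      (ι → Y →L[ℝ] ℝ) × (ι → X →L[ℝ] ℝ) × Y × X)) x₀) :
    ∃ Θ : (ι → Y →L[ℝ] ℝ) × (ι → X →L[ℝ] ℝ) × Y × X → (X →L[ℝ] (Y × ℝ)),
      ContDiffAt ℝ 1 Θ (fun i => Φ i x₀, fun i => F i x₀, T x₀, x₀) ∧
      ∀ᶠ a in 𝓝 x₀, (D a).prod (δ a) = Θ (fun i => Φ i a, fun i => F i a, T a, a) := by
  classical
  set m : X → (ι → Y →L[ℝ] ℝ) × (ι → X →L[ℝ] ℝ) × Y × X :=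
    fun a => (fun i => Φ i a, fun i => F i a, T a, a) with hm
  -- the left inverse
  set J₀ : (Y × ℝ) →ₗ[ℝ] (ι → ℝ) := LinearMap.pi fun i =>
    (((Φ i x₀).comp (ContinuousLinearMap.fst ℝ Y ℝ)
      - (Φ i x₀ (T x₀) - F i x₀ x₀) • ContinuousLinearMap.snd ℝ Y ℝ :
        (Y × ℝ) →L[ℝ] ℝ) : (Y × ℝ) →ₗ[ℝ] ℝ) with hJ₀
  have hJ₀app : ∀ v i, J₀ v i = Φ i x₀ v.1 - (Φ i x₀ (T x₀) - F i x₀ x₀) * v.2 := fun v i => by
    simp [hJ₀]
  have hker : J₀.ker = ⊥ := by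
    rw [LinearMap.ker_eq_bot']
    intro v hv
    have h1 := hsep v.1 v.2 (fun i => by rw [← hJ₀app, hv]; rfl)
    exact Prod.ext h1.1 h1.2
  obtain ⟨P, hP⟩ := LinearMap.exists_leftInverse_of_injective J₀ hker
  set q : ι → Y × ℝ := fun i => P (Pi.single i 1) with hq
  have hPq : ∀ c : ι → ℝ, P c = ∑ i, c i • q i := by
    intro c
    have e1 : c = ∑ i, c i • (Pi.single i (1 : ℝ) : ι → ℝ) := by
      funext j
      simp [Finset.sum_apply, Pi.single_apply]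
    conv_lhs => rw [e1]
    rw [_root_.map_sum]
    simp only [map_smul, hq]
  set A : (ι → Y →L[ℝ] ℝ) × (ι → X →L[ℝ] ℝ) × Y × X → ((Y × ℝ) →L[ℝ] (Y × ℝ)) := fun p =>
    ∑ i, ((p.1 i).comp (ContinuousLinearMap.fst ℝ Y ℝ)
      - (p.1 i p.2.2.1 - p.2.1 i p.2.2.2) • ContinuousLinearMap.snd ℝ Y ℝ).smulRight (q i) with hA
  set B : (ι → Y →L[ℝ] ℝ) × (ι → X →L[ℝ] ℝ) × Y × X → (X →L[ℝ] (Y × ℝ)) := fun p =>
    ∑ i, (p.2.1 i).smulRight (q i) with hB
  have hAC : ContDiff ℝ 1 A := by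
    rw [hA]; fun_prop
  have hBC : ContDiff ℝ 1 B := by
    rw [hB]; fun_prop
  have hAapp : ∀ p v, A p v = ∑ i, (p.1 i v.1 - (p.1 i p.2.2.1 - p.2.1 i p.2.2.2) * v.2) • q i := by
    intro p v
    simp [hA]
  have hBapp : ∀ p v, B p v = ∑ i, (p.2.1 i v) • q i := by
    intro p v
    simp [hB]
  have hA1 : A (m x₀) = 1 := by
    refine ContinuousLinearMap.ext fun v => ?_
    rw [hAapp]
    have h1 := congrArg (fun L : (Y × ℝ) →ₗ[ℝ] (Y × ℝ) => L v) hP
    simp only [LinearMap.comp_apply, LinearMap.id_apply] at h1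
    rw [hPq] at h1
    simp only [hJ₀app] at h1
    exact h1
  refine ⟨fun p => (Ring.inverse (A p)).comp (B p), ?_, ?_⟩
  · have h1 : ContDiffAt ℝ 1 (fun p => Ring.inverse (A p)) (m x₀) := by
      have h2 : ContDiffAt ℝ 1 (Ring.inverse : ((Y × ℝ) →L[ℝ] (Y × ℝ)) → _) (A (m x₀)) := by
        rw [hA1]
        exact contDiffAt_ringInverse ℝ (1 : ((Y × ℝ) →L[ℝ] (Y × ℝ))ˣ)
      exact h2.comp (m x₀) hAC.contDiffAt
    exact h1.clm_comp hBC.contDiffAt
  · have h1 : ∀ᶠ a in 𝓝 x₀, IsUnit (A (m a)) := by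
      have h2 : ContinuousAt (fun a => A (m a)) x₀ :=
        ContinuousAt.comp (f := m) (g := A) hAC.continuous.continuousAt hcont
      have h3 : {x : (Y × ℝ) →L[ℝ] (Y × ℝ) | IsUnit x} ∈ 𝓝 (A (m x₀)) := by
        rw [hA1]
        exact Units.nhds (1 : ((Y × ℝ) →L[ℝ] (Y × ℝ))ˣ)
      exact h2 h3
    filter_upwards [h1, hid] with a ha1 ha2
    have h4 : (A (m a)).comp ((D a).prod (δ a)) = B (m a) := by
      refine ContinuousLinearMap.ext fun v => ?_
      rw [ContinuousLinearMap.comp_apply, hAapp, hBapp]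
      apply Finset.sum_congr rfl
      intro i _
      congr 1
      exact ha2 i v
    have h5 : (Ring.inverse (A (m a))).comp (B (m a)) = (D a).prod (δ a) := by
      rw [← h4, ← ContinuousLinearMap.comp_assoc]
      have h6 : (Ring.inverse (A (m a))).comp (A (m a)) = 1 := Ring.inverse_mul_cancel _ ha1
      rw [h6]
      rfl
    exact h5.symm

end Vale.Agent.P084
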