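import Mathlib
import Vale.Agent.Lib.P084.Boot2
import Vale.Agent.Lib.P084F.DegMain
import Vale.Agent.Lib.P084F.SepFam

open Filter Topology Module Metric MeasureTheory Measure Set
open scoped NNReal ENNReal

namespace Vale.Agent.P084

variable {X Y : Type*} [NormedAddCommGroup X] [NormedSpace ℝ X] [NormedAddCommGroup Y]
  [NormedSpace ℝ Y] [FiniteDimensional ℝ X] [FiniteDimensional ℝ Y]
  [MeasurableSpace X] [BorelSpace X] [MeasurableSpace Y] [BorelSpace Y] {T : X → Y}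

namespace SphereIso

omit [MeasurableSpace Y] [BorelSpace Y] [FiniteDimensional ℝ Y] [FiniteDimensional ℝ X] in
theorem foavg_apply {w : X → Y} {s : Set X}
    (h : IntegrableOn (fun b => (dN (w b) : Y →L[ℝ] ℝ)) s (vol X)) (v : Y) :
    (∫ b in s, (dN (w b) : Y →L[ℝ] ℝ) ∂(vol X)) v = ∫ b in s, dN (w b) v ∂(vol X) :=
  ContinuousLinearMap.integral_apply h v

omit [MeasurableSpace Y] [BorelSpace Y] [FiniteDimensional ℝ Y] [FiniteDimensional ℝ X] in
theorem foavg_integrable {w : X → Y} {s : Set X}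
    (h : IntegrableOn (fun b => (dN (w b) : Y →L[ℝ] ℝ)) s (vol X)) (v : Y) :
    IntegrableOn (fun b => dN (w b) v) s (vol X) :=
  (ContinuousLinearMap.apply ℝ ℝ v).integrable_comp h

/-- PROOF: integrate the identity of `differentiableAt_FO` over the ball (`ContinuousLinearMap.integral_apply`); compare `avT_identity` in Boot2.lean. -/
theorem avT_FO (hT : SphereIso T) (hsurj : Function.Surjective T)
    (hfin : finrank ℝ X = finrank ℝ Y) {a b₀ : X} {r : ℝ} (ha : a ≠ 0)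
    (hOm : ∀ b ∈ ball b₀ r, Om a b)
    (h1 : IntegrableOn (fun b => dN (Wv a b)) (ball b₀ r) (vol X))
    (h2 : IntegrableOn (fun b => dN (Wv (T a) (T b))) (ball b₀ r) (vol X)) (u : X) :
    avT T b₀ r a (fderiv ℝ T a u) = avT (fun x : X => x) b₀ r a u
      + (avT T b₀ r a (T a) - avT (fun x : X => x) b₀ r a a) * (‖a‖⁻¹ * dN a u) := by
  have happ1 : ∀ v : X, avT (fun x : X => x) b₀ r a v
      = ∫ b in ball b₀ r, dN (Wv a b) v ∂(vol X) := fun v => foavg_apply h1 v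
  have happ2 : ∀ v : Y, avT T b₀ r a v
      = ∫ b in ball b₀ r, dN (Wv (T a) (T b)) v ∂(vol X) := fun v => foavg_apply h2 v
  have hI1 : ∀ v : X, IntegrableOn (fun b => dN (Wv a b) v) (ball b₀ r) (vol X) := fun v =>
    foavg_integrable h1 v
  have hI2 : ∀ v : Y, IntegrableOn (fun b => dN (Wv (T a) (T b)) v) (ball b₀ r) (vol X) :=
    fun v => foavg_integrable h2 v
  rw [happ1, happ1, happ2, happ2, ← integral_sub (hI2 _) (hI1 _), ← integral_mul_const]
  have hI3 : IntegrableOn (fun b => (dN (Wv (T a) (T b)) (T a) - dN (Wv a b) a)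
      * (‖a‖⁻¹ * dN a u)) (ball b₀ r) (vol X) := ((hI2 _).sub (hI1 _)).mul_const _
  rw [← integral_add (hI1 _) hI3]
  apply setIntegral_congr_ae measurableSet_ball
  filter_upwards [(hT.differentiableAt_FO hsurj hfin ha).2] with b hb hbb
  exact hb (hOm b hbb) u

/-- PROOF: `deg_main`: `kap = 0` a.e.; integrate. -/
theorem avT_deg (hT : SphereIso T) (hsurj : Function.Surjective T)
    (hfin : finrank ℝ X = finrank ℝ Y) {a b₀ : X} {r : ℝ} (ha : a ≠ 0) (hdeg : Deg T a)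
    (hOm : ∀ b ∈ ball b₀ r, Om a b)
    (h1 : IntegrableOn (fun b => dN (Wv a b)) (ball b₀ r) (vol X))
    (h2 : IntegrableOn (fun b => dN (Wv (T a) (T b))) (ball b₀ r) (vol X)) :
    avT T b₀ r a (T a) = avT (fun x : X => x) b₀ r a a := by
  have happ1 : ∀ v : X, avT (fun x : X => x) b₀ r a v
      = ∫ b in ball b₀ r, dN (Wv a b) v ∂(vol X) := fun v => foavg_apply h1 v
  have happ2 : ∀ v : Y, avT T b₀ r a v
      = ∫ b in ball b₀ r, dN (Wv (T a) (T b)) v ∂(vol X) := fun v => foavg_apply h2 v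
  rw [happ1, happ2]
  apply setIntegral_congr_ae measurableSet_ball
  filter_upwards [(hT.deg_main hsurj hfin ha hdeg).1] with b hb hbb
  exact sub_eq_zero.mp (hb (hOm b hbb))

theorem foavg_isFinite_ball (b : X) (r : ℝ) : (vol X) (ball b r) ≠ ⊤ :=
  measure_ball_lt_top.ne

/-- the support functionals form a locally integrable function of `b` -/
theorem foavg_locInt (hT : SphereIso T) (x₀ : X) :
    LocallyIntegrable (fun b => (dN (Wv (T x₀) (T b)) : Y →L[ℝ] ℝ)) (vol X) := by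
  have hmeasD : Measurable (fderiv ℝ (fun z : Y => ‖z‖)) := measurable_fderiv ℝ _
  have hc : Continuous fun b => Wv (T x₀) (T b) :=
    (continuous_Wv_right (T x₀)).comp hT.lipschitz.continuous
  have hm : Measurable (fun b => (dN (Wv (T x₀) (T b)) : Y →L[ℝ] ℝ)) :=
    hmeasD.comp hc.measurable
  intro x
  refine ⟨ball x 1, ball_mem_nhds x one_pos, ?_⟩
  refine Measure.integrableOn_of_bounded (M := 1) (foavg_isFinite_ball x 1)
    hm.aestronglyMeasurable ?_
  exact ae_of_all _ fun b => norm_dN_le_one _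

theorem foavg_int_ball (hT : SphereIso T) (x₀ b₀ : X) (r : ℝ) :
    IntegrableOn (fun b => (dN (Wv (T x₀) (T b)) : Y →L[ℝ] ℝ)) (ball b₀ r) (vol X) := by
  have hmeasD : Measurable (fderiv ℝ (fun z : Y => ‖z‖)) := measurable_fderiv ℝ _
  have hc : Continuous fun b => Wv (T x₀) (T b) :=
    (continuous_Wv_right (T x₀)).comp hT.lipschitz.continuous
  have hm : Measurable (fun b => (dN (Wv (T x₀) (T b)) : Y →L[ℝ] ℝ)) :=
    hmeasD.comp hc.measurable
  refine Measure.integrableOn_of_bounded (M := 1) (foavg_isFinite_ball b₀ r)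
    hm.aestronglyMeasurable ?_
  exact ae_of_all _ fun b => norm_dN_le_one _

/-- PROOF: `exists_sep_general` with `G b = dN (Wv (T x₀) (T b))` (bounded measurable), `O = {b | Om x₀ b}`, `separates_Om`; `avT` at `x₀` applied to `w` is the integral. -/
theorem exists_fam_sep (hT : SphereIso T) (hsurj : Function.Surjective T)
    (hfin : finrank ℝ X = finrank ℝ Y) {x₀ : X} (hx₀ : x₀ ≠ 0) (P : X → ℝ → Prop)
    (hP : ∀ᵐ b₀ ∂(vol X), Om x₀ b₀ → ∃ r₀ : ℝ, 0 < r₀ ∧ ∀ r, 0 < r → r < r₀ → P b₀ r) :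
    ∃ (n : ℕ) (β : Fin n → X) (ρ : Fin n → ℝ), (∀ i, 0 < ρ i ∧ P (β i) (ρ i)) ∧
      ∀ w : Y, (∀ i, avT T (β i) (ρ i) x₀ w = 0) → w = 0 := by
  obtain ⟨n, β, ρ, h1, h2⟩ := exists_sep_general (X := X) (Z := Y)
    (G := fun b => (dN (Wv (T x₀) (T b)) : Y →L[ℝ] ℝ)) (hT.foavg_locInt x₀)
    (O := {b | Om x₀ b}) (fun z hz => hT.separates_Om hsurj hfin hx₀ hz) P hP
  refine ⟨n, β, ρ, h1, fun w hw => h2 w fun i => ?_⟩
  rw [← foavg_apply (hT.foavg_int_ball x₀ (β i) (ρ i)) w]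
  exact hw i

/-- PROOF: `exists_sep_general` with `Z = Y × ℝ`, `G b (w, α) = dN (Wv (T x₀) (T b)) w - kap T x₀ b * α`.  Separation: if `φ_b w = κ_b α` a.e. and `α ≠ 0` then `α⁻¹ • w` shows `Deg T x₀`; so `α = 0`
and `w = 0` by `separates_Om`. -/
theorem exists_fam_sep_nondeg (hT : SphereIso T) (hsurj : Function.Surjective T)
    (hfin : finrank ℝ X = finrank ℝ Y) {x₀ : X} (hx₀ : x₀ ≠ 0) (hnd : ¬ Deg T x₀)
    (P : X → ℝ → Prop)
    (hP : ∀ᵐ b₀ ∂(vol X), Om x₀ b₀ → ∃ r₀ : ℝ, 0 < r₀ ∧ ∀ r, 0 < r → r < r₀ → P b₀ r) :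
    ∃ (n : ℕ) (β : Fin n → X) (ρ : Fin n → ℝ), (∀ i, 0 < ρ i ∧ P (β i) (ρ i)) ∧
      ∀ (w : Y) (α : ℝ), (∀ i, avT T (β i) (ρ i) x₀ w
        - (avT T (β i) (ρ i) x₀ (T x₀) - avT (fun x : X => x) (β i) (ρ i) x₀ x₀) * α = 0) →
        w = 0 ∧ α = 0 := by
  set F : X → (Y →L[ℝ] ℝ) := fun b => dN (Wv (T x₀) (T b)) with hF
  set Q : X → (X →L[ℝ] ℝ) := fun b => dN (Wv x₀ b) with hQ
  have hid : SphereIso (fun x : X => x) := SphereIso.id_iso (X := X)
  have hFl : LocallyIntegrable F (vol X) := hT.foavg_locInt x₀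
  have hQl : LocallyIntegrable Q (vol X) := hid.foavg_locInt x₀
  -- the two linear maps
  let A : (Y →L[ℝ] ℝ) →L[ℝ] ((Y × ℝ) →L[ℝ] ℝ) :=
    (ContinuousLinearMap.compL ℝ (Y × ℝ) Y ℝ).flip (ContinuousLinearMap.fst ℝ Y ℝ)
      - (ContinuousLinearMap.apply ℝ ℝ (T x₀)).smulRight (ContinuousLinearMap.snd ℝ Y ℝ)
  let B : (X →L[ℝ] ℝ) →L[ℝ] ((Y × ℝ) →L[ℝ] ℝ) :=
    (ContinuousLinearMap.apply ℝ ℝ x₀).smulRight (ContinuousLinearMap.snd ℝ Y ℝ)
  have hA : ∀ (φ : Y →L[ℝ] ℝ) (z : Y × ℝ), A φ z = φ z.1 - φ (T x₀) * z.2 := by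
    intro φ z
    simp [A]
  have hB : ∀ (φ : X →L[ℝ] ℝ) (z : Y × ℝ), B φ z = φ x₀ * z.2 := by
    intro φ z
    simp [B]
  have hG : LocallyIntegrable (fun b => A (F b) + B (Q b)) (vol X) := by
    intro x
    obtain ⟨s, hs, hs'⟩ := hFl x
    obtain ⟨t, ht, ht'⟩ := hQl x
    refine ⟨s ∩ t, Filter.inter_mem hs ht, ?_⟩
    exact (A.integrable_comp (hs'.mono_set inter_subset_left)).add
      (B.integrable_comp (ht'.mono_set inter_subset_right))
  have hGapp : ∀ (b : X) (z : Y × ℝ),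
      (A (F b) + B (Q b)) z = F b z.1 - (F b (T x₀) - Q b x₀) * z.2 := by
    intro b z
    rw [_root_.add_apply, hA, hB]
    ring
  obtain ⟨n, β, ρ, h1, h2⟩ := exists_sep_general (X := X) (Z := Y × ℝ)
    (G := fun b => A (F b) + B (Q b)) hG (O := {b | Om x₀ b}) (by
      intro z hz
      have hα : z.2 = 0 := by
        by_contra hα
        apply hnd
        refine ⟨(z.2)⁻¹ • z.1, ?_⟩
        filter_upwards [hz] with b hb hbO
        have e1 := hb hbO
        rw [hGapp] at e1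
        have e2 : F b z.1 = (F b (T x₀) - Q b x₀) * z.2 := by linarith
        show F b ((z.2)⁻¹ • z.1) = F b (T x₀) - Q b x₀
        rw [map_smul, smul_eq_mul, e2]
        field_simp
      have hw : z.1 = 0 := by
        refine hT.separates_Om hsurj hfin hx₀ ?_
        filter_upwards [hz] with b hb hbO
        have e1 := hb hbO
        rw [hGapp, hα, mul_zero, sub_zero] at e1
        exact e1
      exact Prod.ext hw hα) P hP
  refine ⟨n, β, ρ, h1, fun w α hw => ?_⟩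
  have h3 : ((w, α) : Y × ℝ) = 0 := by
    refine h2 (w, α) fun i => ?_
    have hFi : IntegrableOn F (ball (β i) (ρ i)) (vol X) := hT.foavg_int_ball x₀ (β i) (ρ i)
    have hQi : IntegrableOn Q (ball (β i) (ρ i)) (vol X) := hid.foavg_int_ball x₀ (β i) (ρ i)
    have happF : ∀ v : Y, avT T (β i) (ρ i) x₀ v
        = ∫ b in ball (β i) (ρ i), F b v ∂(vol X) := fun v => foavg_apply hFi v
    have happQ : ∀ v : X, avT (fun x : X => x) (β i) (ρ i) x₀ v
        = ∫ b in ball (β i) (ρ i), Q b v ∂(vol X) := fun v => foavg_apply hQi v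
    have hIF : ∀ v : Y, IntegrableOn (fun b => F b v) (ball (β i) (ρ i)) (vol X) :=
      fun v => foavg_integrable hFi v
    have hIQ : ∀ v : X, IntegrableOn (fun b => Q b v) (ball (β i) (ρ i)) (vol X) :=
      fun v => foavg_integrable hQi v
    have hI3 : IntegrableOn (fun b => (F b (T x₀) - Q b x₀) * α)
        (ball (β i) (ρ i)) (vol X) := ((hIF _).sub (hIQ _)).mul_const _
    have e0 : ∀ b, (A (F b) + B (Q b)) (w, α) = F b w - (F b (T x₀) - Q b x₀) * α :=
      fun b => hGapp b (w, α)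
    simp only [e0]
    rw [integral_sub (hIF _) hI3, integral_mul_const, integral_sub (hIF _) (hIQ _), ← happF,
      ← happF, ← happQ]
    exact hw i
  exact ⟨congrArg Prod.fst h3, congrArg Prod.snd h3⟩

end SphereIso

end Vale.Agent.P084
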