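import Mathlib
import Vale.Agent.Lib.P084F.AvgF
import Vale.Agent.Lib.P084F.FOavg

open Filter Topology Module Metric MeasureTheory Measure Set Asymptotics
open scoped NNReal ENNReal

namespace Vale.Agent.P084

variable {X Y : Type*} [NormedAddCommGroup X] [NormedSpace ℝ X] [NormedAddCommGroup Y]
  [NormedSpace ℝ Y] [FiniteDimensional ℝ X] [FiniteDimensional ℝ Y]
  [MeasurableSpace X] [BorelSpace X] [MeasurableSpace Y] [BorelSpace Y] {T : X → Y}

section c11aux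

omit [FiniteDimensional ℝ X] [FiniteDimensional ℝ Y] [MeasurableSpace X] [BorelSpace X]
  [MeasurableSpace Y] [BorelSpace Y]

theorem c11_lipAt_norm (x : X) : LipAt (fun z : X => ‖z‖) x :=
  lipAt_of_lipschitzOn (K := 1) (t := Set.univ) univ_mem (lipschitzWith_one_norm.lipschitzOnWith)

theorem c11_lipAt_id (x : X) : LipAt (fun z : X => z) x :=
  lipAt_of_lipschitzOn (K := 1) (t := Set.univ) univ_mem (LipschitzWith.id.lipschitzOnWith)

theorem c11_lipAt_T (hT : SphereIso T) (x : X) : LipAt T x :=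
  lipAt_of_lipschitzOn (K := 3) (t := Set.univ) univ_mem (hT.lipschitz.lipschitzOnWith)

/-- `C¹` from a locally Lipschitz derivative -/
theorem c11_contDiffAt_one {f : X → Y} {f' : X → X →L[ℝ] Y} {x : X} (hf' : LipAt f' x)
    (h : ∀ᶠ a in 𝓝 x, HasFDerivAt f (f' a) a) : ContDiffAt ℝ 1 f x := by
  obtain ⟨K, ε, hε, hK⟩ := hf'.exists_lipschitzOn
  obtain ⟨ε₂, hε₂, h₂⟩ := Metric.eventually_nhds_iff_ball.mp h
  refine contDiffAt_one_iff.mpr ⟨f', ball x (min ε ε₂), ball_mem_nhds _ (lt_min hε hε₂), ?_, ?_⟩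
  · exact hK.continuousOn.mono (ball_subset_ball (min_le_left _ _))
  · intro a ha
    exact h₂ a (ball_subset_ball (min_le_right _ _) ha)

/-- `C²` from a `C¹` derivative -/
theorem c11_contDiffAt_two {f : X → Y} {f' : X → X →L[ℝ] Y} {x : X} (hf' : ContDiffAt ℝ 1 f' x)
    (h : ∀ᶠ a in 𝓝 x, HasFDerivAt f (f' a) a) : ContDiffAt ℝ 2 f x := by
  have h2 := (contDiffAt_succ_iff_hasFDerivAt (𝕜 := ℝ) (f := f) (x := x)
    (n := 1)).mpr ⟨f', ⟨{a | HasFDerivAt f (f' a) a}, h, fun y hy => hy⟩, by exact_mod_cast hf'⟩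
  norm_num at h2
  exact h2

end c11aux

namespace SphereIso

theorem c11_avT_apply {a b₀ : X} {r : ℝ}
    (hi : IntegrableOn (fun b => dN (Wv (T a) (T b))) (ball b₀ r) (vol X)) (v : Y) :
    avT T b₀ r a v = ∫ b in ball b₀ r, dN (Wv (T a) (T b)) v ∂(vol X) :=
  ContinuousLinearMap.integral_apply hi v

/-- the averaged first order identity in the form used by `exists_theta_pair` -/
theorem c11_avT_identity (hT : SphereIso T) (hsurj : Function.Surjective T)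
    (hfin : finrank ℝ X = finrank ℝ Y) {a b₀ : X} {r : ℝ} (ha : a ≠ 0)
    (hOm : ∀ b ∈ ball b₀ r, Om a b)
    (h1 : IntegrableOn (fun b => dN (Wv a b)) (ball b₀ r) (vol X))
    (h2 : IntegrableOn (fun b => dN (Wv (T a) (T b))) (ball b₀ r) (vol X)) (u : X) :
    avT T b₀ r a (fderiv ℝ T a u)
      - (avT T b₀ r a (T a) - avT (fun x : X => x) b₀ r a a) * (‖a‖⁻¹ • dN a : X →L[ℝ] ℝ) u
      = avT (fun x : X => x) b₀ r a u := by
  rw [hT.avT_FO hsurj hfin ha hOm h1 h2 u]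
  have e1 : (‖a‖⁻¹ • dN a : X →L[ℝ] ℝ) u = ‖a‖⁻¹ * dN a u := rfl
  rw [e1]
  ring

/-- a degenerate point gives a kernel vector of the averages -/
theorem c11_avT_of_deg {a b₀ : X} {r : ℝ} {w : Y}
    (hw : ∀ᵐ b ∂(vol X), Om a b → dN (Wv (T a) (T b)) w = kap T a b)
    (hOm : ∀ b ∈ ball b₀ r, Om a b)
    (h1 : IntegrableOn (fun b => dN (Wv a b)) (ball b₀ r) (vol X))
    (h2 : IntegrableOn (fun b => dN (Wv (T a) (T b))) (ball b₀ r) (vol X)) :
    avT T b₀ r a w = avT T b₀ r a (T a) - avT (fun x : X => x) b₀ r a a := by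
  have hI1 : IntegrableOn (fun b => dN (Wv a b) a) (ball b₀ r) (vol X) :=
    ((ContinuousLinearMap.apply ℝ ℝ a).integrable_comp h1)
  have hI2 : IntegrableOn (fun b => dN (Wv (T a) (T b)) (T a)) (ball b₀ r) (vol X) :=
    ((ContinuousLinearMap.apply ℝ ℝ (T a)).integrable_comp h2)
  rw [c11_avT_apply h2, c11_avT_apply h2, c11_avT_apply (T := fun x : X => x) h1,
    ← integral_sub hI2 hI1]
  apply setIntegral_congr_ae measurableSet_ball
  filter_upwards [hw] with b hb hbb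
  exact hb (hOm b hbb)

/-
PROOF.  `avT_unif` (for `T` and for the identity), `exists_fam_sep_nondeg` and `exists_theta_pair` (with `D = fderiv ℝ T`, `δ a = ‖a‖⁻¹ • dN a`, `avT_FO`): near `x₀`,
`(D a).prod (δ a) = Θ (Φ a, F a, T a, a)`, `Θ` is `C¹` and the averages are Lipschitz near `x₀` (`LipAt`), so `D` and `δ`, hence `dN = ‖·‖ • δ`, are `LipAt x₀`: compare `lipAt_dN` in
`Vale/Agent/Lib/P084/StrictMain.lean`.  The separation property `∀ w α, (∀ i, Φ_i a w - K_i a α = 0) → w = 0 ∧ α = 0` persists for `a` near `x₀` (open condition: injectivity of a linear map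
between finite dimensional spaces depending continuously on `a`), and it implies `¬ Deg T a` (if `φ_b w = κ_b` a.e. then, integrating, `Φ_i a w - K_i a = 0` for all `i`).
-/
theorem nondeg_regular (hT : SphereIso T) (hsurj : Function.Surjective T)
    (hfin : finrank ℝ X = finrank ℝ Y) {x₀ : X} (hx₀ : x₀ ≠ 0) (hnd : ¬ Deg T x₀) :
    (∀ᶠ a in 𝓝 x₀, a ≠ 0 ∧ ¬ Deg T a) ∧ LipAt (dN : X → X →L[ℝ] ℝ) x₀ ∧
      LipAt (fderiv ℝ T) x₀ := by
  have hid : SphereIso (fun x : X => x) := id_iso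
  obtain ⟨n, β, ρ, hβ, hsep⟩ := hT.exists_fam_sep_nondeg hsurj hfin hx₀ hnd
    (fun b₀ r => (∀ a ∈ ball x₀ r, ∀ b ∈ ball b₀ r, Om a b) ∧
      (∀ a : X, IntegrableOn (fun b => dN (Wv a b)) (ball b₀ r) (vol X)) ∧
      (∀ a : X, IntegrableOn (fun b => dN (Wv (T a) (T b))) (ball b₀ r) (vol X)) ∧
      (∃ K, LipschitzOnWith K (avT (fun x : X => x) b₀ r) (ball x₀ r)) ∧
      (∃ K, LipschitzOnWith K (avT T b₀ r) (ball x₀ r))) (by
      refine ae_of_all _ fun b₀ hb₀ => ?_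
      obtain ⟨r₁, hr₁, h1⟩ := avT_unif (X := X) Y hfin hb₀
      obtain ⟨r₂, hr₂, h2⟩ := avT_unif (X := X) X rfl hb₀
      refine ⟨min r₁ r₂, lt_min hr₁ hr₂, fun r hr hrr => ?_⟩
      obtain ⟨K₁, p1, p2⟩ := h1 r hr (hrr.trans_le (min_le_left _ _))
      obtain ⟨K₂, q1, q2⟩ := h2 r hr (hrr.trans_le (min_le_right _ _))
      obtain ⟨p3, p4⟩ := p2 T hT hsurj
      obtain ⟨q3, q4⟩ := q2 (fun x : X => x) hid (fun z => ⟨z, rfl⟩)
      exact ⟨p1, q4, p4, ⟨K₂, q3⟩, ⟨K₁, p3⟩⟩)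
  have hΦl : ∀ i, LipAt (avT T (β i) (ρ i)) x₀ := fun i => by
    obtain ⟨K, hK⟩ := (hβ i).2.2.2.2.2
    exact lipAt_of_lipschitzOn (ball_mem_nhds _ (hβ i).1) hK
  have hFl : ∀ i, LipAt (avT (fun x : X => x) (β i) (ρ i)) x₀ := fun i => by
    obtain ⟨K, hK⟩ := (hβ i).2.2.2.2.1
    exact lipAt_of_lipschitzOn (ball_mem_nhds _ (hβ i).1) hK
  have hTl : LipAt T x₀ := c11_lipAt_T hT x₀
  have hidl : LipAt (fun a : X => a) x₀ := c11_lipAt_id x₀
  have hm : LipAt (fun a => ((fun i => avT T (β i) (ρ i) a,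
      fun i => avT (fun x : X => x) (β i) (ρ i) a, T a, a) :
      (Fin n → Y →L[ℝ] ℝ) × (Fin n → X →L[ℝ] ℝ) × Y × X)) x₀ := by
    refine IsBigO.prod_left ?_ (IsBigO.prod_left ?_ (IsBigO.prod_left hTl hidl))
    · exact isBigO_pi.mpr fun i => hΦl i
    · exact isBigO_pi.mpr fun i => hFl i
  have hball : ∀ᶠ a in 𝓝 x₀, ∀ i, a ∈ ball x₀ (ρ i) :=
    Filter.eventually_all.mpr fun i => ball_mem_nhds _ (hβ i).1
  have hne : ∀ᶠ a : X in 𝓝 x₀, a ≠ 0 := isOpen_compl_singleton.mem_nhds hx₀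
  obtain ⟨Θ, hΘ1, hΘ2⟩ := exists_theta_pair (ι := Fin n) (fun i => avT T (β i) (ρ i))
    (fun i => avT (fun x : X => x) (β i) (ρ i)) T (x₀ := x₀) (fun a => fderiv ℝ T a)
    (fun a => ‖a‖⁻¹ • dN a) (by
      filter_upwards [hball, hne] with a ha ha0
      intro i h
      obtain ⟨p1, p2, p3, -, -⟩ := (hβ i).2
      exact hT.c11_avT_identity hsurj hfin ha0 (p1 a (ha i)) (p2 a) (p3 a) h)
    hsep hm.continuousAt
  have hpair : LipAt (fun a : X => (fderiv ℝ T a).prod (‖a‖⁻¹ • dN a)) x₀ :=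
    (LipAt.comp (g := Θ) (f := fun a => ((fun i => avT T (β i) (ρ i) a,
      fun i => avT (fun x : X => x) (β i) (ρ i) a, T a, a) :
      (Fin n → Y →L[ℝ] ℝ) × (Fin n → X →L[ℝ] ℝ) × Y × X))
      (lipAt_of_contDiffAt hΘ1) hm hm.continuousAt).congr (hΘ2.mono fun a ha => ha.symm)
  have hD : LipAt (fderiv ℝ T) x₀ := by
    have e1 : ContDiffAt ℝ 1 (fun L : X →L[ℝ] (Y × ℝ) => (ContinuousLinearMap.fst ℝ Y ℝ).comp L)
        ((fderiv ℝ T x₀).prod (‖x₀‖⁻¹ • dN x₀)) := by fun_prop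
    exact (LipAt.comp (g := fun L : X →L[ℝ] (Y × ℝ) => (ContinuousLinearMap.fst ℝ Y ℝ).comp L)
      (f := fun a : X => (fderiv ℝ T a).prod (‖a‖⁻¹ • dN a)) (lipAt_of_contDiffAt e1) hpair
      hpair.continuousAt).congr (Eventually.of_forall fun a => rfl)
  have hδ : LipAt (fun a : X => ‖a‖⁻¹ • (dN a : X →L[ℝ] ℝ)) x₀ := by
    have e1 : ContDiffAt ℝ 1 (fun L : X →L[ℝ] (Y × ℝ) => (ContinuousLinearMap.snd ℝ Y ℝ).comp L)
        ((fderiv ℝ T x₀).prod (‖x₀‖⁻¹ • dN x₀)) := by fun_prop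
    exact (LipAt.comp (g := fun L : X →L[ℝ] (Y × ℝ) => (ContinuousLinearMap.snd ℝ Y ℝ).comp L)
      (f := fun a : X => (fderiv ℝ T a).prod (‖a‖⁻¹ • dN a)) (lipAt_of_contDiffAt e1) hpair
      hpair.continuousAt).congr (Eventually.of_forall fun a => rfl)
  have hdN : LipAt (dN : X → X →L[ℝ] ℝ) x₀ := by
    have h2 : LipAt (fun a : X => (‖a‖, ‖a‖⁻¹ • (dN a : X →L[ℝ] ℝ))) x₀ :=
      IsBigO.prod_left (c11_lipAt_norm x₀) hδ
    have h3 : ContDiffAt ℝ 1 (fun p : ℝ × (X →L[ℝ] ℝ) => p.1 • p.2)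
        (‖x₀‖, ‖x₀‖⁻¹ • (dN x₀ : X →L[ℝ] ℝ)) := contDiffAt_fst.smul contDiffAt_snd
    refine (LipAt.comp (g := fun p : ℝ × (X →L[ℝ] ℝ) => p.1 • p.2)
      (f := fun a : X => (‖a‖, ‖a‖⁻¹ • (dN a : X →L[ℝ] ℝ)))
      (lipAt_of_contDiffAt h3) h2 h2.continuousAt).congr ?_
    filter_upwards [hne] with a ha
    rw [smul_smul, mul_inv_cancel₀ (norm_ne_zero_iff.mpr ha), one_smul]
  refine ⟨?_, hdN, hD⟩
  -- persistence of nondegeneracy
  set q : Fin n → (Fin n → ℝ) := fun i => Pi.single i 1 with hq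
  set A : (Fin n → Y →L[ℝ] ℝ) × (Fin n → X →L[ℝ] ℝ) × Y × X → ((Y × ℝ) →L[ℝ] (Fin n → ℝ)) :=
    fun p => ∑ i, ((p.1 i).comp (ContinuousLinearMap.fst ℝ Y ℝ)
      - (p.1 i p.2.2.1 - p.2.1 i p.2.2.2) • ContinuousLinearMap.snd ℝ Y ℝ).smulRight (q i) with hA
  have hAC : ContDiff ℝ 1 A := by
    rw [hA]; fun_prop
  set J : X → (Y × ℝ) →L[ℝ] (Fin n → ℝ) := fun a => A (fun i => avT T (β i) (ρ i) a,
      fun i => avT (fun x : X => x) (β i) (ρ i) a, T a, a) with hJ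
  have hJapp : ∀ a v i, J a v i = avT T (β i) (ρ i) a v.1
      - (avT T (β i) (ρ i) a (T a) - avT (fun x : X => x) (β i) (ρ i) a a) * v.2 := by
    intro a v i
    simp [hJ, hA, hq, Finset.sum_apply, Pi.single_apply]
  have hJinj : Function.Injective (J x₀) := by
    rw [injective_iff_map_eq_zero]
    intro v hv
    have h1 := hsep v.1 v.2 (fun i => by rw [← hJapp, hv]; rfl)
    exact Prod.ext h1.1 h1.2
  have hJc : ContinuousAt J x₀ :=
    ContinuousAt.comp (f := fun a => ((fun i => avT T (β i) (ρ i) a,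
      fun i => avT (fun x : X => x) (β i) (ρ i) a, T a, a) :
      (Fin n → Y →L[ℝ] ℝ) × (Fin n → X →L[ℝ] ℝ) × Y × X)) (g := A)
      hAC.continuous.continuousAt hm.continuousAt
  have hopen := (ContinuousLinearMap.isOpen_injective (𝕜 := ℝ) (E := Y × ℝ) (F := Fin n → ℝ))
  filter_upwards [hJc.eventually (hopen.mem_nhds hJinj), hball, hne] with a hinj ha ha0
  refine ⟨ha0, ?_⟩
  rintro ⟨w, hw⟩
  have h0 : J a (w, 1) = 0 := by
    funext i
    obtain ⟨p1, p2, p3, -, -⟩ := (hβ i).2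
    rw [hJapp, c11_avT_of_deg hw (p1 a (ha i)) (p2 a) (p3 a)]
    simp
  have h1 : ((w, 1) : Y × ℝ) = 0 := hinj (by rw [h0]; exact (ContinuousLinearMap.map_zero _).symm)
  have h2 : (1 : ℝ) = 0 := congrArg Prod.snd h1
  exact one_ne_zero h2

/-- averages are `C¹` if the derivative of the norm is locally Lipschitz; local version of
`avT_C1` -/
theorem c11_avT_C1 (hT : SphereIso T) (hsurj : Function.Surjective T)
    (hfin : finrank ℝ X = finrank ℝ Y) {x₀ b₀ : X} (h : Om x₀ b₀)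
    (hX1 : ∀ᶠ a in 𝓝 x₀, ContDiffAt ℝ 1 (fun z : X => ‖z‖) a)
    (hT1 : ∀ᶠ a in 𝓝 x₀, ContDiffAt ℝ 1 T a)
    (hlip : LipAt (dN : Y → Y →L[ℝ] ℝ) (Wv (T x₀) (T b₀))) :
    ∃ r₀ : ℝ, 0 < r₀ ∧ ∀ r, 0 < r → r < r₀ → ContDiffAt ℝ 1 (avT T b₀ r) x₀ := by
  have hcont : Continuous T := hT.lipschitz.continuous
  obtain ⟨r₁, hr₁, K, C, R, hC, hR, -, hfamT⟩ := exists_fam_unif (X := X) Y h
  have hfam := hfamT T hT hsurj
  obtain ⟨K₂, ε, hε, hK₂⟩ := hlip.exists_lipschitzOn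
  obtain ⟨g, hg, hgeq⟩ := hK₂.extend_finite_dimension
  have hcW : Continuous fun p : X × X => Wv (T p.1) (T p.2) :=
    continuous_Wv.comp ((hcont.comp continuous_fst).prodMk (hcont.comp continuous_snd))
  have hev : ∀ᶠ p : X × X in 𝓝 (x₀, b₀), Wv (T p.1) (T p.2) ∈ ball (Wv (T x₀) (T b₀)) ε :=
    hcW.continuousAt.eventually (ball_mem_nhds _ hε)
  obtain ⟨r₂, hr₂, hball₂⟩ := Metric.eventually_nhds_iff_ball.mp hev
  obtain ⟨r₃, hr₃, hball₃⟩ := Metric.eventually_nhds_iff_ball.mp (hX1.and hT1)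
  refine ⟨min (min r₁ r₂) r₃, lt_min (lt_min hr₁ hr₂) hr₃, fun r hr hrr => ?_⟩
  have hrr1 : r ≤ r₁ := (hrr.trans_le ((min_le_left _ _).trans (min_le_left _ _))).le
  have hrr2 : r ≤ r₂ := (hrr.trans_le ((min_le_left _ _).trans (min_le_right _ _))).le
  have hrr3 : r ≤ r₃ := (hrr.trans_le (min_le_right _ _)).le
  have hfam' := hfam.mono hrr1
  have hX1' : ∀ a ∈ ball x₀ r, ContDiffAt ℝ 1 (fun z : X => ‖z‖) a := fun a ha =>
    (hball₃ a (ball_subset_ball hrr3 ha)).1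
  have hT1' : ∀ a ∈ ball x₀ r, ContDiffAt ℝ 1 T a := fun a ha =>
    (hball₃ a (ball_subset_ball hrr3 ha)).2
  have hmain := hfam'.contDiffAt_integral hfin hr hC.le hg
    (w' := fun a b => ‖b‖ • fderiv ℝ T a - (dN a).smulRight (T b)) (by
      intro a ha b hb
      have hd1 : HasFDerivAt T (fderiv ℝ T a) a :=
        ((hT1' a ha).differentiableAt (by norm_num)).hasFDerivAt
      have hd2 : HasFDerivAt (fun z : X => ‖z‖) (dN a) a :=
        hasFDerivAt_norm ((hX1' a ha).differentiableAt (by norm_num))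
      have hd3 : HasFDerivAt (fun z : X => ‖b‖ • T z - ‖z‖ • T b)
          (‖b‖ • fderiv ℝ T a - (dN a).smulRight (T b)) a :=
        (hd1.const_smul ‖b‖).sub (hd2.smul_const (T b))
      have e1 : (fun a => Wv (T a) (T b)) = fun z : X => ‖b‖ • T z - ‖z‖ • T b := by
        funext z; exact hT.Wv_map z b
      rw [e1]; exact hd3) (by
      intro p hp
      have hc1 : ContinuousAt (fun p : X × X => fderiv ℝ T p.1) p := by
        have e1 : ContDiffAt ℝ 0 (fderiv ℝ T) p.1 := (hT1' _ hp.1).fderiv_right (by norm_num)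
        exact ContinuousAt.comp (f := Prod.fst) e1.continuousAt continuousAt_fst
      have hc2 : ContinuousAt (fun p : X × X => (dN p.1 : X →L[ℝ] ℝ)) p :=
        ContinuousAt.comp (f := Prod.fst) (continuousAt_dN (hX1' _ hp.1)) continuousAt_fst
      have hc3 : ContinuousAt (fun p : X × X => T p.2) p := (hcont.comp continuous_snd).continuousAt
      have hc4 : ContinuousAt (fun p : X × X => ‖p.2‖) p := (by fun_prop : Continuous
        fun p : X × X => ‖p.2‖).continuousAt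
      have hc5 : ContinuousAt (fun p : X × X => (dN p.1 : X →L[ℝ] ℝ).smulRight (T p.2)) p := by
        have e2 : Continuous fun q : (X →L[ℝ] ℝ) × Y => q.1.smulRight q.2 := by fun_prop
        exact ContinuousAt.comp (f := fun p : X × X => ((dN p.1 : X →L[ℝ] ℝ), T p.2))
          (g := fun q : (X →L[ℝ] ℝ) × Y => q.1.smulRight q.2) e2.continuousAt (hc2.prodMk hc3)
      exact ((hc4.smul hc1).sub hc5).continuousWithinAt)
  refine hmain.congr_of_eventuallyEq ?_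
  filter_upwards [ball_mem_nhds x₀ hr] with a ha
  show ∫ b in ball b₀ r, dN (Wv (T a) (T b)) ∂(vol X) = _
  apply setIntegral_congr_fun measurableSet_ball
  intro b hb
  refine hgeq (hball₂ (a, b) ?_)
  rw [mem_ball, Prod.dist_eq]
  exact max_lt (ball_subset_ball hrr2 ha) (ball_subset_ball hrr2 hb)

/-- on the set of nondegenerate points the norm and the map are `C¹` -/
theorem c11_C1_of_nondeg (hT : SphereIso T) (hsurj : Function.Surjective T)
    (hfin : finrank ℝ X = finrank ℝ Y) {a : X} (ha : a ≠ 0) (hnd : ¬ Deg T a) :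
    ContDiffAt ℝ 1 (fun z : X => ‖z‖) a ∧ ContDiffAt ℝ 1 T a := by
  obtain ⟨h1, h2, h3⟩ := hT.nondeg_regular hsurj hfin ha hnd
  constructor
  · refine c11_contDiffAt_one h2 ?_
    filter_upwards [h1] with z hz
    apply hasFDerivAt_norm
    by_contra hd
    exact hz.2 (hT.deg_of_not_diff hsurj hfin hz.1 hd)
  · refine c11_contDiffAt_one h3 ?_
    filter_upwards [h1] with z hz
    exact (hT.differentiableAt_FO hsurj hfin hz.1).1.hasFDerivAt

/-
Let `𝒩 = {a ≠ 0 | ¬ Deg T a}`, `𝒩' = {y ≠ 0 | ¬ Deg S y}` for the inverse `S`.  The norm and `T`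
are `C¹` near `x₀` (`c11_C1_of_nondeg`); for almost every `b₀` with `Om x₀ b₀` the derivatives of the
norms are locally Lipschitz at `Wv x₀ b₀` and at `Wv (T x₀) (T b₀)`, so that the averages over
small balls around `b₀` are `C¹` at `x₀` (`c11_avT_C1`).
-/
theorem C2_of_nondeg (hT : SphereIso T) (hsurj : Function.Surjective T)
    (hfin : finrank ℝ X = finrank ℝ Y)
    (hns : ∀ a : X, a ≠ 0 → Deg T a → ¬ DifferentiableAt ℝ (fun z : X => ‖z‖) a)
    {x₀ : X} (hx₀ : x₀ ≠ 0) (hd : DifferentiableAt ℝ (fun z : X => ‖z‖) x₀) :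
    ContDiffAt ℝ 2 (fun z : X => ‖z‖) x₀ ∧ ContDiffAt ℝ 2 T x₀ := by
  have hid : SphereIso (fun x : X => x) := id_iso
  obtain ⟨S, hS, hST, hTS⟩ := hT.exists_inverse hsurj
  have hSs : Function.Surjective S := fun x => ⟨T x, hST x⟩
  have hnd : ¬ Deg T x₀ := fun h => hns x₀ hx₀ h hd
  obtain ⟨hev, hdNl, hDl⟩ := hT.nondeg_regular hsurj hfin hx₀ hnd
  have hX1 : ∀ᶠ a in 𝓝 x₀, ContDiffAt ℝ 1 (fun z : X => ‖z‖) a := by
    filter_upwards [hev] with a ha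
    exact (hT.c11_C1_of_nondeg hsurj hfin ha.1 ha.2).1
  have hT1 : ∀ᶠ a in 𝓝 x₀, ContDiffAt ℝ 1 T a := by
    filter_upwards [hev] with a ha
    exact (hT.c11_C1_of_nondeg hsurj hfin ha.1 ha.2).2
  have hX1₀ := hX1.self_of_nhds
  have hT1₀ := hT1.self_of_nhds
  -- points of differentiability of the norms
  have hlipX : ∀ a : X, a ≠ 0 → DifferentiableAt ℝ (fun z : X => ‖z‖) a →
      LipAt (dN : X → X →L[ℝ] ℝ) a := fun a ha hda =>
    (hT.nondeg_regular hsurj hfin ha fun h => hns a ha h hda).2.1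
  have hlipY : ∀ y : Y, y ≠ 0 → DifferentiableAt ℝ (fun z : Y => ‖z‖) y →
      LipAt (dN : Y → Y →L[ℝ] ℝ) y := by
    intro y hy hdy
    have hSy : S y ≠ 0 := hS.map_ne_zero hy
    refine (hS.nondeg_regular hSs hfin.symm hy fun h => ?_).2.1
    have h1 : Deg T (S y) := by
      rw [← hT.Deg_inv hsurj hfin hS hST hTS hSy, hTS]
      exact h
    apply hns (S y) hSy h1
    have h2 : DifferentiableAt ℝ T (S y) := (hT.differentiableAt_FO hsurj hfin hSy).1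
    have h3 : DifferentiableAt ℝ (fun z : X => ‖T z‖) (S y) := by
      have h4 : DifferentiableAt ℝ (fun z : Y => ‖z‖) (T (S y)) := by rw [hTS]; exact hdy
      exact h4.comp (S y) h2
    have h5 : (fun z : X => ‖T z‖) = fun z : X => ‖z‖ := by
      funext z
      exact hT.norm_map z
    rwa [h5] at h3
  obtain ⟨n, β, ρ, hβ, hsep⟩ := hT.exists_fam_sep_nondeg hsurj hfin hx₀ hnd
    (fun b₀ r => (∀ a ∈ ball x₀ r, ∀ b ∈ ball b₀ r, Om a b) ∧
      (∀ a : X, IntegrableOn (fun b => dN (Wv a b)) (ball b₀ r) (vol X)) ∧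
      (∀ a : X, IntegrableOn (fun b => dN (Wv (T a) (T b))) (ball b₀ r) (vol X)) ∧
      ContDiffAt ℝ 1 (avT (fun x : X => x) b₀ r) x₀ ∧
      ContDiffAt ℝ 1 (avT T b₀ r) x₀) (by
      filter_upwards [hT.ae_good_Om hsurj hfin x₀] with b₀ hgood hb₀
      obtain ⟨hg1, hg2⟩ := hgood hb₀
      have hl1 := hlipX _ hb₀.Wv_ne hg1
      have hl2 := hlipY _ (hT.Om_map hb₀).Wv_ne hg2
      obtain ⟨r₁, hr₁, h1⟩ := avT_unif (X := X) Y hfin hb₀
      obtain ⟨r₂, hr₂, h2⟩ := avT_unif (X := X) X rfl hb₀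
      obtain ⟨r₃, hr₃, h3⟩ := hT.c11_avT_C1 hsurj hfin hb₀ hX1 hT1 hl2
      obtain ⟨r₄, hr₄, h4⟩ := hid.c11_avT_C1 (fun z => ⟨z, rfl⟩) rfl hb₀ hX1
        (Eventually.of_forall fun _ => contDiffAt_id) hl1
      refine ⟨min (min r₁ r₂) (min r₃ r₄), lt_min (lt_min hr₁ hr₂) (lt_min hr₃ hr₄),
        fun r hr hrr => ?_⟩
      have g1 : r < r₁ := hrr.trans_le ((min_le_left _ _).trans (min_le_left _ _))
      have g2 : r < r₂ := hrr.trans_le ((min_le_left _ _).trans (min_le_right _ _))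
      have g3 : r < r₃ := hrr.trans_le ((min_le_right _ _).trans (min_le_left _ _))
      have g4 : r < r₄ := hrr.trans_le ((min_le_right _ _).trans (min_le_right _ _))
      obtain ⟨K₁, p1, p2⟩ := h1 r hr g1
      obtain ⟨K₂, q1, q2⟩ := h2 r hr g2
      exact ⟨p1, (q2 (fun x : X => x) hid (fun z => ⟨z, rfl⟩)).2, (p2 T hT hsurj).2,
        h4 r hr g4, h3 r hr g3⟩)
  have hm : ContDiffAt ℝ 1 (fun a => ((fun i => avT T (β i) (ρ i) a,
      fun i => avT (fun x : X => x) (β i) (ρ i) a, T a, a) :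
      (Fin n → Y →L[ℝ] ℝ) × (Fin n → X →L[ℝ] ℝ) × Y × X)) x₀ := by
    refine ContDiffAt.prodMk ?_ (ContDiffAt.prodMk ?_ (ContDiffAt.prodMk hT1₀ contDiffAt_id))
    · exact contDiffAt_pi.mpr fun i => (hβ i).2.2.2.2.2
    · exact contDiffAt_pi.mpr fun i => (hβ i).2.2.2.2.1
  have hball : ∀ᶠ a in 𝓝 x₀, ∀ i, a ∈ ball x₀ (ρ i) :=
    Filter.eventually_all.mpr fun i => ball_mem_nhds _ (hβ i).1
  have hne : ∀ᶠ a : X in 𝓝 x₀, a ≠ 0 := isOpen_compl_singleton.mem_nhds hx₀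
  obtain ⟨Θ, hΘ1, hΘ2⟩ := exists_theta_pair (ι := Fin n) (fun i => avT T (β i) (ρ i))
    (fun i => avT (fun x : X => x) (β i) (ρ i)) T (x₀ := x₀) (fun a => fderiv ℝ T a)
    (fun a => ‖a‖⁻¹ • dN a) (by
      filter_upwards [hball, hne] with a ha ha0
      intro i h
      obtain ⟨p1, p2, p3, -, -⟩ := (hβ i).2
      exact hT.c11_avT_identity hsurj hfin ha0 (p1 a (ha i)) (p2 a) (p3 a) h)
    hsep hm.continuousAt
  have hpair : ContDiffAt ℝ 1 (fun a : X => (fderiv ℝ T a).prod (‖a‖⁻¹ • dN a)) x₀ :=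
    (ContDiffAt.comp x₀ hΘ1 hm).congr_of_eventuallyEq hΘ2
  have hD : ContDiffAt ℝ 1 (fderiv ℝ T) x₀ := by
    have e1 : ContDiffAt ℝ 1 (fun L : X →L[ℝ] (Y × ℝ) => (ContinuousLinearMap.fst ℝ Y ℝ).comp L)
        ((fderiv ℝ T x₀).prod (‖x₀‖⁻¹ • dN x₀)) := by fun_prop
    exact (ContDiffAt.comp (g := fun L : X →L[ℝ] (Y × ℝ) => (ContinuousLinearMap.fst ℝ Y ℝ).comp L)
      x₀ e1 hpair)
  have hδ : ContDiffAt ℝ 1 (fun a : X => ‖a‖⁻¹ • (dN a : X →L[ℝ] ℝ)) x₀ := by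
    have e1 : ContDiffAt ℝ 1 (fun L : X →L[ℝ] (Y × ℝ) => (ContinuousLinearMap.snd ℝ Y ℝ).comp L)
        ((fderiv ℝ T x₀).prod (‖x₀‖⁻¹ • dN x₀)) := by fun_prop
    exact (ContDiffAt.comp (g := fun L : X →L[ℝ] (Y × ℝ) => (ContinuousLinearMap.snd ℝ Y ℝ).comp L)
      x₀ e1 hpair)
  have hdN : ContDiffAt ℝ 1 (dN : X → X →L[ℝ] ℝ) x₀ := by
    refine (hX1₀.smul hδ).congr_of_eventuallyEq ?_
    filter_upwards [hne] with a ha
    show dN a = ‖a‖ • (‖a‖⁻¹ • dN a)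
    rw [smul_smul, mul_inv_cancel₀ (norm_ne_zero_iff.mpr ha), one_smul]
  constructor
  · refine c11_contDiffAt_two hdN ?_
    filter_upwards [hX1] with a ha
    exact hasFDerivAt_norm (ha.differentiableAt (by norm_num))
  · refine c11_contDiffAt_two hD ?_
    filter_upwards [hT1] with a ha
    exact (ha.differentiableAt (by norm_num)).hasFDerivAt

end SphereIso

end Vale.Agent.P084
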