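import Mathlib
import Vale.Agent.Lib.P084F.AvgF
import Vale.Agent.Lib.P084F.FOavg

open Filter Topology Module Metric MeasureTheory Measure Set
open scoped NNReal ENNReal

namespace Vale.Agent.P084

section cartaniter

variable {X : Type*} [NormedAddCommGroup X] [NormedSpace ℝ X] {g : X → X}

theorem cartan_iterate (hg : SphereIso g) (i : ℕ) : SphereIso (g^[i]) := by
  induction i with
  | zero => exact SphereIso.id_iso
  | succ i ih =>
    refine ⟨?_, ?_⟩
    · intro c x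
      rw [Function.iterate_succ_apply, Function.iterate_succ_apply, hg.smul, ih.smul]
    · intro a b hab
      rw [Function.iterate_succ_apply, Function.iterate_succ_apply,
        ih.dist _ _ (by rw [hg.norm_map, hg.norm_map, hab]), hg.dist a b hab]

end cartaniter

/-
PROOF.  Let `x ∈ ball z (ρ/3)`; `‖g x - z‖ = ‖g x - g z‖ ≤ 3 ‖x - z‖ < ρ` so `x, g x ∈ ball z ρ` (convex).  By the mean value inequality applied to `g^[i] - id` on the ball:
`‖(g^[i] (g x) - g^[i] x) - (g x - x)‖ ≤ ‖g x - x‖ / 2`.  Sum over `i < n`: `‖g^[n] x - x - n • (g x - x)‖ ≤ n ‖g x - x‖ / 2`, so `n ‖g x - x‖ / 2 ≤ ‖g^[n] x - x‖ ≤ 2 ‖x‖`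
(`g^[n]` preserves norms).  Let `n → ∞`.
-/
theorem cartan_of_unif {X : Type*} [NormedAddCommGroup X] [NormedSpace ℝ X] {g : X → X}
    (hg : SphereIso g) {z : X} (hgz : g z = z) {ρ : ℝ} (hρ : 0 < ρ)
    (hd : ∀ i : ℕ, ∀ x ∈ ball z ρ, DifferentiableAt ℝ (g^[i]) x)
    (hb : ∀ i : ℕ, ∀ x ∈ ball z ρ, ‖fderiv ℝ (g^[i]) x - ContinuousLinearMap.id ℝ X‖ ≤ 1 / 2) :
    ∀ x ∈ ball z (ρ / 3), g x = x := by
  intro x hx
  have hx1 : x ∈ ball z ρ := ball_subset_ball (by linarith) hx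
  have hgx : g x ∈ ball z ρ := by
    rw [mem_ball] at hx ⊢
    have h1 := hg.lipschitz.dist_le_mul x z
    rw [hgz, NNReal.coe_ofNat] at h1
    linarith
  have hstep : ∀ i : ℕ, ‖(g^[i + 1] x - g^[i] x) - (g x - x)‖ ≤ 1 / 2 * ‖g x - x‖ := by
    intro i
    have h1 : ∀ y ∈ ball z ρ, HasFDerivWithinAt (fun y => g^[i] y - y)
        (fderiv ℝ (g^[i]) y - ContinuousLinearMap.id ℝ X) (ball z ρ) y := by
      intro y hy
      exact ((hd i y hy).hasFDerivAt.sub (hasFDerivAt_id y)).hasFDerivWithinAt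
    have h2 := Convex.norm_image_sub_le_of_norm_hasFDerivWithin_le h1 (hb i) (convex_ball z ρ)
      hx1 hgx
    rw [Function.iterate_succ_apply]
    calc ‖(g^[i] (g x) - g^[i] x) - (g x - x)‖ = ‖(g^[i] (g x) - g x) - (g^[i] x - x)‖ := by
          congr 1; abel
      _ ≤ _ := h2
  have hsum : ∀ n : ℕ, ‖(g^[n] x - x) - (n : ℝ) • (g x - x)‖ ≤ n * (1 / 2 * ‖g x - x‖) := by
    intro n
    induction n with
    | zero => simp
    | succ n ih =>
      have e1 : (g^[n + 1] x - x) - ((n + 1 : ℕ) : ℝ) • (g x - x)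
          = ((g^[n + 1] x - g^[n] x) - (g x - x)) + ((g^[n] x - x) - (n : ℝ) • (g x - x)) := by
        push_cast
        module
      rw [e1]
      refine (norm_add_le _ _).trans ?_
      have := hstep n
      push_cast
      linarith
  by_contra hne
  have hpos : 0 < ‖g x - x‖ := norm_pos_iff.mpr (sub_ne_zero.mpr hne)
  obtain ⟨n, hn⟩ := exists_nat_gt (4 * ‖x‖ / ‖g x - x‖)
  have h1 := hsum n
  have h2 : ‖g^[n] x - x‖ ≤ 2 * ‖x‖ := by
    refine (norm_sub_le _ _).trans ?_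
    rw [(cartan_iterate hg n).norm_map]
    linarith
  have h3 : ‖(n : ℝ) • (g x - x)‖ ≤ ‖g^[n] x - x‖ + ‖(g^[n] x - x) - (n : ℝ) • (g x - x)‖ := by
    calc ‖(n : ℝ) • (g x - x)‖ = ‖(g^[n] x - x) - ((g^[n] x - x) - (n : ℝ) • (g x - x))‖ := by
          congr 1; abel
      _ ≤ _ := norm_sub_le _ _
  rw [norm_smul, Real.norm_of_nonneg (by positivity : (0 : ℝ) ≤ n)] at h3
  rw [div_lt_iff₀ hpos] at hn
  nlinarith

variable {X : Type*} [NormedAddCommGroup X] [NormedSpace ℝ X] [FiniteDimensional ℝ X]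
  [MeasurableSpace X] [BorelSpace X]

theorem cartan_norm_avT {T : X → X} (b₀ : X) (r : ℝ) (a : X) :
    ‖SphereIso.avT T b₀ r a‖ ≤ (vol X).real (ball b₀ r) := by
  have h1 : vol X (ball b₀ r) < ⊤ := measure_ball_lt_top
  have h2 := norm_setIntegral_le_of_norm_le_const (f := fun b => dN (Wv (T a) (T b))) (C := 1) h1
    (fun b _ => norm_dN_le_one _)
  rw [one_mul] at h2
  exact h2

/-- the basic error estimate for one pair of averages -/
theorem cartan_core {E : Type*} [NormedAddCommGroup E] [NormedSpace ℝ E]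
    {Φz Φx Fz Fx : E →L[ℝ] ℝ} {D : E →L[ℝ] E} {x z y : E} {KK V : ℝ}
    (hKK0 : 0 ≤ KK) (hV0 : 0 ≤ V) (hnz : 0 < ‖z‖) (hnx1 : ‖z‖ / 2 < ‖x‖) (hnx2 : ‖x‖ < 2 * ‖z‖)
    (hy : ‖y‖ = ‖x‖) (hyz : ‖y - z‖ ≤ 3 * ‖x - z‖) (hDu : ∀ u, ‖D u‖ ≤ 3 * ‖u‖)
    (hΦlip : ‖Φz - Φx‖ ≤ KK * ‖x - z‖) (hFlip : ‖Fx - Fz‖ ≤ KK * ‖x - z‖)
    (hΦn : ‖Φz‖ ≤ V) (hFn : ‖Fz‖ ≤ V)
    (hFOx : ∀ u, Φx (D u) = Fx u + (Φx y - Fx x) * (‖x‖⁻¹ * dN x u))
    (hFOz : ∀ u, Φz u = Fz u + (Φz z - Fz z) * (‖z‖⁻¹ * dN z u)) (u : E) (B : ℝ)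
    (hB : |(Φz z - Fz z) * (‖x‖⁻¹ * dN x u - ‖z‖⁻¹ * dN z (D u))| ≤ B) :
    |Fz (D u - u)| ≤ (4 * KK + (4 * KK * ‖z‖ + 4 * V) * (2 * ‖z‖⁻¹)) * ‖x - z‖ * ‖u‖ + B := by
  have hnx : 0 < ‖x‖ := by linarith
  have hninv : ‖x‖⁻¹ ≤ 2 * ‖z‖⁻¹ := by
    rw [← div_eq_mul_inv, inv_eq_one_div, div_le_div_iff₀ hnx hnz]
    linarith
  have hid : Fz (D u - u) = (Φz - Φx) (D u)
      + (Fx - Fz) u + ((Φx y - Fx x) - (Φz z - Fz z)) * (‖x‖⁻¹ * dN x u)
      + (Φz z - Fz z) * (‖x‖⁻¹ * dN x u - ‖z‖⁻¹ * dN z (D u)) := by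
    have h1 := hFOx u
    have h2 := hFOz (D u)
    rw [map_sub, _root_.sub_apply, _root_.sub_apply]
    linarith
  have hklip : |(Φx y - Fx x) - (Φz z - Fz z)| ≤ (4 * KK * ‖z‖ + 4 * V) * ‖x - z‖ := by
    have e1 : (Φx y - Fx x) - (Φz z - Fz z) = -(Φz - Φx) y + Φz (y - z) - (Fx - Fz) x
        - Fz (x - z) := by
      simp only [map_sub, _root_.sub_apply]
      ring
    have b1 : |(Φz - Φx) y| ≤ KK * ‖x - z‖ * (2 * ‖z‖) := by
      rw [← Real.norm_eq_abs]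
      refine ((Φz - Φx).le_opNorm y).trans ?_
      rw [hy]
      exact mul_le_mul hΦlip hnx2.le (norm_nonneg _) (by positivity)
    have b2 : |Φz (y - z)| ≤ V * (3 * ‖x - z‖) := by
      rw [← Real.norm_eq_abs]
      refine (Φz.le_opNorm _).trans ?_
      exact mul_le_mul hΦn hyz (norm_nonneg _) hV0
    have b3 : |(Fx - Fz) x| ≤ KK * ‖x - z‖ * (2 * ‖z‖) := by
      rw [← Real.norm_eq_abs]
      refine ((Fx - Fz).le_opNorm x).trans ?_
      exact mul_le_mul hFlip hnx2.le (norm_nonneg _) (by positivity)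
    have b4 : |Fz (x - z)| ≤ V * ‖x - z‖ := by
      rw [← Real.norm_eq_abs]
      refine (Fz.le_opNorm _).trans ?_
      exact mul_le_mul_of_nonneg_right hFn (norm_nonneg _)
    rw [e1, abs_le]
    rw [abs_le] at b1 b2 b3 b4
    have e2 : (4 * KK * ‖z‖ + 4 * V) * ‖x - z‖ = KK * ‖x - z‖ * (2 * ‖z‖) + V * (3 * ‖x - z‖)
        + KK * ‖x - z‖ * (2 * ‖z‖) + V * ‖x - z‖ := by ring
    rw [e2]
    constructor <;> linarith [b1.1, b1.2, b2.1, b2.2, b3.1, b3.2, b4.1, b4.2]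
  have hδ : |‖x‖⁻¹ * dN x u| ≤ 2 * ‖z‖⁻¹ * ‖u‖ := by
    rw [abs_mul, abs_of_pos (inv_pos.mpr hnx)]
    have h1 : |dN x u| ≤ ‖u‖ := by
      rw [← Real.norm_eq_abs]
      refine ((dN x).le_opNorm u).trans ?_
      calc ‖dN x‖ * ‖u‖ ≤ 1 * ‖u‖ :=
            mul_le_mul_of_nonneg_right (norm_dN_le x) (norm_nonneg _)
        _ = ‖u‖ := one_mul _
    exact mul_le_mul hninv h1 (abs_nonneg _) (by positivity)
  have b1 : |(Φz - Φx) (D u)| ≤ KK * ‖x - z‖ * (3 * ‖u‖) := by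
    rw [← Real.norm_eq_abs]
    refine ((Φz - Φx).le_opNorm _).trans ?_
    exact mul_le_mul hΦlip (hDu u) (norm_nonneg _) (by positivity)
  have b2 : |(Fx - Fz) u| ≤ KK * ‖x - z‖ * ‖u‖ := by
    rw [← Real.norm_eq_abs]
    refine ((Fx - Fz).le_opNorm _).trans ?_
    exact mul_le_mul_of_nonneg_right hFlip (norm_nonneg _)
  have b3 : |((Φx y - Fx x) - (Φz z - Fz z)) * (‖x‖⁻¹ * dN x u)|
      ≤ (4 * KK * ‖z‖ + 4 * V) * ‖x - z‖ * (2 * ‖z‖⁻¹ * ‖u‖) := by
    rw [abs_mul]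
    exact mul_le_mul hklip hδ (abs_nonneg _) (by positivity)
  rw [hid]
  refine (abs_add_le _ _).trans (add_le_add ?_ hB)
  refine (abs_add_three _ _ _).trans ?_
  refine (add_le_add_three b1 b2 b3).trans (le_of_eq ?_)
  ring

/-
PROOF.  Choose `(β i, ρ i)` from `avT_unif` (with `Y = X`, uniform in `h`) and `exists_fam_sep` for the IDENTITY map: the functionals `F_i = avT id (β i) (ρ i) z` separate points:
`max_i |F_i v| ≥ c₀ ‖v‖`.  Let `h` be as in the statement, `Φ_i x = avT h (β i) (ρ i) x`, `F_i x = avT id (β i) (ρ i) x`, `K_i x = Φ_i x (h x) - F_i x x`, `δ x = ‖x‖⁻¹ • dN x`, all (except `δ`)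
Lipschitz near `z` with constants independent of `h`.  `avT_FO` at `z` (`fderiv h z = id`): `Φ_i z = F_i z + K_i z • δ z`.  `avT_FO` at `x`: `Φ_i x (D u) = F_i x u + K_i x * δ x u`, `D = fderiv h x`.
Subtract: `F_i z (D u - u) = K_i z * (δ x u - δ z (D u)) + O(‖x - z‖) ‖u‖`.  If `Deg h z` then `K_i z = 0` by `avT_deg`: first claim.
In general `|K_i z| ≤ C`; and if the norm is differentiable at `h x` then `δ x u = δ (h x) (D u)` (`dN_apply`, `norm_map`), so `|δ x u - δ z (D u)| ≤ ‖δ (h x) - δ z‖ * 3 ‖u‖`: second claim.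
-/
theorem cartan_est {z : X} (hz : z ≠ 0) : ∃ ε > 0, ∃ C : ℝ, 0 ≤ C ∧ ∀ h : X → X, SphereIso h →
    Function.Surjective h → h z = z → HasFDerivAt h (ContinuousLinearMap.id ℝ X) z →
    ∀ x ∈ ball z ε,
      (Deg h z → ‖fderiv ℝ h x - ContinuousLinearMap.id ℝ X‖ ≤ C * ‖x - z‖) ∧
      (DifferentiableAt ℝ (fun y : X => ‖y‖) (h x) →
        ‖fderiv ℝ h x - ContinuousLinearMap.id ℝ X‖
          ≤ C * (‖x - z‖ + ‖‖h x‖⁻¹ • dN (h x) - ‖z‖⁻¹ • dN z‖)) := by
  have hnz : 0 < ‖z‖ := norm_pos_iff.mpr hz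
  obtain ⟨n, β, ρ, hP, hsep⟩ := (SphereIso.id_iso (X := X)).exists_fam_sep (fun y => ⟨y, rfl⟩) rfl hz
    (fun b r => ∃ K : ℝ≥0, (∀ a ∈ ball z r, ∀ b' ∈ ball b r, Om a b') ∧
      ∀ T : X → X, SphereIso T → Function.Surjective T →
        LipschitzOnWith K (SphereIso.avT T b r) (ball z r) ∧
        ∀ a : X, IntegrableOn (fun b' => dN (Wv (T a) (T b'))) (ball b r) (vol X))
    (Filter.Eventually.of_forall fun b₀ hb₀ => avT_unif X rfl hb₀)
  choose hρ K hOm hT using hP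
  -- the separation constant
  set A : X →ₗ[ℝ] (Fin n → ℝ) := LinearMap.pi fun i =>
    (SphereIso.avT (fun x : X => x) (β i) (ρ i) z : X →ₗ[ℝ] ℝ) with hA
  have hAker : LinearMap.ker A = ⊥ := by
    rw [LinearMap.ker_eq_bot']
    intro w hw
    apply hsep w
    intro i
    exact congrFun hw i
  obtain ⟨κ, hκ, hκA⟩ := A.exists_antilipschitzWith hAker
  have hκ' : ∀ (w : X) (B : ℝ), 0 ≤ B →
      (∀ i, |SphereIso.avT (fun x : X => x) (β i) (ρ i) z w| ≤ B) → ‖w‖ ≤ κ * B := by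
    intro w B hB hw
    have h1 := hκA.le_mul_dist w 0
    rw [dist_zero_right, _root_.map_zero, dist_zero_right] at h1
    refine h1.trans (mul_le_mul_of_nonneg_left ?_ κ.2)
    rw [pi_norm_le_iff_of_nonneg hB]
    intro i
    exact hw i
  -- the constants
  set KK : ℝ := ∑ i, (K i : ℝ) with hKK
  set V : ℝ := ∑ i, (vol X).real (ball (β i) (ρ i)) with hV
  have hKK0 : 0 ≤ KK := Finset.sum_nonneg fun i _ => (K i).2
  have hV0 : 0 ≤ V := Finset.sum_nonneg fun i _ => measureReal_nonneg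
  have hKi : ∀ i, (K i : ℝ) ≤ KK := fun i =>
    Finset.single_le_sum (f := fun i => (K i : ℝ)) (fun j _ => (K j).2) (Finset.mem_univ i)
  have hVi : ∀ i, (vol X).real (ball (β i) (ρ i)) ≤ V := fun i =>
    Finset.single_le_sum (f := fun i => (vol X).real (ball (β i) (ρ i)))
      (fun j _ => measureReal_nonneg) (Finset.mem_univ i)
  have hev : ∀ᶠ x in 𝓝 z, ∀ i, x ∈ ball z (ρ i) :=
    eventually_all.mpr fun i => ball_mem_nhds z (hρ i)
  obtain ⟨ε₁, hε₁, hball₁⟩ := Metric.eventually_nhds_iff_ball.mp hev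
  set ε : ℝ := min ε₁ (‖z‖ / 2) with hε
  have hεpos : 0 < ε := lt_min hε₁ (by positivity)
  set M : ℝ := 4 * KK + (4 * KK * ‖z‖ + 4 * V) * (2 * ‖z‖⁻¹) with hM
  have hM0 : 0 ≤ M := by positivity
  set M2 : ℝ := 2 * V * ‖z‖ * 3 with hM2
  have hM20 : 0 ≤ M2 := by positivity
  refine ⟨ε, hεpos, κ * (M + M2), by positivity, ?_⟩
  intro h hh hhs hhz hhd x hx
  have hxz : ‖x - z‖ < ε := by rwa [mem_ball, dist_eq_norm] at hx
  have hxz2 : ‖x - z‖ < ‖z‖ / 2 := hxz.trans_le (min_le_right _ _)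
  have hxi : ∀ i, x ∈ ball z (ρ i) := hball₁ x (ball_subset_ball (min_le_left _ _) hx)
  have hzi : ∀ i, z ∈ ball z (ρ i) := fun i => mem_ball_self (hρ i)
  have hnx1 : ‖z‖ / 2 < ‖x‖ := by
    have := norm_sub_norm_le z x
    rw [norm_sub_rev] at this
    linarith
  have hnx2 : ‖x‖ < 2 * ‖z‖ := by
    have := norm_sub_norm_le x z
    linarith
  have hnx : 0 < ‖x‖ := by linarith
  have hx0 : x ≠ 0 := norm_pos_iff.mp hnx
  have hhd' : fderiv ℝ h z = ContinuousLinearMap.id ℝ X := hhd.fderiv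
  have hD3 : ‖fderiv ℝ h x‖ ≤ 3 := by
    have := norm_fderiv_le_of_lipschitz ℝ (x₀ := x) hh.lipschitz
    rwa [NNReal.coe_ofNat] at this
  have hDu : ∀ u : X, ‖fderiv ℝ h x u‖ ≤ 3 * ‖u‖ := fun u =>
    ((fderiv ℝ h x).le_opNorm u).trans (mul_le_mul_of_nonneg_right hD3 (norm_nonneg _))
  have hhx : ‖h x - z‖ ≤ 3 * ‖x - z‖ := by
    have := hh.lipschitz.dist_le_mul x z
    rwa [hhz, dist_eq_norm, dist_eq_norm, NNReal.coe_ofNat] at this
  -- the error identity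
  set Φ : Fin n → X → X →L[ℝ] ℝ := fun i a => SphereIso.avT h (β i) (ρ i) a with hΦ
  set F : Fin n → X → X →L[ℝ] ℝ := fun i a => SphereIso.avT (fun x : X => x) (β i) (ρ i) a with hF
  set k : Fin n → X → ℝ := fun i a => Φ i a (h a) - F i a a with hk
  have hFOx : ∀ i u, Φ i x (fderiv ℝ h x u) = F i x u + k i x * (‖x‖⁻¹ * dN x u) := fun i u =>
    hh.avT_FO hhs rfl hx0 (hOm i x (hxi i))
      ((hT i (fun x => x) SphereIso.id_iso (fun y => ⟨y, rfl⟩)).2 x) ((hT i h hh hhs).2 x) u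
  have hFOz : ∀ i u, Φ i z u = F i z u + k i z * (‖z‖⁻¹ * dN z u) := fun i u => by
    have h1 := hh.avT_FO hhs rfl hz (hOm i z (hzi i))
      ((hT i (fun x => x) SphereIso.id_iso (fun y => ⟨y, rfl⟩)).2 z) ((hT i h hh hhs).2 z) u
    rw [hhd'] at h1
    exact h1
  have hΦlip : ∀ i, ‖Φ i z - Φ i x‖ ≤ KK * ‖x - z‖ := by
    intro i
    have h1 := (hT i h hh hhs).1.dist_le_mul z (hzi i) x (hxi i)
    rw [dist_eq_norm, dist_eq_norm, norm_sub_rev z x] at h1
    exact h1.trans (mul_le_mul_of_nonneg_right (hKi i) (norm_nonneg _))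
  have hFlip : ∀ i, ‖F i x - F i z‖ ≤ KK * ‖x - z‖ := by
    intro i
    have h1 := (hT i (fun x => x) SphereIso.id_iso (fun y => ⟨y, rfl⟩)).1.dist_le_mul x (hxi i) z
      (hzi i)
    rw [dist_eq_norm, dist_eq_norm] at h1
    exact h1.trans (mul_le_mul_of_nonneg_right (hKi i) (norm_nonneg _))
  have hΦn : ∀ i a, ‖Φ i a‖ ≤ V := fun i a => (cartan_norm_avT _ _ _).trans (hVi i)
  have hFn : ∀ i a, ‖F i a‖ ≤ V := fun i a => (cartan_norm_avT _ _ _).trans (hVi i)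
  have hkz : ∀ i, |k i z| ≤ 2 * V * ‖z‖ := by
    intro i
    have b1 : |Φ i z (h z)| ≤ V * ‖z‖ := by
      rw [← Real.norm_eq_abs]
      refine ((Φ i z).le_opNorm _).trans ?_
      rw [hh.norm_map]
      exact mul_le_mul_of_nonneg_right (hΦn i z) (norm_nonneg _)
    have b2 : |F i z z| ≤ V * ‖z‖ := by
      rw [← Real.norm_eq_abs]
      refine ((F i z).le_opNorm _).trans ?_
      exact mul_le_mul_of_nonneg_right (hFn i z) (norm_nonneg _)
    calc |k i z| ≤ |Φ i z (h z)| + |F i z z| := abs_sub _ _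
      _ ≤ _ := by linarith
  -- the main bound
  have hmain : ∀ i u (E : ℝ), |k i z * (‖x‖⁻¹ * dN x u - ‖z‖⁻¹ * dN z (fderiv ℝ h x u))| ≤ E →
      |F i z (fderiv ℝ h x u - u)| ≤ M * ‖x - z‖ * ‖u‖ + E := by
    intro i u E hE
    refine cartan_core (Φx := Φ i x) (Fx := F i x) (y := h x) hKK0 hV0 hnz hnx1 hnx2
      (hh.norm_map x) hhx hDu (hΦlip i) (hFlip i) (hΦn i z) (hFn i z) (hFOx i) ?_ u E ?_
    · intro u
      have h1 := hFOz i u
      simp only [hk, hhz] at h1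
      exact h1
    · simp only [hk, hhz] at hE
      exact hE
  constructor
  · intro hdeg
    have hk0 : ∀ i, k i z = 0 := by
      intro i
      have h1 := hh.avT_deg hhs rfl hz hdeg (hOm i z (hzi i))
        ((hT i (fun x => x) SphereIso.id_iso (fun y => ⟨y, rfl⟩)).2 z) ((hT i h hh hhs).2 z)
      exact sub_eq_zero.mpr h1
    apply ContinuousLinearMap.opNorm_le_bound _ (by positivity)
    intro u
    have h1 := hκ' (fderiv ℝ h x u - u) (M * ‖x - z‖ * ‖u‖) (by positivity) (by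
      intro i
      have h2 := hmain i u 0 (by rw [hk0]; simp)
      rwa [add_zero] at h2)
    calc ‖(fderiv ℝ h x - ContinuousLinearMap.id ℝ X) u‖ = ‖fderiv ℝ h x u - u‖ := rfl
      _ ≤ κ * (M * ‖x - z‖ * ‖u‖) := h1
      _ ≤ κ * ((M + M2) * ‖x - z‖ * ‖u‖) := by
          apply mul_le_mul_of_nonneg_left _ κ.2
          apply mul_le_mul_of_nonneg_right _ (norm_nonneg _)
          apply mul_le_mul_of_nonneg_right _ (norm_nonneg _)
          linarith
      _ = _ := by ring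
  · intro hdiff
    set Δ : ℝ := ‖‖h x‖⁻¹ • dN (h x) - ‖z‖⁻¹ • dN z‖ with hΔ
    have hΔ0 : 0 ≤ Δ := norm_nonneg _
    have hhdx : DifferentiableAt ℝ h x := (hh.differentiableAt_FO hhs rfl hx0).1
    have hkey : ∀ u, |‖x‖⁻¹ * dN x u - ‖z‖⁻¹ * dN z (fderiv ℝ h x u)| ≤ Δ * (3 * ‖u‖) := by
      intro u
      have e1 : ‖x‖⁻¹ * dN x u - ‖z‖⁻¹ * dN z (fderiv ℝ h x u)
          = (‖h x‖⁻¹ • dN (h x) - ‖z‖⁻¹ • dN z) (fderiv ℝ h x u) := by
        rw [_root_.sub_apply, _root_.smul_apply, _root_.smul_apply, smul_eq_mul, smul_eq_mul,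
          hh.dN_apply hhdx hdiff, hh.norm_map]
      rw [e1, ← Real.norm_eq_abs]
      refine (ContinuousLinearMap.le_opNorm _ _).trans ?_
      exact mul_le_mul_of_nonneg_left (hDu u) (norm_nonneg _)
    apply ContinuousLinearMap.opNorm_le_bound _ (by positivity)
    intro u
    have h1 := hκ' (fderiv ℝ h x u - u) (M * ‖x - z‖ * ‖u‖ + 2 * V * ‖z‖ * (Δ * (3 * ‖u‖)))
      (by positivity) (by
        intro i
        apply hmain i u
        rw [abs_mul]
        exact mul_le_mul (hkz i) (hkey u) (abs_nonneg _) (by positivity))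
    calc ‖(fderiv ℝ h x - ContinuousLinearMap.id ℝ X) u‖ = ‖fderiv ℝ h x u - u‖ := rfl
      _ ≤ κ * (M * ‖x - z‖ * ‖u‖ + 2 * V * ‖z‖ * (Δ * (3 * ‖u‖))) := h1
      _ ≤ κ * ((M + M2) * (‖x - z‖ + Δ) * ‖u‖) := by
          apply mul_le_mul_of_nonneg_left _ κ.2
          have e1 : (M + M2) * (‖x - z‖ + Δ) * ‖u‖
              = (M * ‖x - z‖ * ‖u‖ + 2 * V * ‖z‖ * (Δ * (3 * ‖u‖)))
                + (M2 * ‖x - z‖ * ‖u‖ + M * Δ * ‖u‖) := by
            rw [hM2]; ring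
          rw [e1]
          have : 0 ≤ M2 * ‖x - z‖ * ‖u‖ + M * Δ * ‖u‖ := by positivity
          linarith
      _ = _ := by ring

theorem cartan_deg_iterate {g : X → X} (hg : SphereIso g) (hgs : Function.Surjective g) {z : X}
    (hz : z ≠ 0) (hgz : g z = z) (hgd : HasFDerivAt g (ContinuousLinearMap.id ℝ X) z)
    (hdeg : Deg g z) (i : ℕ) : Deg (g^[i]) z := by
  obtain ⟨-, L, hL, hLb, -⟩ := hg.deg_main hgs rfl hz hdeg
  have hLid : (L : X →L[ℝ] X) = ContinuousLinearMap.id ℝ X := hL.unique hgd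
  have hLapp : ∀ u, L u = u := fun u => congrArg (fun M : X →L[ℝ] X => M u) hLid
  have h1 : ∀ᵐ b ∂(vol X), Om z b → dN (Wv z (g b)) = dN (Wv z b) := by
    filter_upwards [hLb] with b hb hOm
    ext u
    have h2 := hb hOm u
    rw [hLapp, hgz] at h2
    exact h2
  obtain ⟨S, hS, hSg, hgS⟩ := hg.exists_inverse hgs
  have hall : ∀ i : ℕ, ∀ᵐ b ∂(vol X), Om z b → dN (Wv z (g^[i] b)) = dN (Wv z b) := by
    intro i
    induction i with
    | zero => exact Filter.Eventually.of_forall fun b _ => rfl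
    | succ i ih =>
      have hN : vol X {b : X | ¬ (Om z b → dN (Wv z (g^[i] b)) = dN (Wv z b))} = 0 := ih
      have h2 := vol_image_null rfl hS.lipschitz hN
      have h3 : ∀ᵐ b ∂(vol X), Om z (g b) → dN (Wv z (g^[i] (g b))) = dN (Wv z (g b)) := by
        rw [ae_iff]
        refine measure_mono_null ?_ h2
        intro b hb
        exact ⟨g b, hb, hSg b⟩
      filter_upwards [h1, h3] with b hb1 hb3 hOm
      rw [Function.iterate_succ_apply]
      have hOm' : Om z (g b) := by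
        have := hg.Om_map hOm
        rwa [hgz] at this
      rw [hb3 hOm', hb1 hOm]
  refine ⟨0, ?_⟩
  filter_upwards [hall i] with b hb hOm
  have hiz : g^[i] z = z := Function.iterate_fixed hgz i
  unfold kap
  rw [hiz, hb hOm, _root_.map_zero, sub_self]

/-
PROOF.  All powers `h = g^[i]` are surjective sphere isometries with `h z = z`, `HasFDerivAt h id z` (chain rule); they are differentiable off `0` (`differentiableAt_FO`).
Case `Deg g z`.  By `deg_main`, `separates_id`: `dN (Wv z (g b)) = dN (Wv z b)` for a.e. `b` with `Om z b` (the `L` of `deg_main` is the derivative, i.e. the identity).  By induction (null sets are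
transported by `g`: `vol_image_null` for the inverse; `Om z (g b) ↔ Om z b` since `g z = z`) the same for `g^[i]`, so `kap (g^[i]) z b = 0` a.e. and `Deg (g^[i]) z` (with `w = 0`).  Use the first
part of `cartan_est` and `cartan_of_unif` with `ρ` small.
Case `hsm`: the norm is differentiable near `z` and `dN` is continuous at `z`; `‖g^[i] x - z‖ ≤ 3 ‖x - z‖`, so the second part of `cartan_est` gives the uniform bound for small `ρ`.
-/
theorem cartan_local {g : X → X} (hg : SphereIso g) (hgs : Function.Surjective g) {z : X}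
    (hz : z ≠ 0) (hgz : g z = z) (hgd : HasFDerivAt g (ContinuousLinearMap.id ℝ X) z)
    (hsm : Deg g z ∨ ((∀ᶠ x in 𝓝 z, DifferentiableAt ℝ (fun y : X => ‖y‖) x) ∧
      ContinuousAt (dN : X → X →L[ℝ] ℝ) z)) :
    ∀ᶠ x in 𝓝 z, g x = x := by
  have hnz : 0 < ‖z‖ := norm_pos_iff.mpr hz
  obtain ⟨ε, hε, C, hC, hest⟩ := cartan_est hz
  have hiso : ∀ i : ℕ, SphereIso (g^[i]) := cartan_iterate hg
  have hsurj : ∀ i : ℕ, Function.Surjective (g^[i]) := fun i => hgs.iterate i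
  have hfix : ∀ i : ℕ, g^[i] z = z := fun i => Function.iterate_fixed hgz i
  have hder : ∀ i : ℕ, HasFDerivAt (g^[i]) (ContinuousLinearMap.id ℝ X) z := by
    intro i
    have h1 := hgd.iterate hgz i
    have h2 : (ContinuousLinearMap.id ℝ X) ^ i = ContinuousLinearMap.id ℝ X := one_pow i
    rwa [h2] at h1
  have hdiff : ∀ i : ℕ, ∀ x : X, x ≠ 0 → DifferentiableAt ℝ (g^[i]) x := fun i x hx =>
    ((hiso i).differentiableAt_FO (hsurj i) rfl hx).1
  -- it is enough to find a uniform bound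
  suffices hun : ∃ ρ > 0, ρ ≤ ‖z‖ ∧ ∀ i : ℕ, ∀ x ∈ ball z ρ,
      ‖fderiv ℝ (g^[i]) x - ContinuousLinearMap.id ℝ X‖ ≤ 1 / 2 by
    obtain ⟨ρ, hρ, hρz, hb⟩ := hun
    have h1 := cartan_of_unif hg hgz hρ (fun i x hx => hdiff i x (by
      rintro rfl
      rw [mem_ball, dist_zero_left] at hx
      linarith)) hb
    filter_upwards [ball_mem_nhds z (by positivity : 0 < ρ / 3)] with x hx
    exact h1 x hx
  have hC1 : 0 < C + 1 := by linarith
  rcases hsm with hdeg | ⟨hnd, hcont⟩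
  · refine ⟨min ε (min ‖z‖ (1 / (2 * (C + 1)))), by positivity,
      (min_le_right _ _).trans (min_le_left _ _), ?_⟩
    intro i x hx
    have hx1 : x ∈ ball z ε := ball_subset_ball (min_le_left _ _) hx
    have hx2 : ‖x - z‖ < 1 / (2 * (C + 1)) := by
      rw [mem_ball, dist_eq_norm] at hx
      exact hx.trans_le ((min_le_right _ _).trans (min_le_right _ _))
    have h1 := (hest _ (hiso i) (hsurj i) (hfix i) (hder i) x hx1).1
      (cartan_deg_iterate hg hgs hz hgz hgd hdeg i)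
    refine h1.trans ?_
    have h2 : C * ‖x - z‖ ≤ (C + 1) * (1 / (2 * (C + 1))) :=
      mul_le_mul (by linarith) hx2.le (norm_nonneg _) hC1.le
    have h3 : (C + 1) * (1 / (2 * (C + 1))) = 1 / 2 := by field_simp
    linarith
  · have hδc : ContinuousAt (fun y : X => ‖y‖⁻¹ • (dN y : X →L[ℝ] ℝ)) z :=
      (continuousAt_id.norm.inv₀ hnz.ne').smul hcont
    have hev2 : ∀ᶠ y in 𝓝 z, ‖‖y‖⁻¹ • dN y - ‖z‖⁻¹ • dN z‖ < 1 / (4 * (C + 1)) := by
      have h1 := Metric.tendsto_nhds.mp hδc.tendsto (1 / (4 * (C + 1))) (by positivity)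
      filter_upwards [h1] with y hy
      rwa [dist_eq_norm] at hy
    obtain ⟨r, hr, hball⟩ := Metric.eventually_nhds_iff_ball.mp (hnd.and hev2)
    refine ⟨min (min ε (r / 3)) (min ‖z‖ (1 / (4 * (C + 1)))), by positivity,
      (min_le_right _ _).trans (min_le_left _ _), ?_⟩
    intro i x hx
    have hx1 : x ∈ ball z ε := ball_subset_ball ((min_le_left _ _).trans (min_le_left _ _)) hx
    have hx2 : ‖x - z‖ < 1 / (4 * (C + 1)) := by
      rw [mem_ball, dist_eq_norm] at hx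
      exact hx.trans_le ((min_le_right _ _).trans (min_le_right _ _))
    have hx3 : ‖x - z‖ < r / 3 := by
      rw [mem_ball, dist_eq_norm] at hx
      exact hx.trans_le ((min_le_left _ _).trans (min_le_right _ _))
    have hmem : g^[i] x ∈ ball z r := by
      rw [mem_ball]
      have h1 := (hiso i).lipschitz.dist_le_mul x z
      rw [hfix i, dist_eq_norm x z, NNReal.coe_ofNat] at h1
      linarith
    obtain ⟨h1, h2⟩ := hball _ hmem
    have h3 := (hest _ (hiso i) (hsurj i) (hfix i) (hder i) x hx1).2 h1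
    refine h3.trans ?_
    have h4 : C * (‖x - z‖ + ‖‖g^[i] x‖⁻¹ • dN (g^[i] x) - ‖z‖⁻¹ • dN z‖)
        ≤ (C + 1) * (1 / (4 * (C + 1)) + 1 / (4 * (C + 1))) :=
      mul_le_mul (by linarith) (by linarith) (by positivity) hC1.le
    have h5 : (C + 1) * (1 / (4 * (C + 1)) + 1 / (4 * (C + 1))) = 1 / 2 := by field_simp; norm_num
    linarith

end Vale.Agent.P084
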