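import Mathlib
import Vale.Agent.Lib.P084.Local
import Vale.Agent.Lib.P084.Meas

open Filter Topology Module Metric MeasureTheory Measure Set

namespace Vale.Agent.P084

variable {X Y : Type*} [NormedAddCommGroup X] [NormedSpace ℝ X] [NormedAddCommGroup Y]
  [NormedSpace ℝ Y] {T : X → Y}

section concl

variable {E G : Type*} [NormedAddCommGroup E] [NormedSpace ℝ E] [NormedAddCommGroup G]
  [NormedSpace ℝ G]

/-- the average of a Lipschitz map with derivative zero off a null set is locally constant -/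
theorem concl_avg_const [FiniteDimensional ℝ E] [MeasurableSpace E] [BorelSpace E]
    {g : E → G} {x₀ : E} {ε M : ℝ} (hM : 0 ≤ M)
    (hg : ∀ a ∈ ball x₀ ε, ∀ b ∈ ball x₀ ε, ‖g a - g b‖ ≤ M * ‖a - b‖)
    {N : Set E} (hN : vol E N = 0) (hd : ∀ z ∈ ball x₀ ε, z ∉ N → HasFDerivAt g (0 : E →L[ℝ] G) z)
    {r : ℝ} {z : E} (hz : z ∈ ball x₀ (ε - r)) :
    HasFDerivAt (fun x => ∫ y in ball (0 : E) r, g (x + y) ∂(vol E)) (0 : E →L[ℝ] G) z := by
  have hfm : IsFiniteMeasure ((vol E).restrict (ball (0 : E) r)) :=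
    ⟨by rw [Measure.restrict_apply_univ]; exact measure_ball_lt_top⟩
  have hmem : ∀ x ∈ ball x₀ (ε - r), ∀ y ∈ ball (0 : E) r, x + y ∈ ball x₀ ε := by
    intro x hx y hy
    rw [mem_ball_iff_norm] at hx ⊢
    rw [mem_ball_zero_iff] at hy
    calc ‖x + y - x₀‖ = ‖(x - x₀) + y‖ := by congr 1; abel
      _ ≤ ‖x - x₀‖ + ‖y‖ := norm_add_le _ _
      _ < ε := by linarith
  have hgc : ContinuousOn g (ball x₀ ε) := by
    have h1 : LipschitzOnWith (Real.toNNReal M) g (ball x₀ ε) := by
      apply LipschitzOnWith.of_dist_le_mul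
      intro a ha b hb
      rw [dist_eq_norm, dist_eq_norm, Real.coe_toNNReal M hM]
      exact hg a ha b hb
    exact h1.continuousOn
  have hcont : ∀ x ∈ ball x₀ (ε - r), ContinuousOn (fun y => g (x + y)) (ball (0 : E) r) := by
    intro x hx
    exact hgc.comp (by fun_prop) (fun y hy => hmem x hx y hy)
  have hmeas : ∀ x ∈ ball x₀ (ε - r), AEStronglyMeasurable (fun y => g (x + y))
      ((vol E).restrict (ball (0 : E) r)) := fun x hx =>
    (hcont x hx).aestronglyMeasurable measurableSet_ball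
  have hae : ∀ᵐ y ∂(vol E), z + y ∉ N := by
    rw [ae_iff]
    have h1 : {y : E | ¬ z + y ∉ N} = (fun y => z + y) ⁻¹' N := by
      ext y
      simp
    rw [h1, measure_preimage_add, hN]
  have key := hasFDerivAt_integral_of_dominated_loc_of_lip' (𝕜 := ℝ)
    (μ := (vol E).restrict (ball (0 : E) r)) (F := fun x y => g (x + y))
    (F' := fun _ => (0 : E →L[ℝ] G)) (x₀ := z) (s := ball x₀ (ε - r)) (bound := fun _ => M)
    (isOpen_ball.mem_nhds hz) hmeas ?_ (aestronglyMeasurable_const) ?_ (integrable_const _) ?_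
  · have h2 := key.2
    simpa using h2
  · refine ⟨hmeas z hz, HasFiniteIntegral.of_bounded (C := ‖g z‖ + M * r) ?_⟩
    refine (ae_restrict_iff' measurableSet_ball).mpr (ae_of_all _ fun y hy => ?_)
    have hzε : z ∈ ball x₀ ε := by
      rw [mem_ball_zero_iff] at hy
      have := norm_nonneg y
      exact ball_subset_ball (by linarith) hz
    have h1 := hg _ (hmem z hz y hy) z hzε
    rw [add_sub_cancel_left] at h1
    rw [mem_ball_zero_iff] at hy
    calc ‖g (z + y)‖ = ‖g z + (g (z + y) - g z)‖ := by congr 1; abel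
      _ ≤ ‖g z‖ + ‖g (z + y) - g z‖ := norm_add_le _ _
      _ ≤ ‖g z‖ + M * ‖y‖ := by linarith
      _ ≤ ‖g z‖ + M * r := by
        have := mul_le_mul_of_nonneg_left hy.le hM
        linarith
  · refine (ae_restrict_iff' measurableSet_ball).mpr (ae_of_all _ fun y hy => ?_)
    intro x hx
    have h1 := hg _ (hmem x hx y hy) _ (hmem z hz y hy)
    rwa [add_sub_add_right_eq_sub] at h1
  · refine (ae_restrict_iff' measurableSet_ball).mpr ?_
    filter_upwards [hae] with y hy hyb
    have h1 := hd _ (hmem z hz y hyb) hy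
    have h2 : HasFDerivAt (fun x : E => x + y) (ContinuousLinearMap.id ℝ E) z :=
      (hasFDerivAt_id z).add_const y
    have h3 := h1.comp z h2
    rw [ContinuousLinearMap.zero_comp] at h3
    exact h3

/-- a Lipschitz map with derivative zero off a null set is constant on balls -/
theorem concl_const [FiniteDimensional ℝ E] [MeasurableSpace E] [BorelSpace E] [CompleteSpace G]
    {g : E → G} {x₀ : E} {ε M : ℝ} (hM : 0 ≤ M)
    (hg : ∀ a ∈ ball x₀ ε, ∀ b ∈ ball x₀ ε, ‖g a - g b‖ ≤ M * ‖a - b‖)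
    {N : Set E} (hN : vol E N = 0) (hd : ∀ z ∈ ball x₀ ε, z ∉ N → HasFDerivAt g (0 : E →L[ℝ] G) z)
    {z : E} (hz : z ∈ ball x₀ ε) : g z = g x₀ := by
  by_contra hne
  have hδ : 0 < ‖g z - g x₀‖ := norm_pos_iff.mpr (sub_ne_zero.mpr hne)
  have hzn : ‖z - x₀‖ < ε := mem_ball_iff_norm.mp hz
  have hε : 0 < ε := lt_of_le_of_lt (norm_nonneg _) hzn
  obtain ⟨r, hr0, hr1, hr2⟩ : ∃ r : ℝ, 0 < r ∧ r < ε - ‖z - x₀‖ ∧
      2 * M * r < ‖g z - g x₀‖ := by
    refine ⟨min ((ε - ‖z - x₀‖) / 2) (‖g z - g x₀‖ / (4 * (M + 1))), ?_, ?_, ?_⟩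
    · apply lt_min
      · linarith
      · positivity
    · refine lt_of_le_of_lt (min_le_left _ _) ?_
      linarith
    · have h1 : min ((ε - ‖z - x₀‖) / 2) (‖g z - g x₀‖ / (4 * (M + 1))) ≤
          ‖g z - g x₀‖ / (4 * (M + 1)) := min_le_right _ _
      calc 2 * M * min ((ε - ‖z - x₀‖) / 2) (‖g z - g x₀‖ / (4 * (M + 1)))
          ≤ 2 * M * (‖g z - g x₀‖ / (4 * (M + 1))) := by gcongr
        _ = (M / (M + 1)) * (‖g z - g x₀‖ / 2) := by
            field_simp
            ring
        _ ≤ 1 * (‖g z - g x₀‖ / 2) := by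
            gcongr
            rw [div_le_one (by linarith)]
            linarith
        _ < ‖g z - g x₀‖ := by linarith
  have hzr : z ∈ ball x₀ (ε - r) := by
    rw [mem_ball_iff_norm]
    linarith
  have hx₀r : x₀ ∈ ball x₀ (ε - r) := by
    rw [mem_ball_iff_norm, sub_self, norm_zero]
    have := norm_nonneg (z - x₀)
    linarith
  have hx₀ε : x₀ ∈ ball x₀ ε := mem_ball_self hε
  set F : E → G := fun x => ∫ y in ball (0 : E) r, g (x + y) ∂(vol E) with hF
  -- the average is constant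
  have hconst : F z = F x₀ := by
    have h1 := (convex_ball x₀ (ε - r)).norm_image_sub_le_of_norm_hasFDerivWithin_le (𝕜 := ℝ)
      (f := F) (f' := fun _ => 0) (C := 0) (x := x₀) (y := z)
      (fun x hx => (concl_avg_const hM hg hN hd hx).hasFDerivWithinAt)
      (fun x _ => by simp) hx₀r hzr
    rw [zero_mul] at h1
    exact sub_eq_zero.mp (norm_le_zero_iff.mp h1)
  have hfin : vol E (ball (0 : E) r) < ⊤ := measure_ball_lt_top
  have hV : 0 < (vol E).real (ball (0 : E) r) := by
    rw [Measure.real, ENNReal.toReal_pos_iff]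
    exact ⟨measure_ball_pos _ _ hr0, hfin⟩
  have hmem : ∀ x ∈ ball x₀ (ε - r), ∀ y ∈ ball (0 : E) r, x + y ∈ ball x₀ ε := by
    intro x hx y hy
    rw [mem_ball_iff_norm] at hx ⊢
    rw [mem_ball_zero_iff] at hy
    calc ‖x + y - x₀‖ = ‖(x - x₀) + y‖ := by congr 1; abel
      _ ≤ ‖x - x₀‖ + ‖y‖ := norm_add_le _ _
      _ < ε := by linarith
  have hgc : ContinuousOn g (ball x₀ ε) := by
    have h1 : LipschitzOnWith (Real.toNNReal M) g (ball x₀ ε) := by
      apply LipschitzOnWith.of_dist_le_mul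
      intro a ha b hb
      rw [dist_eq_norm, dist_eq_norm, Real.coe_toNNReal M hM]
      exact hg a ha b hb
    exact h1.continuousOn
  have hfm : IsFiniteMeasure ((vol E).restrict (ball (0 : E) r)) :=
    ⟨by rw [Measure.restrict_apply_univ]; exact measure_ball_lt_top⟩
  have happrox : ∀ x ∈ ball x₀ (ε - r),
      ‖F x - (vol E).real (ball (0 : E) r) • g x‖ ≤ M * r * (vol E).real (ball (0 : E) r) := by
    intro x hx
    have hxε : x ∈ ball x₀ ε := ball_subset_ball (by linarith) hx
    have hbd : ∀ y ∈ ball (0 : E) r, ‖g (x + y) - g x‖ ≤ M * r := by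
      intro y hy
      have h1 := hg _ (hmem x hx y hy) x hxε
      rw [add_sub_cancel_left] at h1
      rw [mem_ball_zero_iff] at hy
      exact h1.trans (mul_le_mul_of_nonneg_left hy.le hM)
    have hint : Integrable (fun y => g (x + y)) ((vol E).restrict (ball (0 : E) r)) := by
      refine ⟨(hgc.comp (by fun_prop) (fun y hy => hmem x hx y hy)).aestronglyMeasurable
        measurableSet_ball, HasFiniteIntegral.of_bounded (C := ‖g x‖ + M * r) ?_⟩
      refine (ae_restrict_iff' measurableSet_ball).mpr (ae_of_all _ fun y hy => ?_)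
      calc ‖g (x + y)‖ = ‖g x + (g (x + y) - g x)‖ := by congr 1; abel
        _ ≤ ‖g x‖ + ‖g (x + y) - g x‖ := norm_add_le _ _
        _ ≤ ‖g x‖ + M * r := by linarith [hbd y hy]
    have h1 : F x - (vol E).real (ball (0 : E) r) • g x =
        ∫ y in ball (0 : E) r, (g (x + y) - g x) ∂(vol E) := by
      rw [integral_sub hint (integrable_const _), setIntegral_const]
    rw [h1]
    exact norm_setIntegral_le_of_norm_le_const hfin hbd
  have h1 := happrox z hzr
  have h2 := happrox x₀ hx₀r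
  rw [hconst] at h1
  have h3 : ‖(vol E).real (ball (0 : E) r) • (g z - g x₀)‖ ≤
      2 * M * r * (vol E).real (ball (0 : E) r) := by
    calc ‖(vol E).real (ball (0 : E) r) • (g z - g x₀)‖
        = ‖(F x₀ - (vol E).real (ball (0 : E) r) • g x₀) -
            (F x₀ - (vol E).real (ball (0 : E) r) • g z)‖ := by
          congr 1
          rw [smul_sub]
          abel
      _ ≤ _ := norm_sub_le _ _
      _ ≤ 2 * M * r * (vol E).real (ball (0 : E) r) := by linarith
  rw [norm_smul, Real.norm_of_nonneg hV.le] at h3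
  have h4 : (vol E).real (ball (0 : E) r) * ‖g z - g x₀‖ ≤
      (vol E).real (ball (0 : E) r) * (2 * M * r) := by linarith
  have h5 := le_of_mul_le_mul_left h4 hV
  linarith

end concl

namespace SphereIso

/-
PROOF.  Let `D = fderiv ℝ T`.  Fix `x₀ ≠ 0`; take `ε, C` from `hlip`, shrink so that `0 ∉ ball x₀ ε`, `C ≥ 0`.
(1) `D` is `C`-Lipschitz on the ball: let `a, a'` be in the ball.  If all points of the segment are smooth (norm differentiable) then `D` is constant on it
(derivative `0` by `hzero`; `D` is `C¹` near smooth points by `hT2`, `hop`).  Otherwise take a nonsmooth `c` on the segment: `‖D a - D a'‖ ≤ ‖D a - D c‖ + ‖D c - D a'‖ ≤ C ‖a - a'‖`.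
(2) The norm is differentiable a.e. (`LipschitzWith.ae_differentiableAt`), so `D` has derivative zero a.e. on the ball.  A Lipschitz function with a.e. zero
derivative is constant: for small `r`, `x ↦ ∫ y in ball 0 r, D (x + y)` is differentiable with derivative `∫ fderiv D (x+y) = 0`
(`hasFDerivAt_integral_of_dominated_loc_of_lip'`, see its use in `Vale/Agent/Lib/P084/Avg2.lean`), so it is constant on a smaller ball, for all small `r`; dividing by the
volume of the ball and letting `r → 0`, `D` is constant on the smaller ball.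
(3) `X \ {0}` is connected (dimension at least two), `D` is locally constant on it, so `D = L` there; `T x = D x x = L x` (`fderiv_self`), and `T 0 = 0`.
(Compare `exists_linear` in `Vale/Agent/Lib/P084/Global.lean`.)
-/
theorem linear_of_reg (hT : SphereIso T) [FiniteDimensional ℝ X] [FiniteDimensional ℝ Y]
    (hdim : 2 ≤ finrank ℝ X)
    (hT2 : ∀ a : X, a ≠ 0 → DifferentiableAt ℝ (fun z : X => ‖z‖) a → ContDiffAt ℝ 2 T a)
    (hT1 : ∀ a : X, a ≠ 0 → ContDiffAt ℝ 1 T a)
    (hop : ∀ a : X, a ≠ 0 → DifferentiableAt ℝ (fun z : X => ‖z‖) a →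
      ∀ᶠ z in 𝓝 a, DifferentiableAt ℝ (fun z : X => ‖z‖) z)
    (hzero : ∀ a : X, a ≠ 0 → DifferentiableAt ℝ (fun z : X => ‖z‖) a →
      fderiv ℝ (fderiv ℝ T) a = 0)
    (hlip : ∀ x₀ : X, x₀ ≠ 0 → ∃ ε > 0, ∃ C : ℝ, ∀ a ∈ ball x₀ ε, ∀ c ∈ ball x₀ ε,
      ¬ DifferentiableAt ℝ (fun z : X => ‖z‖) c → ‖fderiv ℝ T a - fderiv ℝ T c‖ ≤ C * ‖a - c‖) :
    ∃ L : X →L[ℝ] Y, ∀ x, T x = L x := by
  let _ : MeasurableSpace X := borel X
  have _ : BorelSpace X := ⟨rfl⟩
  have hcomp : CompleteSpace (X →L[ℝ] Y) := FiniteDimensional.complete ℝ _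
  -- the derivative is zero at smooth points
  have hz : ∀ a : X, a ≠ 0 → DifferentiableAt ℝ (fun z : X => ‖z‖) a →
      HasFDerivAt (fderiv ℝ T) (0 : X →L[ℝ] X →L[ℝ] Y) a := by
    intro a ha hs
    have h1 : ContDiffAt ℝ 1 (fderiv ℝ T) a := (hT2 a ha hs).fderiv_right (by norm_num)
    have h2 := (h1.differentiableAt (by norm_num)).hasFDerivAt
    rwa [hzero a ha hs] at h2
  have hN : vol X {y : X | ¬ DifferentiableAt ℝ (fun z : X => ‖z‖) y} = 0 :=
    (lipschitzWith_one_norm (E := X)).ae_differentiableAt (μ := vol X)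
  -- the derivative of `T` is locally constant
  have hloc : ∀ x₀ : X, x₀ ≠ 0 → HasFDerivAt (fderiv ℝ T) (0 : X →L[ℝ] X →L[ℝ] Y) x₀ := by
    intro x₀ hx₀
    obtain ⟨ε₁, hε₁, C₁, hC₁⟩ := hlip x₀ hx₀
    set ε : ℝ := min ε₁ ‖x₀‖ with hεdef
    have hε : 0 < ε := lt_min hε₁ (norm_pos_iff.mpr hx₀)
    set C : ℝ := max C₁ 0 with hCdef
    have hC0 : 0 ≤ C := le_max_right _ _
    have hne : ∀ z ∈ ball x₀ ε, z ≠ 0 := by
      rintro z hz rfl
      rw [mem_ball_iff_norm, zero_sub, norm_neg] at hz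
      exact absurd (lt_of_lt_of_le hz (min_le_right _ _)) (lt_irrefl _)
    have hsub : ball x₀ ε ⊆ ball x₀ ε₁ := ball_subset_ball (min_le_left _ _)
    have hC : ∀ a ∈ ball x₀ ε, ∀ c ∈ ball x₀ ε,
        ¬ DifferentiableAt ℝ (fun z : X => ‖z‖) c →
          ‖fderiv ℝ T a - fderiv ℝ T c‖ ≤ C * ‖a - c‖ := by
      intro a ha c hc hns
      refine (hC₁ a (hsub ha) c (hsub hc) hns).trans ?_
      exact mul_le_mul_of_nonneg_right (le_max_left _ _) (norm_nonneg _)
    have hLip : ∀ a ∈ ball x₀ ε, ∀ b ∈ ball x₀ ε,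
        ‖fderiv ℝ T a - fderiv ℝ T b‖ ≤ C * ‖a - b‖ := by
      intro a ha b hb
      by_cases hseg : ∃ c ∈ segment ℝ a b, ¬ DifferentiableAt ℝ (fun z : X => ‖z‖) c
      · obtain ⟨c, hc, hns⟩ := hseg
        have hcb : c ∈ ball x₀ ε := (convex_ball x₀ ε).segment_subset ha hb hc
        have h1 := hC a ha c hcb hns
        have h2 := hC b hb c hcb hns
        have h3 : Dist.dist a c + Dist.dist c b = Dist.dist a b := dist_add_dist_of_mem_segment hc
        rw [dist_eq_norm, dist_eq_norm, dist_eq_norm] at h3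
        calc ‖fderiv ℝ T a - fderiv ℝ T b‖
            = ‖(fderiv ℝ T a - fderiv ℝ T c) - (fderiv ℝ T b - fderiv ℝ T c)‖ := by
              congr 1
              abel
          _ ≤ ‖fderiv ℝ T a - fderiv ℝ T c‖ + ‖fderiv ℝ T b - fderiv ℝ T c‖ := norm_sub_le _ _
          _ ≤ C * ‖a - c‖ + C * ‖b - c‖ := add_le_add h1 h2
          _ = C * ‖a - b‖ := by
              rw [norm_sub_rev b c, ← mul_add, h3]
      · push Not at hseg
        have hsegne : ∀ c ∈ segment ℝ a b, c ≠ 0 := fun c hc =>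
          hne c ((convex_ball x₀ ε).segment_subset ha hb hc)
        have h1 := (convex_segment a b).norm_image_sub_le_of_norm_hasFDerivWithin_le (𝕜 := ℝ)
          (f := fderiv ℝ T) (f' := fun _ => 0) (C := 0) (x := b) (y := a)
          (fun c hc => (hz c (hsegne c hc) (hseg c hc)).hasFDerivWithinAt)
          (fun x _ => by simp) (right_mem_segment ℝ a b) (left_mem_segment ℝ a b)
        rw [zero_mul] at h1
        exact h1.trans (mul_nonneg hC0 (norm_nonneg _))
    have hconst : ∀ z ∈ ball x₀ ε, fderiv ℝ T z = fderiv ℝ T x₀ := by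
      intro z hzb
      refine concl_const hC0 hLip hN ?_ hzb
      intro y hy hyN
      refine hz y (hne y hy) ?_
      by_contra hcon
      exact hyN hcon
    have hev : fderiv ℝ T =ᶠ[𝓝 x₀] fun _ => fderiv ℝ T x₀ := by
      filter_upwards [isOpen_ball.mem_nhds (mem_ball_self hε)] with z hzb
      exact hconst z hzb
    exact (hasFDerivAt_const _ _).congr_of_eventuallyEq hev
  have hnt : Nontrivial X := Module.nontrivial_of_finrank_pos (R := ℝ) (by omega)
  obtain ⟨x₁, hx₁⟩ := exists_ne (0 : X)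
  refine ⟨fderiv ℝ T x₁, fun x => ?_⟩
  by_cases hx : x = 0
  · subst hx
    rw [hT.map_zero, _root_.map_zero]
  · have hrank : 1 < Module.rank ℝ X := by
      rw [← Module.finrank_eq_rank]
      exact_mod_cast (by omega : 1 < finrank ℝ X)
    have hconn : IsPreconnected ({0}ᶜ : Set X) :=
      (isConnected_compl_singleton_of_one_lt_rank hrank 0).isPreconnected
    have hdiff : DifferentiableOn ℝ (fderiv ℝ T) ({0}ᶜ : Set X) := by
      intro z hz'
      exact (hloc z hz').differentiableAt.differentiableWithinAt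
    have hzero' : Set.EqOn (fderiv ℝ (fderiv ℝ T)) 0 ({0}ᶜ : Set X) := by
      intro z hz'
      exact (hloc z hz').fderiv
    have h1 := isOpen_compl_singleton.is_const_of_fderiv_eq_zero hconn hdiff hzero'
      (x := x₁) (y := x) hx₁ hx
    rw [h1, hT.fderiv_self ((hT1 x hx).differentiableAt (by norm_num))]

end SphereIso

end Vale.Agent.P084
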