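import Mathlib
import Vale.Agent.Lib.P084.SphereIso

open Filter Topology Module

namespace Vale.Agent.P084

variable {X Y : Type*} [NormedAddCommGroup X] [NormedSpace ℝ X] [NormedAddCommGroup Y]
  [NormedSpace ℝ Y]

/-- local parametrization of the unit sphere -/
noncomputable def gam (a v : X) (t : ℝ) : X := ‖a + t • v‖⁻¹ • (a + t • v)

/-- sum of two points of the unit sphere -/
noncomputable def Ph0 (a v : X) (z : ℝ × ℝ) : X := gam a v z.1 + gam a v z.2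

/-- the preimage of the sum of the images of two points of the unit sphere -/
noncomputable def Ph1 (T : X → Y) (S : Y → X) (a v : X) (z : ℝ × ℝ) : X :=
  S (T (gam a v z.1) + T (gam a v z.2))

/-- regularity of order two at a point, for a map and its inverse -/
structure Reg2 (T : X → Y) (S : Y → X) (a : X) : Prop where
  hX : ContDiffAt ℝ 2 (fun z : X => ‖z‖) a
  hY : ContDiffAt ℝ 2 (fun z : Y => ‖z‖) (T a)
  hT : ContDiffAt ℝ 2 T a
  hS : ContDiffAt ℝ 2 S (T a)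

theorem line_tendsto (a v : X) : Tendsto (fun t : ℝ => a + t • v) (𝓝 0) (𝓝 a) := by
  have h : Continuous (fun t : ℝ => a + t • v) := by fun_prop
  have := h.tendsto 0
  simpa using this

theorem line_ne_eventually {a : X} (ha : a ≠ 0) (v : X) : ∀ᶠ t : ℝ in 𝓝 0, a + t • v ≠ 0 :=
  (line_tendsto a v).eventually (isOpen_ne.mem_nhds ha)

theorem gam_zero (a v : X) : gam a v 0 = ‖a‖⁻¹ • a := by simp [gam]

theorem norm_gam {a v : X} {t : ℝ} (h : a + t • v ≠ 0) : ‖gam a v t‖ = 1 := by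
  rw [gam, norm_smul, norm_inv, norm_norm, inv_mul_cancel₀ (norm_ne_zero_iff.mpr h)]

theorem contDiffAt_line (a v : X) (t : ℝ) : ContDiffAt ℝ 2 (fun t : ℝ => a + t • v) t := by
  fun_prop

theorem gam_contDiffAt_of {a v : X} {t : ℝ} (h0 : a + t • v ≠ 0)
    (hX : ContDiffAt ℝ 2 (fun z : X => ‖z‖) (a + t • v)) : ContDiffAt ℝ 2 (gam a v) t := by
  have h1 : ContDiffAt ℝ 2 (fun t : ℝ => ‖a + t • v‖) t :=
    ContDiffAt.comp t (g := fun z : X => ‖z‖) hX (contDiffAt_line a v t)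
  have h2 : ContDiffAt ℝ 2 (fun t : ℝ => ‖a + t • v‖⁻¹) t := h1.inv (norm_ne_zero_iff.mpr h0)
  exact h2.smul (contDiffAt_line a v t)

theorem gam_contDiffAt {a v : X} (ha : a ≠ 0) (hX : ContDiffAt ℝ 2 (fun z : X => ‖z‖) a) :
    ContDiffAt ℝ 2 (gam a v) 0 := by
  apply gam_contDiffAt_of
  · simpa using ha
  · simpa using hX

theorem Ph0_contDiffAt {a v : X} (ha : a ≠ 0) (hX : ContDiffAt ℝ 2 (fun z : X => ‖z‖) a) :
    ContDiffAt ℝ 2 (Ph0 a v) 0 := by
  have h1 : ContDiffAt ℝ 2 (fun z : ℝ × ℝ => gam a v z.1) 0 :=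
    ContDiffAt.comp (0 : ℝ × ℝ) (g := gam a v) (f := Prod.fst) (gam_contDiffAt ha hX) contDiffAt_fst
  have h2 : ContDiffAt ℝ 2 (fun z : ℝ × ℝ => gam a v z.2) 0 :=
    ContDiffAt.comp (0 : ℝ × ℝ) (g := gam a v) (f := Prod.snd) (gam_contDiffAt ha hX) contDiffAt_snd
  exact h1.add h2

theorem SphereIso.contDiffAt_smul {T : X → Y} (hT : SphereIso T) {a : X}
    (h : ContDiffAt ℝ 2 T a) {c : ℝ} (hc : c ≠ 0) : ContDiffAt ℝ 2 T (c • a) := by
  have h1 : ContDiffAt ℝ 2 (fun z : X => c • T (c⁻¹ • z)) (c • a) := by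
    apply ContDiffAt.const_smul
    apply ContDiffAt.comp (c • a) (g := T)
    · rwa [smul_smul, inv_mul_cancel₀ hc, one_smul]
    · fun_prop
  have h2 : (fun z : X => c • T (c⁻¹ • z)) = T := by
    funext z
    rw [hT.smul, smul_smul, mul_inv_cancel₀ hc, one_smul]
  rwa [h2] at h1

/-- regularity is an open condition -/
theorem Reg2.eventually {T : X → Y} {S : Y → X} {a : X} (h : Reg2 T S a) :
    ∀ᶠ x in 𝓝 a, Reg2 T S x := by
  have h1 := h.hX.eventually (by norm_num)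
  have h2 := h.hT.continuousAt.eventually (h.hY.eventually (by norm_num))
  have h3 := h.hT.eventually (by norm_num)
  have h4 := h.hT.continuousAt.eventually (h.hS.eventually (by norm_num))
  filter_upwards [h1, h2, h3, h4] with x h1 h2 h3 h4
  exact ⟨h1, h2, h3, h4⟩

theorem Reg2.smul {T : X → Y} {S : Y → X} (hT : SphereIso T) (hS : SphereIso S) {a : X}
    (h : Reg2 T S a) {c : ℝ} (hc : c ≠ 0) : Reg2 T S (c • a) := by
  refine ⟨h.hX.contDiffAt_norm_smul hc, ?_, hT.contDiffAt_smul h.hT hc, ?_⟩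
  · rw [hT.smul]
    exact h.hY.contDiffAt_norm_smul hc
  · rw [hT.smul]
    exact hS.contDiffAt_smul h.hS hc

theorem Reg2.gam {T : X → Y} {S : Y → X} (hT : SphereIso T) (hS : SphereIso S) {a v : X} {t : ℝ}
    (h0 : a + t • v ≠ 0) (h : Reg2 T S (a + t • v)) : Reg2 T S (gam a v t) :=
  h.smul hT hS (inv_ne_zero (norm_ne_zero_iff.mpr h0))

/-- everything is regular near the centre -/
theorem Reg2.line {T : X → Y} {S : Y → X} {a : X} (h : Reg2 T S a) (v : X) :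
    ∀ᶠ t : ℝ in 𝓝 0, Reg2 T S (a + t • v) :=
  (line_tendsto a v).eventually h.eventually

theorem Ph1_contDiffAt {T : X → Y} {S : Y → X} (hT : SphereIso T) (hS : SphereIso S)
    {a v : X} (ha : a ≠ 0) (h : Reg2 T S a) :
    ContDiffAt ℝ 2 (Ph1 T S a v) 0 := by
  have hna : ‖a‖ ≠ 0 := norm_ne_zero_iff.mpr ha
  have hg := gam_contDiffAt (v := v) ha h.hX
  have hTg : ContDiffAt ℝ 2 T (P084.gam a v 0) := by
    rw [gam_zero]
    exact hT.contDiffAt_smul h.hT (inv_ne_zero hna)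
  have h0 : ContDiffAt ℝ 2 (fun t : ℝ => T (P084.gam a v t)) 0 :=
    ContDiffAt.comp (0 : ℝ) (g := T) hTg hg
  have h1 : ContDiffAt ℝ 2 (fun z : ℝ × ℝ => T (P084.gam a v z.1)) 0 :=
    ContDiffAt.comp (0 : ℝ × ℝ) (g := fun t : ℝ => T (P084.gam a v t)) (f := Prod.fst)
      h0 contDiffAt_fst
  have h2 : ContDiffAt ℝ 2 (fun z : ℝ × ℝ => T (P084.gam a v z.2)) 0 :=
    ContDiffAt.comp (0 : ℝ × ℝ) (g := fun t : ℝ => T (P084.gam a v t)) (f := Prod.snd)
      h0 contDiffAt_snd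
  have h3 := h1.add h2
  have h4 : ContDiffAt ℝ 2 S (T (P084.gam a v (0 : ℝ × ℝ).1) + T (P084.gam a v (0 : ℝ × ℝ).2)) := by
    have e : T (P084.gam a v (0 : ℝ × ℝ).1) + T (P084.gam a v (0 : ℝ × ℝ).2)
        = (2 * ‖a‖⁻¹) • T a := by
      have e1 : P084.gam a v (0 : ℝ × ℝ).1 = ‖a‖⁻¹ • a := gam_zero a v
      have e2 : P084.gam a v (0 : ℝ × ℝ).2 = ‖a‖⁻¹ • a := gam_zero a v
      rw [e1, e2, hT.smul, ← two_smul ℝ, smul_smul]
    rw [e]
    exact hS.contDiffAt_smul h.hS (mul_ne_zero two_ne_zero (inv_ne_zero hna))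
  exact ContDiffAt.comp (0 : ℝ × ℝ) (g := S) h4 h3

end Vale.Agent.P084
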