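import Mathlib
import Vale.Agent.Lib.P084.Density
import Vale.Agent.Lib.P084.Sep

open Filter Topology Module Metric MeasureTheory Measure Set

namespace Vale.Agent.P084

/-- the derivative of `x ↦ ‖x‖ • dN x` -/
theorem noFlat_hasFDerivAt {X : Type*} [NormedAddCommGroup X] [NormedSpace ℝ X] {x : X}
    (hC : ContDiffAt ℝ 2 (fun z : X => ‖z‖) x) :
    HasFDerivAt (fun z : X => ‖z‖ • dN z)
      (‖x‖ • fderiv ℝ dN x + (dN x).smulRight (dN x)) x := by
  have hd : DifferentiableAt ℝ (fun z : X => ‖z‖) x := hC.differentiableAt (by norm_num)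
  exact (hasFDerivAt_norm hd).smul (hasFDerivAt_dN hC)

/-- a linear endomorphism with a nonzero kernel vector has determinant zero -/
theorem noFlat_det {X : Type*} [NormedAddCommGroup X] [NormedSpace ℝ X]
    [FiniteDimensional ℝ X] (A : X →L[ℝ] X) {k : X} (hk : k ≠ 0) (hA : A k = 0) : A.det = 0 := by
  by_contra h
  have h1 : LinearMap.det (A : X →ₗ[ℝ] X) ≠ 0 := h
  have h2 := LinearMap.equivOfDetNeZero (A : X →ₗ[ℝ] X) h1
  have h3 : IsUnit (LinearMap.det (A : X →ₗ[ℝ] X)) := isUnit_iff_ne_zero.mpr h1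
  have h4 : (A : X →ₗ[ℝ] X) k = 0 := hA
  have h5 : Function.Injective (A : X →ₗ[ℝ] X) := by
    have h6 := (LinearMap.isUnit_iff_isUnit_det _).mpr h3
    exact ((Module.End.isUnit_iff _).mp h6).injective
  exact hk (h5 (by rw [h4, map_zero]))

/-- the gradient map is onto a neighbourhood of `dN a` -/
theorem noFlat_ball {X : Type*} [NormedAddCommGroup X] [NormedSpace ℝ X]
    [FiniteDimensional ℝ X] {a : X} (ha : ‖a‖ = 1) {O : Set X} (hO : IsOpen O) (haO : a ∈ O)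
    (hC : ∀ x ∈ O, ContDiffAt ℝ 2 (fun z : X => ‖z‖) x)
    (hexp : ∀ z : X, ‖z‖ ≤ 1 → dN a z = 1 → z = a) :
    ∃ r : ℝ, 0 < r ∧ ∀ q : X →L[ℝ] ℝ, ‖q - dN a‖ < r → ∃ x ∈ O, ‖x‖ • dN x = q := by
  have hda : DifferentiableAt ℝ (fun z : X => ‖z‖) a := (hC a haO).differentiableAt (by norm_num)
  have hpa : dN a a = 1 := by rw [dN_self hda, ha]
  have hcontg : ∀ q : X →L[ℝ] ℝ, Continuous (fun x : X => q x - ‖x‖ ^ 2 / 2) := fun q =>
    q.continuous.sub ((continuous_norm.pow 2).div_const 2)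
  have hK : IsCompact (closedBall (0 : X) 4) := isCompact_closedBall _ _
  have hKO : IsCompact (closedBall (0 : X) 4 ∩ Oᶜ) := hK.inter_right hO.isClosed_compl
  -- the gap
  obtain ⟨δ, hδ0, hδ1, hδ⟩ : ∃ δ : ℝ, 0 < δ ∧ δ ≤ 1 ∧ ∀ x ∈ closedBall (0 : X) 4 ∩ Oᶜ,
      dN a x - ‖x‖ ^ 2 / 2 ≤ 1 / 2 - 2 * δ := by
    by_cases hne : (closedBall (0 : X) 4 ∩ Oᶜ).Nonempty
    · obtain ⟨x₀, hx₀, hmax⟩ := hKO.exists_isMaxOn hne (hcontg (dN a)).continuousOn
      have hlt : dN a x₀ - ‖x₀‖ ^ 2 / 2 < 1 / 2 := by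
        have h1 := dN_le a x₀
        rcases lt_or_eq_of_le h1 with h2 | h2
        · nlinarith [sq_nonneg (‖x₀‖ - 1)]
        · by_contra h3
          push Not at h3
          have h4 : (‖x₀‖ - 1) ^ 2 ≤ 0 := by nlinarith
          have h5 : ‖x₀‖ = 1 := by
            have := pow_eq_zero_iff (n := 2) (by norm_num) |>.mp
              (le_antisymm h4 (sq_nonneg (‖x₀‖ - 1)))
            linarith
          have h6 := hexp x₀ h5.le (by rw [h2, h5])
          exact hx₀.2 (h6 ▸ haO)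
      refine ⟨min 1 ((1 / 2 - (dN a x₀ - ‖x₀‖ ^ 2 / 2)) / 2), lt_min one_pos (by linarith),
        min_le_left _ _, ?_⟩
      intro x hx
      have h1 : dN a x - ‖x‖ ^ 2 / 2 ≤ dN a x₀ - ‖x₀‖ ^ 2 / 2 := hmax hx
      have h2 := min_le_right 1 ((1 / 2 - (dN a x₀ - ‖x₀‖ ^ 2 / 2)) / 2)
      linarith
    · refine ⟨1, one_pos, le_rfl, ?_⟩
      intro x hx
      exact absurd ⟨x, hx⟩ hne
  refine ⟨δ / 8, by linarith, ?_⟩
  intro q hq
  have hqp : ∀ x : X, |q x - dN a x| ≤ δ / 8 * ‖x‖ := by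
    intro x
    have h1 := (q - dN a).le_opNorm x
    rw [_root_.sub_apply, Real.norm_eq_abs] at h1
    exact h1.trans (mul_le_mul_of_nonneg_right hq.le (norm_nonneg _))
  have haK : a ∈ closedBall (0 : X) 4 := by
    rw [mem_closedBall_zero_iff, ha]
    norm_num
  obtain ⟨x₀, hx₀, hmax⟩ := hK.exists_isMaxOn ⟨a, haK⟩ (hcontg q).continuousOn
  have hx₀4 : ‖x₀‖ ≤ 4 := mem_closedBall_zero_iff.mp hx₀
  have hval : 1 / 2 - δ / 8 ≤ q x₀ - ‖x₀‖ ^ 2 / 2 := by
    have h1 : q a - ‖a‖ ^ 2 / 2 ≤ q x₀ - ‖x₀‖ ^ 2 / 2 := hmax haK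
    have h2 := hqp a
    rw [hpa, ha] at h2
    rw [ha] at h1
    have h3 := (abs_le.mp h2).1
    linarith
  have hx₀O : x₀ ∈ O := by
    by_contra hcon
    have h1 := hδ x₀ ⟨hx₀, hcon⟩
    have h2 := (abs_le.mp (hqp x₀)).2
    have h3 : δ / 8 * ‖x₀‖ ≤ δ / 8 * 4 := mul_le_mul_of_nonneg_left hx₀4 (by linarith)
    linarith
  have hx₀lt : ‖x₀‖ < 4 := by
    by_contra hcon
    push Not at hcon
    have h4 : ‖x₀‖ = 4 := le_antisymm hx₀4 hcon
    have h1 := dN_le a x₀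
    have h2 := (abs_le.mp (hqp x₀)).2
    rw [h4] at h1 h2 hval
    linarith
  refine ⟨x₀, hx₀O, ?_⟩
  have hloc : IsLocalMax (fun x : X => q x - ‖x‖ ^ 2 / 2) x₀ := by
    have hnhds : closedBall (0 : X) 4 ∈ 𝓝 x₀ := by
      apply mem_of_superset (isOpen_ball.mem_nhds _) ball_subset_closedBall
      rwa [mem_ball_zero_iff]
    exact hmax.isLocalMax hnhds
  have hd : DifferentiableAt ℝ (fun z : X => ‖z‖) x₀ := (hC x₀ hx₀O).differentiableAt (by norm_num)
  have hder : HasFDerivAt (fun x : X => q x - ‖x‖ ^ 2 / 2) (q - ‖x₀‖ • dN x₀) x₀ := by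
    have h1 : HasFDerivAt (fun x : X => ‖x‖ ^ 2 / 2) (‖x₀‖ • dN x₀) x₀ := by
      have h2 := ((hasFDerivAt_norm hd).mul (hasFDerivAt_norm hd)).const_mul (2⁻¹ : ℝ)
      have h3 : (fun x : X => (2⁻¹ : ℝ) * (‖x‖ * ‖x‖)) = fun x : X => ‖x‖ ^ 2 / 2 := by
        funext x
        ring
      have h4 : (2⁻¹ : ℝ) • (‖x₀‖ • dN x₀ + ‖x₀‖ • dN x₀) = ‖x₀‖ • dN x₀ := by
        rw [← two_smul ℝ (‖x₀‖ • dN x₀), smul_smul]
        norm_num
      rw [h4] at h2
      rw [← h3]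
      exact h2
    exact q.hasFDerivAt.sub h1
  have h0 := hloc.hasFDerivAt_eq_zero hder
  exact (sub_eq_zero.mp h0).symm

/-
PROOF.  Let `N` be the norm, `J x = ‖x‖ • dN x` (`= ‖x‖ • fderiv ...`), a `C¹` map `O → (X →L[ℝ] ℝ)` with derivative
`k ↦ (dN x k) • dN x + ‖x‖ • fderiv ℝ dN x k`, which is not injective at any `x ∈ O` by `hk`.  So `J '' O` has measure zero (compose `J` with a
linear equivalence of the dual with `X`: `MeasureTheory.addHaar_image_eq_zero_of_det_fderiv_eq_zero`, det of a non injective endomorphism is `0`).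
On the other hand `J '' O` contains a ball around `p = dN a`: for `q` close to `p` maximise the continuous function
`x ↦ q x - ‖x‖^2/2` over `closedBall 0 4`.  For `q = p` the maximum over all of `X` is `1/2` and it is attained only at `a`
(`p x - ‖x‖²/2 ≤ ‖x‖ - ‖x‖²/2 ≤ 1/2` with equality iff `‖x‖ = 1` and `p x = 1`, i.e. `x = a` by `hexp`).  By compactness of
`closedBall 0 4 \ O` there is `δ > 0` with `p x - ‖x‖²/2 ≤ 1/2 - 2 δ` there, so for `‖q - p‖ ≤ δ/8` (and `≤ 1`) the maximiser of `q x - ‖x‖²/2` over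
`closedBall 0 4` lies in `O` and in the open ball (on the sphere of radius `4` the value is `≤ 2*4 - 8 = 0`), so it is a local maximum, and the derivative
vanishes: `q = J x`.  A ball has positive measure: contradiction.
-/
theorem no_exposed_flat {X : Type*} [NormedAddCommGroup X] [NormedSpace ℝ X]
    [FiniteDimensional ℝ X] {a : X} (ha : ‖a‖ = 1) {O : Set X} (hO : IsOpen O) (haO : a ∈ O)
    (hC : ∀ x ∈ O, ContDiffAt ℝ 2 (fun z : X => ‖z‖) x)
    (hk : ∀ x ∈ O, ∃ k : X, k ≠ 0 ∧ dN x k = 0 ∧ fderiv ℝ dN x k = 0)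
    (hexp : ∀ z : X, ‖z‖ ≤ 1 → dN a z = 1 → z = a) : False := by
  obtain ⟨r, hr, hball⟩ := noFlat_ball ha hO haO hC hexp
  let _ : MeasurableSpace X := borel X
  have _ : BorelSpace X := ⟨rfl⟩
  have hfin : finrank ℝ (X →L[ℝ] ℝ) = finrank ℝ X := by
    rw [← (LinearMap.toContinuousLinearMap : (X →ₗ[ℝ] ℝ) ≃ₗ[ℝ] (X →L[ℝ] ℝ)).finrank_eq]
    exact Subspace.dual_finrank_eq
  let L : (X →L[ℝ] ℝ) ≃L[ℝ] X := ContinuousLinearEquiv.ofFinrankEq hfin
  let μ : Measure X := Measure.addHaar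
  have hnull : μ ((fun x : X => L (‖x‖ • dN x)) '' O) = 0 := by
    refine addHaar_image_eq_zero_of_det_fderivWithin_eq_zero μ
      (f' := fun x => (L : (X →L[ℝ] ℝ) →L[ℝ] X).comp
        (‖x‖ • fderiv ℝ dN x + (dN x).smulRight (dN x))) ?_ ?_
    · intro x hx
      exact ((L : (X →L[ℝ] ℝ) →L[ℝ] X).hasFDerivAt.comp x
        (noFlat_hasFDerivAt (hC x hx))).hasFDerivWithinAt
    · intro x hx
      obtain ⟨k, hk0, hk1, hk2⟩ := hk x hx
      refine noFlat_det _ hk0 ?_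
      simp [hk1, hk2]
  have hsub : L '' (ball (dN a) r) ⊆ (fun x : X => L (‖x‖ • dN x)) '' O := by
    rintro _ ⟨q, hq, rfl⟩
    obtain ⟨x, hx, hxq⟩ := hball q (by rwa [mem_ball_iff_norm] at hq)
    exact ⟨x, hx, by rw [← hxq]⟩
  have hopen : IsOpen (L '' (ball (dN a) r)) :=
    L.toHomeomorph.isOpenMap _ isOpen_ball
  have hpos : 0 < μ (L '' (ball (dN a) r)) :=
    hopen.measure_pos μ ⟨L (dN a), dN a, mem_ball_self hr, rfl⟩
  exact hpos.ne' (measure_mono_null hsub hnull)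

/-
PROOF.  Put `a = l z + (1-l) z'`.  `p a = l ‖z‖ + (1-l) ‖z'‖ ≥ ‖a‖` so `‖a‖ = p a`, and `dN a = p = dN z` (`support_eq_dN` in Sep.lean; the norm is differentiable at
`a` and `z`).  Convexity: `‖a + s h‖ = ‖l (z + (s/l) h) + (1-l) z'‖ ≤ l ‖z + (s/l) h‖ + (1-l) ‖z'‖`, with equality at `s = 0`, and the first
derivatives in `s` at `0` agree (`p h`).  So the second derivatives at `0` satisfy `B_a h h ≤ l * l⁻² * B_z h h` (use
`second_deriv_nonneg_of_isLocalMin` from `Vale/Agent/Lib/P084/Density.lean`, or second order Taylor expansion of the difference).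
-/
theorem hess_le {X : Type*} [NormedAddCommGroup X] [NormedSpace ℝ X] {z z' : X} {l : ℝ}
    (hl0 : 0 < l) (hl1 : l ≤ 1) {p : X →L[ℝ] ℝ} (hp : ‖p‖ ≤ 1) (hz : p z = ‖z‖)
    (hz' : p z' = ‖z'‖) (hz0 : z ≠ 0) (hC : ContDiffAt ℝ 2 (fun z : X => ‖z‖) z)
    (hCa : ContDiffAt ℝ 2 (fun z : X => ‖z‖) (l • z + (1 - l) • z')) (h : X) :
    fderiv ℝ dN (l • z + (1 - l) • z') h h ≤ l⁻¹ * fderiv ℝ dN z h h := by
  set A : X := l • z + (1 - l) • z' with hA
  have hAn : ‖A‖ = l * ‖z‖ + (1 - l) * ‖z'‖ := by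
    apply le_antisymm
    · calc ‖A‖ ≤ ‖l • z‖ + ‖(1 - l) • z'‖ := norm_add_le _ _
        _ = l * ‖z‖ + (1 - l) * ‖z'‖ := by
          rw [norm_smul, norm_smul, Real.norm_of_nonneg hl0.le,
            Real.norm_of_nonneg (by linarith)]
    · have h1 := apply_le_of_norm_le_one hp A
      rw [hA, map_add, map_smul, map_smul, hz, hz', smul_eq_mul, smul_eq_mul] at h1
      exact h1
  -- the comparison function
  set f : ℝ → ℝ := fun s => l * ‖z + (s * l⁻¹) • h‖ + (1 - l) * ‖z'‖ - ‖A + s • h‖ with hf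
  have hf0 : f 0 = 0 := by
    simp only [hf, zero_mul, zero_smul, add_zero, hAn]
    ring
  have hfnonneg : ∀ s, 0 ≤ f s := by
    intro s
    have h1 : A + s • h = l • (z + (s * l⁻¹) • h) + (1 - l) • z' := by
      rw [hA, smul_add, smul_smul]
      have : l * (s * l⁻¹) = s := by field_simp
      rw [this]
      abel
    have h2 : ‖A + s • h‖ ≤ l * ‖z + (s * l⁻¹) • h‖ + (1 - l) * ‖z'‖ := by
      rw [h1]
      refine (norm_add_le _ _).trans ?_
      rw [norm_smul, norm_smul, Real.norm_of_nonneg hl0.le, Real.norm_of_nonneg (by linarith)]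
    simp only [hf]
    linarith
  have hmin : IsLocalMin f 0 := Filter.Eventually.of_forall fun s => by
    rw [hf0]
    exact hfnonneg s
  have hcont : ContinuousAt f 0 := by
    apply Continuous.continuousAt
    simp only [hf]
    fun_prop
  have hsnd := second_deriv_nonneg_of_isLocalMin hmin hcont
  -- differentiability nearby
  have hlz : ∀ s : ℝ, HasDerivAt (fun s : ℝ => z + (s * l⁻¹) • h) (l⁻¹ • h) s := by
    intro s
    have h1 : HasDerivAt (fun s : ℝ => s * l⁻¹) (1 * l⁻¹) s := (hasDerivAt_id s).mul_const _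
    have h2 := (h1.smul_const h).const_add z
    simpa using h2
  have hlA : ∀ s : ℝ, HasDerivAt (fun s : ℝ => A + s • h) h s := by
    intro s
    have h2 := ((hasDerivAt_id s).smul_const h).const_add A
    simpa using h2
  have hcz : Tendsto (fun s : ℝ => z + (s * l⁻¹) • h) (𝓝 0) (𝓝 z) := by
    have h1 := (hlz 0).continuousAt
    unfold ContinuousAt at h1
    simpa using h1
  have hcA : Tendsto (fun s : ℝ => A + s • h) (𝓝 0) (𝓝 A) := by
    have h1 := (hlA 0).continuousAt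
    unfold ContinuousAt at h1
    simpa using h1
  have hez := hcz.eventually (hC.eventually (by norm_num))
  have heA := hcA.eventually (hCa.eventually (by norm_num))
  have hderiv : deriv f =ᶠ[𝓝 0]
      fun s => dN (z + (s * l⁻¹) • h) h - dN (A + s • h) h := by
    filter_upwards [hez, heA] with s hs1 hs2
    have hd1 : DifferentiableAt ℝ (fun z : X => ‖z‖) (z + (s * l⁻¹) • h) :=
      hs1.differentiableAt (by norm_num)
    have hd2 : DifferentiableAt ℝ (fun z : X => ‖z‖) (A + s • h) :=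
      hs2.differentiableAt (by norm_num)
    have e1 := (hasFDerivAt_norm hd1).comp_hasDerivAt s (hlz s)
    have e2 := (hasFDerivAt_norm hd2).comp_hasDerivAt s (hlA s)
    have e3 := ((e1.const_mul l).add_const ((1 - l) * ‖z'‖)).sub e2
    have e4 : l * dN (z + (s * l⁻¹) • h) (l⁻¹ • h) - dN (A + s • h) h =
        dN (z + (s * l⁻¹) • h) h - dN (A + s • h) h := by
      rw [map_smul, smul_eq_mul, ← mul_assoc, mul_inv_cancel₀ hl0.ne', one_mul]
    rw [e4] at e3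
    exact e3.deriv
  rw [hderiv.deriv_eq] at hsnd
  have g1 : HasDerivAt (fun s : ℝ => dN (z + (s * l⁻¹) • h) h)
      (fderiv ℝ dN z (l⁻¹ • h) h) 0 := by
    have e1 : HasFDerivAt (dN : X → X →L[ℝ] ℝ) (fderiv ℝ dN z) (z + ((0 : ℝ) * l⁻¹) • h) := by
      simpa using hasFDerivAt_dN hC
    have e2 := e1.comp_hasDerivAt (0 : ℝ) (hlz 0)
    exact ((ContinuousLinearMap.apply ℝ ℝ h).hasFDerivAt.comp_hasDerivAt (0 : ℝ) e2)
  have g2 : HasDerivAt (fun s : ℝ => dN (A + s • h) h) (fderiv ℝ dN A h h) 0 := by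
    have e1 : HasFDerivAt (dN : X → X →L[ℝ] ℝ) (fderiv ℝ dN A) (A + (0 : ℝ) • h) := by
      simpa using hasFDerivAt_dN hCa
    have e2 := e1.comp_hasDerivAt (0 : ℝ) (hlA 0)
    exact ((ContinuousLinearMap.apply ℝ ℝ h).hasFDerivAt.comp_hasDerivAt (0 : ℝ) e2)
  have g12 : deriv (fun s : ℝ => dN (z + (s * l⁻¹) • h) h - dN (A + s • h) h) 0 =
      fderiv ℝ dN z (l⁻¹ • h) h - fderiv ℝ dN A h h := (g1.sub g2).deriv
  rw [g12] at hsnd
  have g3 : fderiv ℝ dN z (l⁻¹ • h) h = l⁻¹ * fderiv ℝ dN z h h := by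
    rw [map_smul]
    rfl
  rw [g3] at hsnd
  linarith

end Vale.Agent.P084
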