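import Mathlib
import Vale.Agent.Lib.P084.Local2

open Filter Topology Module Metric MeasureTheory Measure Set

namespace Vale.Agent.P084

variable {X Y : Type*} [NormedAddCommGroup X] [NormedSpace ℝ X] [NormedAddCommGroup Y]
  [NormedSpace ℝ Y] {T : X → Y}

namespace SphereIso

/-
These three are localised versions of `hess_tangent`, `dN_snd_zero`, `third_symm` in `Vale/Agent/Lib/P084/Local2.lean`
(whose hypotheses are global: `∀ x ≠ 0, ContDiffAt ...`).  `ContDiffAt ℝ 2` is an open condition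
(`ContDiffAt.eventually`), `T` is continuous at the point; points such as `(2 * ‖x‖) • x` are handled by
homogeneity (`hess_smul`, `contDiffAt_norm_smul`, `dN_smul_pos`, `SphereIso.first_order`).  Copy the proofs and replace the
global hypotheses by `∀ᶠ y in 𝓝 x` ones.  In `third_symm` one needs `dN_snd_zero_loc` at all `y` near `x`.
-/

/-- points near `x` inherit all regularity hypotheses -/
theorem locHess_eventually (hT : SphereIso T) {x : X} (hx : x ≠ 0)
    (hX : ContDiffAt ℝ 2 (fun z : X => ‖z‖) x) (hY : ContDiffAt ℝ 2 (fun z : Y => ‖z‖) (T x))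
    (hTC : ContDiffAt ℝ 2 T x) :
    ∀ᶠ y in 𝓝 x, y ≠ 0 ∧ ContDiffAt ℝ 2 (fun z : X => ‖z‖) y ∧
      ContDiffAt ℝ 2 (fun z : Y => ‖z‖) (T y) ∧ ContDiffAt ℝ 2 T y := by
  have h1 := hX.eventually (by norm_num)
  have h2 := hTC.continuousAt.eventually (hY.eventually (by norm_num))
  have h3 := hTC.eventually (by norm_num)
  filter_upwards [isOpen_ne.mem_nhds hx, h1, h2, h3] with y hy0 hy1 hy2 hy3
  exact ⟨hy0, hy1, hy2, hy3⟩

theorem hess_tangent_loc (hT : SphereIso T) {x : X} (hx : x ≠ 0)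
    (hX : ContDiffAt ℝ 2 (fun z : X => ‖z‖) x) (hY : ContDiffAt ℝ 2 (fun z : Y => ‖z‖) (T x))
    (hTC : ContDiffAt ℝ 2 T x) {u h : X} (hu : dN x u = 0) (hh : dN x h = 0) :
    fderiv ℝ dN (T x) (fderiv ℝ T x u) (fderiv ℝ T x h) = fderiv ℝ dN x u h := by
  have hXd : DifferentiableAt ℝ (fun z : X => ‖z‖) x := hX.differentiableAt (by norm_num)
  have hTx : DifferentiableAt ℝ T x := hTC.differentiableAt (by norm_num)
  have hTx0 : T x ≠ 0 := hT.map_ne_zero hx
  have hnx : 0 < ‖x‖ := norm_pos_iff.mpr hx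
  have hline : HasDerivAt (fun t : ℝ => x + t • u) u 0 := by
    have := ((hasDerivAt_id (0 : ℝ)).smul_const u).const_add x
    simpa using this
  have hx0 : x + (0 : ℝ) • u = x := by simp
  have hnorm : HasDerivAt (fun t : ℝ => ‖x + t • u‖) 0 0 := by
    have h1 : HasFDerivAt (fun z : X => ‖z‖) (dN x) (x + (0 : ℝ) • u) := by
      rw [hx0]; exact hasFDerivAt_norm hXd
    have h2 := h1.comp_hasDerivAt (0 : ℝ) hline
    rw [hu] at h2
    exact h2
  have hTl : HasDerivAt (fun t : ℝ => T (x + t • u)) (fderiv ℝ T x u) 0 := by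
    have h1 : HasFDerivAt T (fderiv ℝ T x) (x + (0 : ℝ) • u) := by
      rw [hx0]; exact hTx.hasFDerivAt
    exact h1.comp_hasDerivAt (0 : ℝ) hline
  have hP : HasDerivAt (fun t : ℝ => ‖x + t • u‖ • T x + ‖x‖ • T (x + t • u))
      (‖x‖ • fderiv ℝ T x u) 0 := by
    have h1 := (hnorm.smul_const (T x)).add (hTl.const_smul ‖x‖)
    exact h1.congr_deriv (by simp)
  have hp : HasDerivAt (fun t : ℝ => ‖x + t • u‖ • x + ‖x‖ • (x + t • u))
      (‖x‖ • u) 0 := by
    have h1 := (hnorm.smul_const x).add (hline.const_smul ‖x‖)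
    exact h1.congr_deriv (by simp)
  have hP0 : ‖x + (0:ℝ) • u‖ • T x + ‖x‖ • T (x + (0:ℝ) • u) = (2 * ‖x‖) • T x := by
    rw [hx0, ← two_smul ℝ, smul_smul]
  have hp0 : ‖x + (0:ℝ) • u‖ • x + ‖x‖ • (x + (0:ℝ) • u) = (2 * ‖x‖) • x := by
    rw [hx0, ← two_smul ℝ, smul_smul]
  have hc : 0 < 2 * ‖x‖ := by positivity
  have hX2 : ContDiffAt ℝ 2 (fun z : X => ‖z‖) ((2 * ‖x‖) • x) := hX.contDiffAt_norm_smul hc.ne'
  have hY2 : ContDiffAt ℝ 2 (fun z : Y => ‖z‖) ((2 * ‖x‖) • T x) := hY.contDiffAt_norm_smul hc.ne'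
  have hQ : HasDerivAt (fun t : ℝ => dN (‖x + t • u‖ • T x + ‖x‖ • T (x + t • u)) (fderiv ℝ T x h))
      (fderiv ℝ dN ((2 * ‖x‖) • T x) (‖x‖ • fderiv ℝ T x u) (fderiv ℝ T x h)) 0 := by
    have h1 : HasFDerivAt (dN : Y → Y →L[ℝ] ℝ) (fderiv ℝ dN ((2 * ‖x‖) • T x))
        (‖x + (0:ℝ) • u‖ • T x + ‖x‖ • T (x + (0:ℝ) • u)) := by
      rw [hP0]
      exact hasFDerivAt_dN hY2
    have h2 := h1.comp_hasDerivAt (0 : ℝ) hP
    have h3 := h2.clm_apply (hasDerivAt_const (0 : ℝ) (fderiv ℝ T x h))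
    exact h3.congr_deriv (by simp)
  have hq : HasDerivAt (fun t : ℝ => dN (‖x + t • u‖ • x + ‖x‖ • (x + t • u)) h)
      (fderiv ℝ dN ((2 * ‖x‖) • x) (‖x‖ • u) h) 0 := by
    have h1 : HasFDerivAt (dN : X → X →L[ℝ] ℝ) (fderiv ℝ dN ((2 * ‖x‖) • x))
        (‖x + (0:ℝ) • u‖ • x + ‖x‖ • (x + (0:ℝ) • u)) := by
      rw [hp0]
      exact hasFDerivAt_dN hX2
    have h2 := h1.comp_hasDerivAt (0 : ℝ) hp
    have h3 := h2.clm_apply (hasDerivAt_const (0 : ℝ) h)
    exact h3.congr_deriv (by simp)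
  have hev1 : ∀ᶠ t : ℝ in 𝓝 0, x + t • u ≠ 0 := by
    apply hline.continuousAt.eventually_ne
    rw [hx0]; exact hx
  have hev2 : ∀ᶠ t : ℝ in 𝓝 0,
      DifferentiableAt ℝ (fun z : X => ‖z‖) (‖x + t • u‖ • x + ‖x‖ • (x + t • u)) := by
    have h1 : ∀ᶠ z in 𝓝 (‖x + (0:ℝ) • u‖ • x + ‖x‖ • (x + (0:ℝ) • u)),
        ContDiffAt ℝ 2 (fun z : X => ‖z‖) z := by
      rw [hp0]
      exact hX2.eventually (by norm_num)
    filter_upwards [hp.continuousAt.eventually h1] with t ht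
    exact ht.differentiableAt (by norm_num)
  have hev3 : ∀ᶠ t : ℝ in 𝓝 0,
      DifferentiableAt ℝ (fun z : Y => ‖z‖) (‖x + t • u‖ • T x + ‖x‖ • T (x + t • u)) := by
    have h1 : ∀ᶠ z in 𝓝 (‖x + (0:ℝ) • u‖ • T x + ‖x‖ • T (x + (0:ℝ) • u)),
        ContDiffAt ℝ 2 (fun z : Y => ‖z‖) z := by
      rw [hP0]
      exact hY2.eventually (by norm_num)
    filter_upwards [hP.continuousAt.eventually h1] with t ht
    exact ht.differentiableAt (by norm_num)
  have heq : (fun t : ℝ => dN (‖x + t • u‖ • T x + ‖x‖ • T (x + t • u)) (fderiv ℝ T x h))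
      =ᶠ[𝓝 0] (fun t : ℝ => dN (‖x + t • u‖ • x + ‖x‖ • (x + t • u)) h) := by
    filter_upwards [hev1, hev2, hev3] with t ht1 ht2 ht3
    have e1 : ‖-(x + t • u)‖ • x - ‖x‖ • (-(x + t • u))
        = ‖x + t • u‖ • x + ‖x‖ • (x + t • u) := by
      rw [_root_.norm_neg, smul_neg, sub_neg_eq_add]
    have e2 : ‖-(x + t • u)‖ • T x - ‖x‖ • T (-(x + t • u))
        = ‖x + t • u‖ • T x + ‖x‖ • T (x + t • u) := by
      rw [_root_.norm_neg, hT.map_neg, smul_neg, sub_neg_eq_add]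
    have h1 := hT.first_order (a := x) (b := -(x + t • u)) (h := h) (neg_ne_zero.mpr ht1)
      hXd (by rw [e1]; exact ht2) (by rw [e2]; exact ht3) hTx hh
    rw [e1, e2] at h1
    exact h1
  have h1 := (hQ.congr_of_eventuallyEq heq.symm).unique hq
  have h2 : (2 * ‖x‖) • fderiv ℝ dN ((2 * ‖x‖) • T x) = fderiv ℝ dN (T x) :=
    hess_smul hY hc
  have h3 : (2 * ‖x‖) • fderiv ℝ dN ((2 * ‖x‖) • x) = fderiv ℝ dN x :=
    hess_smul hX hc
  rw [← h2, ← h3]
  simp only [_root_.smul_apply, map_smul, smul_eq_mul] at h1 ⊢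
  have h4 := mul_left_cancel₀ hnx.ne' h1
  rw [h4]

theorem dN_snd_zero_loc (hT : SphereIso T) {x : X} (hx : x ≠ 0)
    (hX : ContDiffAt ℝ 2 (fun z : X => ‖z‖) x) (hY : ContDiffAt ℝ 2 (fun z : Y => ‖z‖) (T x))
    (hTC : ContDiffAt ℝ 2 T x) (u h : X) :
    dN (T x) (fderiv ℝ (fderiv ℝ T) x u h) = 0 := by
  have hXd : DifferentiableAt ℝ (fun z : X => ‖z‖) x := hX.differentiableAt (by norm_num)
  have hTd : DifferentiableAt ℝ T x := hTC.differentiableAt (by norm_num)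
  have key : ∀ u h : X, dN x u = 0 → dN x h = 0 →
      dN (T x) (fderiv ℝ (fderiv ℝ T) x u h) = 0 := by
    intro u h hu hh
    have h1 : HasFDerivAt (fun z => dN (T z)) ((fderiv ℝ dN (T x)).comp (fderiv ℝ T x)) x :=
      (hasFDerivAt_dN hY).comp x hTd.hasFDerivAt
    have h2 : HasFDerivAt (fun z => fderiv ℝ T z h) ((fderiv ℝ (fderiv ℝ T) x).flip h) x := by
      have := (hasFDerivAt_fderiv hTC).clm_apply (hasFDerivAt_const h x)
      refine this.congr_fderiv ?_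
      ext v; simp
    have h3 := h1.clm_apply h2
    have h4 : HasFDerivAt (fun z => dN z h) ((fderiv ℝ dN x).flip h) x := by
      have := (hasFDerivAt_dN hX).clm_apply (hasFDerivAt_const h x)
      refine this.congr_fderiv ?_
      ext v; simp
    have heq : (fun z => dN (T z) (fderiv ℝ T z h)) =ᶠ[𝓝 x] (fun z => dN z h) := by
      filter_upwards [hT.locHess_eventually hx hX hY hTC] with z hz
      exact hT.dN_apply (hz.2.2.2.differentiableAt (by norm_num))
        (hz.2.2.1.differentiableAt (by norm_num)) h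
    have h5 := (h3.congr_of_eventuallyEq heq.symm).unique h4
    have h6 := congrArg (fun L : X →L[ℝ] ℝ => L u) h5
    have h7 := hT.hess_tangent_loc hx hX hY hTC hu hh
    simp only [_root_.add_apply, ContinuousLinearMap.comp_apply, ContinuousLinearMap.flip_apply,
      h7] at h6
    linarith
  obtain ⟨α, u₀, hu₀, rfl⟩ := exists_decomp hx hXd u
  obtain ⟨β, h₀, hh₀, rfl⟩ := exists_decomp hx hXd h
  rw [hT.snd_decomp hTC]
  exact key u₀ h₀ hu₀ hh₀

theorem third_symm_loc (hT : SphereIso T) {x : X} (hx : x ≠ 0)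
    (hX : ContDiffAt ℝ 2 (fun z : X => ‖z‖) x) (hY : ContDiffAt ℝ 2 (fun z : Y => ‖z‖) (T x))
    (hTC : ContDiffAt ℝ 2 T x) (w u m : X) :
    fderiv ℝ dN (T x) (fderiv ℝ T x w) (fderiv ℝ (fderiv ℝ T) x u m)
      = fderiv ℝ dN (T x) (fderiv ℝ T x u) (fderiv ℝ (fderiv ℝ T) x w m) := by
  have hTd : DifferentiableAt ℝ T x := hTC.differentiableAt (by norm_num)
  set G : X → ℝ := fun y => dN (T y) (fderiv ℝ T y m - fderiv ℝ T x m) with hG
  set G' : X → X →L[ℝ] ℝ := fun y =>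
    ((fderiv ℝ dN (T y)).comp (fderiv ℝ T y)).flip (fderiv ℝ T y m - fderiv ℝ T x m) with hG'
  set G'' : X →L[ℝ] X →L[ℝ] ℝ :=
    (((fderiv ℝ dN (T x)).comp (fderiv ℝ T x)).flip).comp ((fderiv ℝ (fderiv ℝ T) x).flip m)
    with hG''
  have hd2 : ∀ y : X, ContDiffAt ℝ 2 T y →
      HasFDerivAt (fun z => fderiv ℝ T z m - fderiv ℝ T x m) ((fderiv ℝ (fderiv ℝ T) y).flip m) y := by
    intro y hy
    have := ((hasFDerivAt_fderiv hy).clm_apply (hasFDerivAt_const m y)).sub_const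
      (fderiv ℝ T x m)
    refine this.congr_fderiv ?_
    ext v; simp
  have h1 : ∀ᶠ y in 𝓝 x, HasFDerivAt G (G' y) y := by
    filter_upwards [hT.locHess_eventually hx hX hY hTC] with y hy
    obtain ⟨hy0, hy1, hy2, hy3⟩ := hy
    have h1 : HasFDerivAt (fun z => dN (T z)) ((fderiv ℝ dN (T y)).comp (fderiv ℝ T y)) y :=
      (hasFDerivAt_dN hy2).comp y (hy3.differentiableAt (by norm_num)).hasFDerivAt
    have h3 := h1.clm_apply (hd2 y hy3)
    refine h3.congr_fderiv ?_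
    ext v
    simp only [_root_.add_apply, ContinuousLinearMap.comp_apply, ContinuousLinearMap.flip_apply,
      hT.dN_snd_zero_loc hy0 hy1 hy2 hy3, zero_add, hG']
  have h2 : HasFDerivAt G' G'' x := by
    have hcont : ContinuousAt (fun y => ((fderiv ℝ dN (T y)).comp (fderiv ℝ T y)).flip) x := by
      have c1 : ContinuousAt (fun y => fderiv ℝ T y) x :=
        (hasFDerivAt_fderiv hTC).continuousAt
      have c2 : ContinuousAt (fun y => fderiv ℝ (dN : Y → Y →L[ℝ] ℝ) (T y)) x := by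
        have c3 : ContDiffAt ℝ 0 (fderiv ℝ (dN : Y → Y →L[ℝ] ℝ)) (T x) :=
          (contDiffAt_dN hY).fderiv_right (by norm_num)
        exact ContinuousAt.comp (f := T) c3.continuousAt hTd.continuousAt
      have c3 : ContinuousAt (fun y => (fderiv ℝ dN (T y)).comp (fderiv ℝ T y)) x :=
        c2.clm_comp c1
      exact (ContinuousLinearMap.flipₗᵢ ℝ X Y ℝ).continuous.continuousAt.comp c3
    have := hasFDerivAt_clm_apply_of_zero hcont (hd2 x hTC) (sub_self _)
    exact this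
  have h3 := second_derivative_symmetric_of_eventually h1 h2 u w
  simpa [hG''] using h3

end SphereIso

end Vale.Agent.P084
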