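import Mathlib
import Vale.Agent.Lib.P084.Local2
import Vale.Agent.Lib.P084.Wv

open Filter Topology Module Metric MeasureTheory Measure Set

namespace Vale.Agent.P084

section taylor_aux

variable {E F : Type*} [NormedAddCommGroup E] [NormedSpace ℝ E] [NormedAddCommGroup F]
  [NormedSpace ℝ F]

/-- `γ` has value `g0`, derivative `g1` and second derivative `g2` at `0`. -/
def TaylorD2 (γ : ℝ → F) (g0 g1 g2 : F) : Prop :=
  γ 0 = g0 ∧ ∃ γ' : ℝ → F, (∀ᶠ s in 𝓝 (0 : ℝ), HasDerivAt γ (γ' s) s) ∧ γ' 0 = g1 ∧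
    HasDerivAt γ' g2 0

theorem TaylorD2.smul {N : ℝ → ℝ} {γ : ℝ → F} {n0 n1 n2 : ℝ} {g0 g1 g2 : F}
    (hN : TaylorD2 N n0 n1 n2) (hγ : TaylorD2 γ g0 g1 g2) :
    TaylorD2 (fun s => N s • γ s) (n0 • g0) (n0 • g1 + n1 • g0)
      ((n0 • g2 + n1 • g1) + (n1 • g1 + n2 • g0)) := by
  obtain ⟨hN0, N', hN1, hN2, hN3⟩ := hN
  obtain ⟨hγ0, γ', hγ1, hγ2, hγ3⟩ := hγ
  refine ⟨by simp only [hN0, hγ0], fun s => N s • γ' s + N' s • γ s, ?_, ?_, ?_⟩
  · filter_upwards [hN1, hγ1] with s h1 h2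
    exact h1.smul h2
  · simp only [hN0, hN2, hγ0, hγ2]
  · have a1 := hN1.self_of_nhds
    have a2 := hγ1.self_of_nhds
    have b1 := a1.smul hγ3
    have b2 := hN3.smul a2
    have b3 := b1.add b2
    rw [hN0, hN2, hγ0, hγ2] at b3
    exact b3

theorem TaylorD2.sub {γ δ : ℝ → F} {g0 g1 g2 d0 d1 d2 : F}
    (hγ : TaylorD2 γ g0 g1 g2) (hδ : TaylorD2 δ d0 d1 d2) :
    TaylorD2 (fun s => γ s - δ s) (g0 - d0) (g1 - d1) (g2 - d2) := by
  obtain ⟨hN0, N', hN1, hN2, hN3⟩ := hγ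
  obtain ⟨hγ0, γ', hγ1, hγ2, hγ3⟩ := hδ
  refine ⟨by simp only [hN0, hγ0], fun s => N' s - γ' s, ?_, ?_, ?_⟩
  · filter_upwards [hN1, hγ1] with s h1 h2
    exact h1.sub h2
  · simp only [hN2, hγ2]
  · exact hN3.sub hγ3

theorem TaylorD2.congr_val {γ : ℝ → F} {g0 g1 g2 d0 d1 d2 : F}
    (hγ : TaylorD2 γ g0 g1 g2) (h0 : g0 = d0) (h1 : g1 = d1) (h2 : g2 = d2) :
    TaylorD2 γ d0 d1 d2 := by
  subst h0 h1 h2
  exact hγ

theorem TaylorD2.comp {f : E → F} {γ : ℝ → E} {g0 g1 g2 : E} (hf : ContDiffAt ℝ 2 f g0)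
    (hγ : TaylorD2 γ g0 g1 g2) :
    TaylorD2 (fun s => f (γ s)) (f g0) (fderiv ℝ f g0 g1)
      (fderiv ℝ (fderiv ℝ f) g0 g1 g1 + fderiv ℝ f g0 g2) := by
  obtain ⟨hγ0, γ', hγ1, hγ2, hγ3⟩ := hγ
  have hc : ContinuousAt γ 0 := hγ1.self_of_nhds.continuousAt
  have hfd : ∀ᶠ z in 𝓝 (γ 0), DifferentiableAt ℝ f z := by
    rw [hγ0]
    filter_upwards [hf.eventually (by norm_num)] with z hz
    exact hz.differentiableAt (by norm_num)
  refine ⟨by simp only [hγ0], fun s => fderiv ℝ f (γ s) (γ' s), ?_, ?_, ?_⟩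
  · filter_upwards [hγ1, hc.eventually hfd] with s h1 h2
    exact h2.hasFDerivAt.comp_hasDerivAt s h1
  · simp only [hγ0, hγ2]
  · have hd : ContDiffAt ℝ 1 (fderiv ℝ f) g0 := hf.fderiv_right (by norm_num)
    have hd' : HasFDerivAt (fderiv ℝ f) (fderiv ℝ (fderiv ℝ f) g0) (γ 0) := by
      rw [hγ0]
      exact (hd.differentiableAt (by norm_num)).hasFDerivAt
    have h1 := hd'.comp_hasDerivAt (0 : ℝ) hγ1.self_of_nhds
    have h2 := h1.clm_apply hγ3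
    simp only [Function.comp_apply, hγ0, hγ2] at h2
    exact h2

theorem TaylorD2.line (a p v : E) : TaylorD2 (fun s : ℝ => a + s • p + (s ^ 2 / 2) • v) a p v := by
  refine ⟨by simp, fun s => p + s • v, ?_, by simp, ?_⟩
  · apply Eventually.of_forall
    intro s
    have h1 : HasDerivAt (fun s : ℝ => s • p) ((1 : ℝ) • p) s := (hasDerivAt_id s).smul_const p
    have h2 : HasDerivAt (fun s : ℝ => s ^ 2 / 2) (((2 : ℕ) : ℝ) * s ^ (2 - 1) / 2) s :=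
      (hasDerivAt_pow 2 s).div_const 2
    have h3 := (h1.const_add a).add (h2.smul_const v)
    refine h3.congr_deriv ?_
    rw [one_smul]
    congr 2
    norm_num
  · have h1 : HasDerivAt (fun s : ℝ => s • v) ((1 : ℝ) • v) 0 := (hasDerivAt_id 0).smul_const v
    rw [one_smul] at h1
    exact h1.const_add p

theorem TaylorD2.isLittleO {γ : ℝ → F} {g0 g1 g2 : F} (hγ : TaylorD2 γ g0 g1 g2) :
    (fun s : ℝ => γ s - g0 - s • g1 - (s ^ 2 / 2) • g2) =o[𝓝 0] (fun s : ℝ => s ^ 2) := by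
  obtain ⟨hγ0, γ', hγ1, hγ2, hγ3⟩ := hγ
  rw [Asymptotics.isLittleO_iff]
  intro c hc
  rw [hasDerivAt_iff_isLittleO, Asymptotics.isLittleO_iff] at hγ3
  have h1 := hγ3 hc
  obtain ⟨δ, hδ, hball⟩ := Metric.eventually_nhds_iff_ball.1 (hγ1.and h1)
  have h2 : ∀ᶠ s in 𝓝 (0 : ℝ), s ∈ ball (0 : ℝ) δ := Metric.ball_mem_nhds 0 hδ
  filter_upwards [h2] with s hs
  have hs' : |s| < δ := by simpa using hs
  set R : ℝ → F := fun s => γ s - g0 - s • g1 - (s ^ 2 / 2) • g2 with hR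
  have hR0 : R 0 = 0 := by simp [hR, hγ0]
  have hder : ∀ t ∈ Metric.closedBall (0 : ℝ) |s|, HasDerivWithinAt R (γ' t - g1 - t • g2)
      (Metric.closedBall (0 : ℝ) |s|) t := by
    intro t ht
    have ht' : t ∈ ball (0 : ℝ) δ := by
      rw [mem_closedBall, dist_zero_right, Real.norm_eq_abs] at ht
      rw [mem_ball, dist_zero_right, Real.norm_eq_abs]
      linarith
    have e1 : HasDerivAt (fun s : ℝ => s • g1) ((1 : ℝ) • g1) t := (hasDerivAt_id t).smul_const g1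
    have e2 : HasDerivAt (fun s : ℝ => s ^ 2 / 2) (((2 : ℕ) : ℝ) * t ^ (2 - 1) / 2) t :=
      (hasDerivAt_pow 2 t).div_const 2
    have e3 := (((hball t ht').1.sub_const g0).sub e1).sub (e2.smul_const g2)
    have e4 : γ' t - (1 : ℝ) • g1 - (((2 : ℕ) : ℝ) * t ^ (2 - 1) / 2) • g2
        = γ' t - g1 - t • g2 := by
      rw [one_smul]
      congr 2
      norm_num
    rw [e4] at e3
    exact e3.hasDerivWithinAt
  have hbound : ∀ t ∈ Metric.closedBall (0 : ℝ) |s|, ‖γ' t - g1 - t • g2‖ ≤ c * |s| := by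
    intro t ht
    have ht2 : |t| ≤ |s| := by simpa using ht
    have ht' : t ∈ ball (0 : ℝ) δ := by
      rw [mem_ball, dist_zero_right, Real.norm_eq_abs]
      linarith
    have h3 := (hball t ht').2
    rw [hγ2, sub_zero, Real.norm_eq_abs] at h3
    exact h3.trans (mul_le_mul_of_nonneg_left ht2 hc.le)
  have key := (convex_closedBall (0 : ℝ) |s|).norm_image_sub_le_of_norm_hasDerivWithin_le
    hder hbound (mem_closedBall_self (abs_nonneg s)) (by simp : s ∈ closedBall (0 : ℝ) |s|)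
  rw [hR0, sub_zero, sub_zero, Real.norm_eq_abs] at key
  calc ‖R s‖ ≤ c * |s| * |s| := key
    _ = c * ‖s ^ 2‖ := by
      rw [Real.norm_eq_abs, abs_pow, mul_assoc, pow_two]

theorem taylor_final {γX : ℝ → E} {γY : ℝ → F} {A : ℝ} (hA : 0 < A) {H1 H2 : E} {G1 G2 : F}
    (hX : TaylorD2 γX 0 (A • H1) (A • H2)) (hY : TaylorD2 γY 0 (A • G1) (A • G2))
    (hn : ∀ s, ‖γY s‖ = ‖γX s‖) :
    (fun s : ℝ => ‖G1 + s • G2‖ - ‖H1 + s • H2‖) =o[𝓝[>] 0] (fun s : ℝ => s) := by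
  rw [Asymptotics.isLittleO_iff]
  intro c hc
  have hdouble : Tendsto (fun s : ℝ => 2 * s) (𝓝[>] 0) (𝓝 0) := by
    have h : Tendsto (fun s : ℝ => 2 * s) (𝓝 0) (𝓝 (2 * 0)) := (continuous_const_mul 2).tendsto 0
    rw [mul_zero] at h
    exact h.mono_left nhdsWithin_le_nhds
  have hcA : 0 < c * A / 4 := by positivity
  have hx := hdouble.eventually ((Asymptotics.isLittleO_iff.1 hX.isLittleO) hcA)
  have hy := hdouble.eventually ((Asymptotics.isLittleO_iff.1 hY.isLittleO) hcA)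
  filter_upwards [hx, hy, self_mem_nhdsWithin] with s h1 h2 hs
  have hs0 : 0 < s := hs
  have e1 : γX (2 * s) - 0 - (2 * s) • A • H1 - ((2 * s) ^ 2 / 2) • A • H2
      = γX (2 * s) - (2 * s * A) • (H1 + s • H2) := by
    module
  have e2 : γY (2 * s) - 0 - (2 * s) • A • G1 - ((2 * s) ^ 2 / 2) • A • G2
      = γY (2 * s) - (2 * s * A) • (G1 + s • G2) := by
    module
  rw [e1] at h1
  rw [e2] at h2
  have hA2 : 0 < 2 * s * A := by positivity
  have n1 : ‖(2 * s * A) • (H1 + s • H2)‖ = (2 * s * A) * ‖H1 + s • H2‖ := by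
    rw [norm_smul, Real.norm_of_nonneg hA2.le]
  have n2 : ‖(2 * s * A) • (G1 + s • G2)‖ = (2 * s * A) * ‖G1 + s • G2‖ := by
    rw [norm_smul, Real.norm_of_nonneg hA2.le]
  have m1 := abs_norm_sub_norm_le (γX (2 * s)) ((2 * s * A) • (H1 + s • H2))
  have m2 := abs_norm_sub_norm_le (γY (2 * s)) ((2 * s * A) • (G1 + s • G2))
  rw [n1] at m1
  rw [n2, hn] at m2
  have hsq : ‖(2 * s) ^ 2‖ = 4 * s ^ 2 := by
    rw [Real.norm_of_nonneg (by positivity)]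
    ring
  rw [hsq] at h1 h2
  have m3 := abs_le.1 (m1.trans h1)
  have m4 := abs_le.1 (m2.trans h2)
  have hfin : |(2 * s * A) * (‖G1 + s • G2‖ - ‖H1 + s • H2‖)| ≤ (2 * s * A) * (c * s) := by
    rw [abs_le]
    constructor
    · nlinarith [m3.1, m3.2, m4.1, m4.2]
    · nlinarith [m3.1, m3.2, m4.1, m4.2]
  rw [abs_mul, abs_of_pos hA2] at hfin
  have := le_of_mul_le_mul_left hfin hA2
  rw [Real.norm_eq_abs, Real.norm_eq_abs, abs_of_pos hs0]
  exact this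

end taylor_aux

variable {X Y : Type*} [NormedAddCommGroup X] [NormedSpace ℝ X] [NormedAddCommGroup Y]
  [NormedSpace ℝ Y] {T : X → Y}

namespace SphereIso

/-
PROOF.  Second order Taylor expansion along curves: if `γ : ℝ → F` is differentiable near `0` and `γ'` is differentiable at `0`
then `γ s = γ 0 + s γ' 0 + (s^2/2) γ'' 0 + o(s^2)` (mean value inequality applied to the remainder).  Put `u₁ = (σ+u)/2`, `u₂ = (σ-u)/2`,
`x(s) = a + s u₁ + (s^2/2) v`, `y(s) = a + s u₂`.  With `B = fderiv ℝ dN a`: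
`‖x(s)‖ = ‖a‖ + (s^2/2) B u₁ u₁ + o(s^2)`, `‖y(s)‖ = ‖a‖ + (s^2/2) B u₂ u₂ + o(s^2)` (use `dN a u = dN a σ = dN a v = 0`),
`T x(s) = T a + s D u₁ + (s^2/2)(D v + D² u₁ u₁) + o(s^2)`, `T y(s) = T a + s D u₂ + (s^2/2) D² u₂ u₂ + o(s^2)`.  Hence
`Wv x y = ‖y‖ x - ‖x‖ y = s ‖a‖ (u + (s/2) (v - ‖a‖⁻¹ B(u,σ) a) + o(s))` (as `B u₂ u₂ - B u₁ u₁ = - B u σ`), and
`Wv (T x) (T y) = s ‖a‖ (D u + (s/2) (D (v - ‖a‖⁻¹ B(u,σ) a) + D²(u,σ)) + o(s))` (`fderiv_self : D a = T a`; symmetry of second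
derivatives `snd_symm`, `hess_symm` in Local.lean / Local2.lean).  `SphereIso.norm_Wv` says that the norms are equal; divide by `s ‖a‖`, `s > 0`, and
substitute `s → 2 s`.
-/
theorem second_order_general (hT : SphereIso T) {a : X} (ha : a ≠ 0)
    (hX : ContDiffAt ℝ 2 (fun z : X => ‖z‖) a) (hTC : ContDiffAt ℝ 2 T a)
    {u σ v : X} (hu : dN a u = 0) (hσ : dN a σ = 0) (hv : dN a v = 0) :
    (fun s : ℝ => ‖fderiv ℝ T a u
        + s • (fderiv ℝ T a (v - (‖a‖⁻¹ * fderiv ℝ dN a u σ) • a) + fderiv ℝ (fderiv ℝ T) a u σ)‖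
      - ‖u + s • (v - (‖a‖⁻¹ * fderiv ℝ dN a u σ) • a)‖) =o[𝓝[>] 0] (fun s : ℝ => s) := by
  have hna : 0 < ‖a‖ := norm_pos_iff.mpr ha
  set u₁ : X := (1 / 2 : ℝ) • (σ + u) with hu₁
  set u₂ : X := (1 / 2 : ℝ) • (σ - u) with hu₂
  have hTd : DifferentiableAt ℝ T a := hTC.differentiableAt (by norm_num)
  have hx := TaylorD2.line a u₁ v
  have hy := TaylorD2.line a u₂ (0 : X)
  have hNx := TaylorD2.comp hX hx
  have hNy := TaylorD2.comp hX hy
  have hTx := TaylorD2.comp hTC hx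
  have hTy := TaylorD2.comp hTC hy
  have hdN1 : fderiv ℝ (fun z : X => ‖z‖) a u₁ = 0 := by
    change dN a u₁ = 0
    rw [hu₁, map_smul, map_add, hu, hσ, add_zero, smul_zero]
  have hdN2 : fderiv ℝ (fun z : X => ‖z‖) a u₂ = 0 := by
    change dN a u₂ = 0
    rw [hu₂, map_smul, map_sub, hu, hσ, sub_zero, smul_zero]
  have hdNv : fderiv ℝ (fun z : X => ‖z‖) a v = 0 := hv
  have hfd : (fderiv ℝ (fun z : X => ‖z‖)) = (dN : X → X →L[ℝ] ℝ) := rfl
  have hB : fderiv ℝ dN a u₂ u₂ - fderiv ℝ dN a u₁ u₁ = - fderiv ℝ dN a u σ := by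
    have hs := hess_symm hX σ u
    simp only [hu₁, hu₂, map_smul, map_add, map_sub, _root_.smul_apply, _root_.add_apply,
      _root_.sub_apply, smul_eq_mul, hs]
    ring
  have hD : fderiv ℝ (fderiv ℝ T) a u₁ u₁ - fderiv ℝ (fderiv ℝ T) a u₂ u₂
      = fderiv ℝ (fderiv ℝ T) a u σ := by
    have hs := snd_symm hTC σ u
    simp only [hu₁, hu₂, map_smul, map_add, map_sub, _root_.smul_apply, _root_.add_apply,
      _root_.sub_apply, hs]
    module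
  have hself : fderiv ℝ T a a = T a := hT.fderiv_self hTd
  have hr1 : ‖a‖ • (v - (‖a‖⁻¹ * fderiv ℝ dN a u σ) • a)
      = ‖a‖ • v - (fderiv ℝ dN a u σ) • a := by
    rw [smul_sub, smul_smul, ← mul_assoc, mul_inv_cancel₀ hna.ne', one_mul]
  have hr2 : ‖a‖ • (fderiv ℝ T a (v - (‖a‖⁻¹ * fderiv ℝ dN a u σ) • a)
        + fderiv ℝ (fderiv ℝ T) a u σ)
      = ‖a‖ • fderiv ℝ T a v - (fderiv ℝ dN a u σ) • T a
        + ‖a‖ • fderiv ℝ (fderiv ℝ T) a u σ := by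
    rw [map_sub, map_smul, hself, smul_add, smul_sub, smul_smul, ← mul_assoc,
      mul_inv_cancel₀ hna.ne', one_mul]
  have h1 : TaylorD2 (fun s : ℝ => ‖a + s • u₂ + (s ^ 2 / 2) • (0 : X)‖ • (a + s • u₁ + (s ^ 2 / 2) • v)
      - ‖a + s • u₁ + (s ^ 2 / 2) • v‖ • (a + s • u₂ + (s ^ 2 / 2) • (0 : X))) 0 (‖a‖ • u)
      (‖a‖ • (v - (‖a‖⁻¹ * fderiv ℝ dN a u σ) • a)) := by
    refine ((hNy.smul hx).sub (hNx.smul hy)).congr_val ?_ ?_ ?_
    · exact sub_self _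
    · rw [hdN1, hdN2, hu₁, hu₂]
      module
    · rw [hr1, hdN1, hdN2, hdNv, hfd, _root_.map_zero]
      have e : fderiv ℝ dN a u σ = fderiv ℝ dN a u₁ u₁ - fderiv ℝ dN a u₂ u₂ := by linarith
      rw [e]
      module
  have h2 : TaylorD2 (fun s : ℝ => ‖a + s • u₂ + (s ^ 2 / 2) • (0 : X)‖ • T (a + s • u₁ + (s ^ 2 / 2) • v)
      - ‖a + s • u₁ + (s ^ 2 / 2) • v‖ • T (a + s • u₂ + (s ^ 2 / 2) • (0 : X))) 0
      (‖a‖ • fderiv ℝ T a u)
      (‖a‖ • (fderiv ℝ T a (v - (‖a‖⁻¹ * fderiv ℝ dN a u σ) • a)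
        + fderiv ℝ (fderiv ℝ T) a u σ)) := by
    refine ((hNy.smul hTx).sub (hNx.smul hTy)).congr_val ?_ ?_ ?_
    · exact sub_self _
    · rw [hdN1, hdN2, hu₁, hu₂]
      simp only [map_smul, map_add, map_sub]
      module
    · rw [hr2, hdN1, hdN2, hdNv, hfd, _root_.map_zero, _root_.map_zero, ← hD]
      have e : fderiv ℝ dN a u σ = fderiv ℝ dN a u₁ u₁ - fderiv ℝ dN a u₂ u₂ := by linarith
      rw [e]
      module
  refine taylor_final hna h1 h2 ?_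
  intro s
  have h := hT.norm_Wv (a + s • u₁ + (s ^ 2 / 2) • v) (a + s • u₂ + (s ^ 2 / 2) • (0 : X))
  rw [hT.Wv_map, Wv_def] at h
  exact h

end SphereIso

end Vale.Agent.P084
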