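import Mathlib
import Vale.Agent.Lib.P084.Blow
import Vale.Agent.Lib.P084.Pointwise
import Vale.Agent.Lib.P084F.AlgSD
import Vale.Agent.Lib.P084F.LocHess
import Vale.Agent.Lib.P084F.Taylor
open Filter Topology Module Metric MeasureTheory Measure Set

namespace Vale.Agent.P084

/-- the Hessian of the norm is positive semidefinite -/
theorem sndZ_hess_nonneg {E : Type*} [NormedAddCommGroup E] [NormedSpace ℝ E] {x : E}
    (hE : ContDiffAt ℝ 2 (fun z : E => ‖z‖) x) (v : E) : 0 ≤ fderiv ℝ dN x v v := by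
  have h2 := hasDerivAt_comp_line (hasFDerivAt_dN hE) v
  have h3 : HasDerivAt (fun t : ℝ => dN (x + t • v) v) (fderiv ℝ dN x v v) 0 := by
    have h3 := h2.clm_apply (hasDerivAt_const (0 : ℝ) v)
    exact h3.congr_deriv (by simp)
  have h4 : HasDerivAt (fun t : ℝ => dN (x + t • v) v - dN x v) (fderiv ℝ dN x v v) 0 :=
    h3.sub_const _
  have h5 := tendsto_slope_of_zero h4 (by simp)
  have h6 : Tendsto (fun t : ℝ => t⁻¹ • (dN (x + t • v) v - dN x v)) (𝓝[>] 0)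
      (𝓝 (fderiv ℝ dN x v v)) :=
    h5.mono_left (nhdsWithin_mono _ (fun t ht => ne_of_gt ht))
  refine ge_of_tendsto h6 ?_
  have hev : ∀ᶠ y in 𝓝 x, ContDiffAt ℝ 2 (fun z : E => ‖z‖) y := hE.eventually (by simp)
  have hline : Tendsto (fun t : ℝ => x + t • v) (𝓝[>] 0) (𝓝 x) := by
    have hc : Continuous (fun t : ℝ => x + t • v) := by fun_prop
    have h7 := hc.tendsto 0
    rw [zero_smul, add_zero] at h7
    exact h7.mono_left nhdsWithin_le_nhds
  filter_upwards [hline.eventually hev, self_mem_nhdsWithin] with t ht htpos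
  have htpos' : (0 : ℝ) < t := htpos
  have h8 : dN (x + t • v) (x + t • v) = ‖x + t • v‖ :=
    dN_self (ht.differentiableAt (by norm_num))
  have h9 : dN x x = ‖x‖ := dN_self (hE.differentiableAt (by norm_num))
  have h10 := dN_le x (x + t • v)
  have h11 := dN_le (x + t • v) x
  rw [map_add, map_smul, smul_eq_mul] at h8 h10
  have h12 : t * dN x v ≤ t * dN (x + t • v) v := by linarith
  have h13 := le_of_mul_le_mul_left h12 htpos'
  rw [smul_eq_mul]
  exact mul_nonneg (inv_nonneg.2 htpos'.le) (by linarith)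

section psd

variable {E : Type*} [NormedAddCommGroup E] [NormedSpace ℝ E] {B : E →L[ℝ] E →L[ℝ] ℝ}

theorem sndZ_expand (hs : ∀ u v, B u v = B v u) (x y : E) (τ : ℝ) :
    B (x + τ • y) (x + τ • y) = B x x + 2 * τ * B x y + τ ^ 2 * B y y := by
  simp only [map_add, map_smul, _root_.add_apply, _root_.smul_apply, smul_eq_mul]
  rw [hs y x]
  ring

theorem sndZ_psd (hs : ∀ u v, B u v = B v u) (hp : ∀ v, 0 ≤ B v v) {u : E} (hu : B u u = 0)
    (v : E) : B u v = 0 := by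
  by_contra hne
  have h1 := hp (v + (-(B v v + 1) / (2 * B u v)) • u)
  rw [sndZ_expand hs, hu, hs v u] at h1
  have h2 : 2 * (-(B v v + 1) / (2 * B u v)) * B u v = -(B v v + 1) := by
    field_simp
  rw [h2] at h1
  linarith

theorem sndZ_event (hs : ∀ u v, B u v = B v u) (hp : ∀ v, 0 ≤ B v v) {x y : E}
    (h : 0 < B x x ∨ 0 < B y y) : ∀ᶠ τ : ℝ in atTop, 0 < B (x + τ • y) (x + τ • y) := by
  rcases (hp y).eq_or_lt with h0 | hpos
  · have h1 : B x y = 0 := by rw [hs, sndZ_psd hs hp h0.symm]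
    have hx : 0 < B x x := by
      rcases h with h | h
      · exact h
      · rw [← h0] at h
        exact absurd h (lt_irrefl _)
    refine Eventually.of_forall fun τ => ?_
    rw [sndZ_expand hs, h1, ← h0]
    linarith
  · filter_upwards [eventually_ge_atTop ((2 * |B x y| + 1) / B y y), eventually_gt_atTop 0]
      with τ hτ hτ0
    rw [sndZ_expand hs]
    have h1 : 2 * |B x y| + 1 ≤ τ * B y y := by
      rwa [div_le_iff₀ hpos] at hτ
    have h2 : τ * (2 * |B x y| + 1) ≤ τ * (τ * B y y) := mul_le_mul_of_nonneg_left h1 hτ0.le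
    have h3 : -|B x y| ≤ B x y := neg_abs_le _
    have h4 : τ * -|B x y| ≤ τ * B x y := mul_le_mul_of_nonneg_left h3 hτ0.le
    have h5 := hp x
    nlinarith [h2, h4, h5, hτ0]

theorem sndZ_exists_pos (hs : ∀ u v, B u v = B v u) (hp : ∀ v, 0 ≤ B v v) (h : B ≠ 0) :
    ∃ v, 0 < B v v := by
  by_contra hcon
  push Not at hcon
  apply h
  ext u v
  have h1 : B u u = 0 := le_antisymm (hcon u) (hp u)
  simpa using sndZ_psd hs hp h1 v

end psd

/-- a support functional is nonpositive in directions of sublinear growth -/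
theorem sndZ_support {V : Type*} [NormedAddCommGroup V] [NormedSpace ℝ V] {u k : V}
    (h : (fun r : ℝ => ‖u + r • k‖ - ‖u‖) =o[𝓝[>] 0] (fun r : ℝ => r)) {ψ : V →L[ℝ] ℝ}
    (hψ : ‖ψ‖ ≤ 1) (hu : ψ u = ‖u‖) : ψ k ≤ 0 := by
  by_contra hcon
  push Not at hcon
  have h1 := h.def (show 0 < ψ k / 2 by linarith)
  have h2 : ∀ᶠ r : ℝ in 𝓝[>] 0, False := by
    filter_upwards [h1, self_mem_nhdsWithin] with r hr hr0
    have hr0' : (0 : ℝ) < r := hr0
    rw [Real.norm_eq_abs, Real.norm_eq_abs, abs_of_pos hr0'] at hr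
    have h3 := (le_abs_self _).trans hr
    have h4 : ψ (u + r • k) ≤ ‖u + r • k‖ := by
      calc ψ (u + r • k) ≤ ‖ψ (u + r • k)‖ := Real.le_norm_self _
        _ ≤ ‖ψ‖ * ‖u + r • k‖ := ψ.le_opNorm _
        _ ≤ 1 * ‖u + r • k‖ := mul_le_mul_of_nonneg_right hψ (norm_nonneg _)
        _ = _ := one_mul _
    rw [map_add, map_smul, hu, smul_eq_mul] at h4
    nlinarith
  exact (h2.exists).elim fun _ h => h

variable {X Y : Type*} [NormedAddCommGroup X] [NormedSpace ℝ X] [NormedAddCommGroup Y]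
  [NormedSpace ℝ Y] {T : X → Y}

namespace SphereIso

theorem sndZ_surj (hT : SphereIso T) [FiniteDimensional ℝ X] [FiniteDimensional ℝ Y]
    (hfin : finrank ℝ X = finrank ℝ Y) {a : X} (ha : a ≠ 0)
    (hX : ContDiffAt ℝ 2 (fun z : X => ‖z‖) a) (hY : ContDiffAt ℝ 2 (fun z : Y => ‖z‖) (T a))
    (hTC : ContDiffAt ℝ 2 T a) (y : Y) : ∃ x : X, fderiv ℝ T a x = y := by
  have hinj := hT.fderiv_injective ha (hTC.differentiableAt (by norm_num))
    (hX.differentiableAt (by norm_num)) (hY.differentiableAt (by norm_num))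
  have hinj' : Function.Injective (fderiv ℝ T a : X →ₗ[ℝ] Y) := hinj
  have hsurj := (LinearMap.injective_iff_surjective_of_finrank_eq_finrank hfin).1 hinj'
  exact hsurj y

theorem sndZ_H (hT : SphereIso T) {a : X} (ha : a ≠ 0)
    (hX : ContDiffAt ℝ 2 (fun z : X => ‖z‖) a) (hTC : ContDiffAt ℝ 2 T a)
    {u s k : X} (hu : dN a u = 0) (hs : dN a s = 0) (hus : fderiv ℝ dN a u s = 0)
    (hk : dN a k = 0) (hDk : fderiv ℝ T a k = fderiv ℝ (fderiv ℝ T) a u s) :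
    (fun r : ℝ => ‖u + r • k‖ - ‖u‖) =o[𝓝[>] 0] (fun r : ℝ => r) := by
  have h1 := hT.second_order_general ha hX hTC hu hs (_root_.map_zero (dN a))
  refine h1.congr_left fun r => ?_
  rw [hus, mul_zero, zero_smul, sub_zero, _root_.map_zero, zero_add, smul_zero, add_zero, ← hDk,
    ← map_smul, ← map_add, hT.norm_fderiv_tangent ha (hTC.differentiableAt (by norm_num))
      (hX.differentiableAt (by norm_num))]
  rw [map_add, map_smul, hu, hk, smul_zero, add_zero]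


theorem sndZ_algebra (hT : SphereIso T) [FiniteDimensional ℝ X] [FiniteDimensional ℝ Y]
    (hfin : finrank ℝ X = finrank ℝ Y) {a : X} (ha : a ≠ 0)
    (hX : ContDiffAt ℝ 2 (fun z : X => ‖z‖) a) (hY : ContDiffAt ℝ 2 (fun z : Y => ‖z‖) (T a))
    (hTC : ContDiffAt ℝ 2 T a) :
    ∃ z : X, dN a z = 0 ∧ ∀ u v, dN a u = 0 → dN a v = 0 →
      fderiv ℝ (fderiv ℝ T) a u v = (fderiv ℝ dN a u v) • fderiv ℝ T a z := by
  have hXd : DifferentiableAt ℝ (fun z : X => ‖z‖) a := hX.differentiableAt (by norm_num)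
  have hTx0 : T a ≠ 0 := hT.map_ne_zero ha
  have hYd : DifferentiableAt ℝ (fun z : Y => ‖z‖) (T a) := hY.differentiableAt (by norm_num)
  have hTd : DifferentiableAt ℝ T a := hTC.differentiableAt (by norm_num)
  have hinj := hT.fderiv_injective ha hTd hXd hYd
  set D : X →ₗ[ℝ] Y := (fderiv ℝ T a : X →ₗ[ℝ] Y) with hD
  have hDinj : Function.Injective D := hinj
  set e : X ≃ₗ[ℝ] Y := D.linearEquivOfInjective hDinj hfin with he
  have heapp : ∀ v, e v = fderiv ℝ T a v := fun v => rfl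
  set V : Submodule ℝ X := LinearMap.ker ((dN a : X →ₗ[ℝ] ℝ)) with hV
  have hVmem : ∀ v : X, v ∈ V ↔ dN a v = 0 := fun v => by
    rw [hV, LinearMap.mem_ker]; rfl
  have hV0 : ∀ v : V, dN a (v : X) = 0 := fun v => (hVmem _).mp v.2
  have hmem : ∀ u v : X, e.symm (fderiv ℝ (fderiv ℝ T) a u v) ∈ V := by
    intro u v
    rw [hVmem, ← hT.dN_apply hTd hYd, ← heapp, LinearEquiv.apply_symm_apply]
    exact hT.dN_snd_zero_loc ha hX hY hTC u v
  let m : V →ₗ[ℝ] V →ₗ[ℝ] V := LinearMap.mk₂ ℝ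
    (fun u v : V => (⟨e.symm (fderiv ℝ (fderiv ℝ T) a (u : X) (v : X)), hmem _ _⟩ : V))
    (fun u u' v => by ext; simp)
    (fun c u v => by ext; simp)
    (fun u v v' => by ext; simp)
    (fun c u v => by ext; simp)
  have hm : ∀ u v : V, fderiv ℝ T a ((m u v : V) : X) = fderiv ℝ (fderiv ℝ T) a (u : X) (v : X) := by
    intro u v
    rw [← heapp]
    exact LinearEquiv.apply_symm_apply e _
  let B : V →ₗ[ℝ] V →ₗ[ℝ] ℝ := LinearMap.mk₂ ℝ
    (fun u v : V => fderiv ℝ dN a (u : X) (v : X))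
    (fun u u' v => by simp)
    (fun c u v => by simp)
    (fun u v v' => by simp)
    (fun c u v => by simp)
  have hB : ∀ u v : V, B u v = fderiv ℝ dN a (u : X) (v : X) := fun u v => rfl
  have hBs : ∀ u v, B u v = B v u := fun u v => by rw [hB, hB, hess_symm hX]
  have hBp : ∀ v, 0 ≤ B v v := fun v => by
    rw [hB]
    exact sndZ_hess_nonneg hX _
  have hms : ∀ u v, m u v = m v u := by
    intro u v
    apply Subtype.ext
    apply hinj
    rw [hm, hm, snd_symm hTC]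
  have hH : ∀ u v : V, fderiv ℝ dN (T a) (fderiv ℝ T a (u : X)) (fderiv ℝ T a (v : X))
      = fderiv ℝ dN a (u : X) (v : X) := fun u v =>
    hT.hess_tangent_loc ha hX hY hTC (hV0 u) (hV0 v)
  have hmB : ∀ u v w, B (m u v) w = B u (m v w) := by
    intro u v w
    rw [hB, hB, ← hH, ← hH, hm, hm, hess_symm hY, hT.third_symm_loc ha hX hY hTC,
      snd_symm hTC (w : X) (v : X)]
  have hHH : ∀ u s : V, u ≠ 0 → B u s = 0 → ∀ ψ : V →L[ℝ] ℝ, ‖ψ‖ ≤ 1 → ψ u = ‖u‖ →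
      ψ (m u s) = 0 := by
    intro u s _ hus ψ hψ hψu
    have h1 := hT.sndZ_H ha hX hTC (hV0 u) (hV0 s) hus (hV0 (m u s)) (hm u s)
    have h2 := hT.sndZ_H ha hX hTC (hV0 u) (hV0 (-s))
      (by
        have h3 : B u (-s) = 0 := by rw [_root_.map_neg, hus, neg_zero]
        exact h3)
      (hV0 (m u (-s))) (hm u (-s))
    have h3 : ψ (m u s) ≤ 0 := sndZ_support (u := u) (k := m u s) h1 hψ hψu
    have h4 : ψ (m u (-s)) ≤ 0 := sndZ_support (u := u) (k := m u (-s)) h2 hψ hψu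
    rw [_root_.map_neg, _root_.map_neg] at h4
    linarith
  obtain ⟨z, hz⟩ := algebra_semidef B hBs hBp m hms hmB hHH
  refine ⟨(z : X), hV0 z, ?_⟩
  intro u v hu hv
  have h1 := hm ⟨u, (hVmem _).mpr hu⟩ ⟨v, (hVmem _).mpr hv⟩
  rw [hz] at h1
  rw [← h1, hB]
  simp

theorem sndZ_hess_decomp {x : X} (hX : ContDiffAt ℝ 2 (fun z : X => ‖z‖) x) (α β : ℝ) (u h : X) :
    fderiv ℝ dN x (α • x + u) (β • x + h) = fderiv ℝ dN x u h := by
  have h1 : ∀ v, fderiv ℝ dN x x v = 0 := fun v => hess_self_left hX v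
  have h2 : ∀ v, fderiv ℝ dN x v x = 0 := fun v => by
    rw [hess_symm hX, h1]
  simp only [map_add, map_smul, _root_.add_apply, _root_.smul_apply, h1, h2, smul_zero, zero_add]

theorem snd_eq_smul (hT : SphereIso T) [FiniteDimensional ℝ X] [FiniteDimensional ℝ Y]
    (hfin : finrank ℝ X = finrank ℝ Y) {a : X} (ha : a ≠ 0)
    (hX : ContDiffAt ℝ 2 (fun z : X => ‖z‖) a) (hY : ContDiffAt ℝ 2 (fun z : Y => ‖z‖) (T a))
    (hTC : ContDiffAt ℝ 2 T a) :
    ∃ ζ : Y, dN (T a) ζ = 0 ∧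
      ∀ u v, fderiv ℝ (fderiv ℝ T) a u v = (fderiv ℝ dN a u v) • ζ := by
  obtain ⟨z, hz, hzz⟩ := hT.sndZ_algebra hfin ha hX hY hTC
  have hXd : DifferentiableAt ℝ (fun z : X => ‖z‖) a := hX.differentiableAt (by norm_num)
  refine ⟨fderiv ℝ T a z, ?_, ?_⟩
  · rw [hT.dN_apply (hTC.differentiableAt (by norm_num)) (hY.differentiableAt (by norm_num))]
    exact hz
  · intro u v
    obtain ⟨α, u₀, hu₀, rfl⟩ := exists_decomp ha hXd u
    obtain ⟨β, v₀, hv₀, rfl⟩ := exists_decomp ha hXd v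
    rw [hT.snd_decomp hTC, sndZ_hess_decomp hX]
    exact hzz u₀ v₀ hu₀ hv₀

theorem snd_zero_of_posDef (hT : SphereIso T) [FiniteDimensional ℝ X] [FiniteDimensional ℝ Y]
    (hfin : finrank ℝ X = finrank ℝ Y) (hdim : 3 ≤ finrank ℝ X) {a : X} (ha : a ≠ 0)
    (hX : ContDiffAt ℝ 2 (fun z : X => ‖z‖) a) (hY : ContDiffAt ℝ 2 (fun z : Y => ‖z‖) (T a))
    (hTC : ContDiffAt ℝ 2 T a)
    (hpos : ∀ v : X, dN a v = 0 → v ≠ 0 → 0 < fderiv ℝ dN a v v) :
    fderiv ℝ (fderiv ℝ T) a = 0 := by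
  obtain ⟨z, hz, hzz⟩ := hT.sndZ_algebra hfin ha hX hY hTC
  have hXd : DifferentiableAt ℝ (fun z : X => ‖z‖) a := hX.differentiableAt (by norm_num)
  -- the vector vanishes
  have hz0 : z = 0 := by
    by_contra hzne
    -- a nonzero tangent vector orthogonal to `z`
    have hw : ∃ w : X, w ≠ 0 ∧ dN a w = 0 ∧ fderiv ℝ dN a z w = 0 := by
      let F : X →ₗ[ℝ] (ℝ × ℝ) := ((dN a : X →ₗ[ℝ] ℝ)).prod ((fderiv ℝ dN a z : X →L[ℝ] ℝ) : X →ₗ[ℝ] ℝ)
      have hker : LinearMap.ker F ≠ ⊥ := by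
        apply LinearMap.ker_ne_bot_of_finrank_lt
        rw [Module.finrank_prod, Module.finrank_self]
        omega
      obtain ⟨w, hwF, hw0⟩ := Submodule.exists_mem_ne_zero_of_ne_bot hker
      rw [LinearMap.mem_ker] at hwF
      exact ⟨w, hw0, congrArg Prod.fst hwF, congrArg Prod.snd hwF⟩
    obtain ⟨w, hw0, hwV, hwz⟩ := hw
    have h1 := hT.third_symm_loc ha hX hY hTC w z w
    rw [hzz z w hz hwV, hzz w w hwV hwV, map_smul, map_smul,
      hT.hess_tangent_loc ha hX hY hTC hwV hz, hT.hess_tangent_loc ha hX hY hTC hz hz, hwz,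
      zero_smul, smul_eq_mul] at h1
    have h2 := hpos w hwV hw0
    have h3 := hpos z hz hzne
    have h4 := mul_pos h2 h3
    linarith
  ext u v
  obtain ⟨α, u₀, hu₀, rfl⟩ := exists_decomp ha hXd u
  obtain ⟨β, v₀, hv₀, rfl⟩ := exists_decomp ha hXd v
  rw [hT.snd_decomp hTC, hzz u₀ v₀ hu₀ hv₀, hz0, _root_.map_zero, smul_zero]
  simp


/-- the second order identity in all directions -/
theorem sndZ_star (hT : SphereIso T) {a : X} (ha : a ≠ 0)
    (hX : ContDiffAt ℝ 2 (fun z : X => ‖z‖) a) (hTC : ContDiffAt ℝ 2 T a) {ζ : Y}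
    (hζ : ∀ u v, fderiv ℝ (fderiv ℝ T) a u v = (fderiv ℝ dN a u v) • ζ)
    {u : X} (hu : dN a u = 0) (huu : fderiv ℝ dN a u u ≠ 0) (y : X) :
    (fun s : ℝ => ‖fderiv ℝ T a u + s • (fderiv ℝ T a y - dN a y • ζ)‖ - ‖u + s • y‖)
      =o[𝓝[>] 0] (fun s : ℝ => s) := by
  have hna : ‖a‖ ≠ 0 := norm_ne_zero_iff.mpr ha
  have hXd : DifferentiableAt ℝ (fun z : X => ‖z‖) a := hX.differentiableAt (by norm_num)
  set c : ℝ := -(dN a y) / fderiv ℝ dN a u u with hc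
  have hσ : dN a (c • u) = 0 := by rw [map_smul, hu, smul_zero]
  have hBσ : fderiv ℝ dN a u (c • u) = -(dN a y) := by
    rw [map_smul, smul_eq_mul, hc]
    field_simp
  have hv : dN a (y - (‖a‖⁻¹ * dN a y) • a) = 0 := by
    rw [map_sub, map_smul, dN_self hXd, smul_eq_mul]
    field_simp
    ring
  have h1 := hT.second_order_general ha hX hTC hu hσ hv
  rw [hBσ] at h1
  have h2 : y - (‖a‖⁻¹ * dN a y) • a - (‖a‖⁻¹ * -(dN a y)) • a = y := by
    rw [mul_neg, neg_smul, sub_neg_eq_add, sub_add_cancel]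
  rw [h2, hζ, hBσ, neg_smul, ← sub_eq_add_neg] at h1
  exact h1

theorem sndZ_slope_le {F : Type*} [NormedAddCommGroup F] [NormedSpace ℝ F] {U : Ultrafilter ℝ}
    (hU : (U : Filter ℝ) ≤ 𝓝[>] (0 : ℝ)) {x : F} {q : F → ℝ} (hq : IsSlope U x q) {w d : F}
    (h : ∀ k : ℕ, q (w + (k : ℝ) • d) = q w) : q d ≤ 0 := by
  have hq0 : q 0 = 0 := by
    have h1 := hq 0
    simp only [smul_zero, add_zero, sub_self] at h1
    exact tendsto_nhds_unique h1 tendsto_const_nhds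
  have hcont : Continuous q := hq.continuous hU
  have h1 : Tendsto (fun k : ℕ => q (d + (1 / ((k : ℝ) + 1)) • (w + (-1 : ℝ) • d + d)
      - (1 / ((k : ℝ) + 1)) • d)) atTop (𝓝 (q d)) := by
    have h2 : Tendsto (fun k : ℕ => (1 : ℝ) / ((k : ℝ) + 1)) atTop (𝓝 0) :=
      tendsto_one_div_add_atTop_nhds_zero_nat
    have h3 : Tendsto (fun k : ℕ => d + (1 / ((k : ℝ) + 1)) • (w + (-1 : ℝ) • d + d)
      - (1 / ((k : ℝ) + 1)) • d) atTop (𝓝 (d + (0 : ℝ) • (w + (-1 : ℝ) • d + d) - (0 : ℝ) • d)) :=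
      (tendsto_const_nhds.add (h2.smul_const _)).sub (h2.smul_const _)
    rw [zero_smul, zero_smul, add_zero, sub_zero] at h3
    exact (hcont.tendsto d).comp h3
  have h4 : Tendsto (fun k : ℕ => (1 / ((k : ℝ) + 1)) * q w) atTop (𝓝 (0 * q w)) :=
    tendsto_one_div_add_atTop_nhds_zero_nat.mul_const _
  rw [zero_mul] at h4
  refine le_of_tendsto_of_tendsto h1 h4 (Eventually.of_forall fun k => ?_)
  have hk : (0 : ℝ) < (k : ℝ) + 1 := by positivity
  have h5 := hq.convex hU (c := 1 / ((k : ℝ) + 1)) (by positivity)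
    (by rw [div_le_one hk]; linarith [(Nat.cast_nonneg k : (0 : ℝ) ≤ k)]) (w + (k : ℝ) • d) 0
  rw [hq0, mul_zero, add_zero, smul_zero, add_zero, h k] at h5
  have h6 : d + (1 / ((k : ℝ) + 1)) • (w + (-1 : ℝ) • d + d) - (1 / ((k : ℝ) + 1)) • d =
      (1 / ((k : ℝ) + 1)) • (w + (k : ℝ) • d) := by
    have h7 : d = (1 / ((k : ℝ) + 1)) • (((k : ℝ) + 1) • d) := by
      rw [smul_smul, one_div_mul_cancel hk.ne', one_smul]
    nth_rewrite 1 [h7]
    module
  show q (d + (1 / ((k : ℝ) + 1)) • (w + (-1 : ℝ) • d + d) - (1 / ((k : ℝ) + 1)) • d) ≤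
    1 / ((k : ℝ) + 1) * q w
  rw [h6]
  exact h5

theorem sndZ_slope_norm {U : Ultrafilter ℝ} (hU : (U : Filter ℝ) ≤ 𝓝[>] (0 : ℝ)) {u e : X}
    {c : ℝ} (hc : c ≤ 0) (h : Tendsto (fun s : ℝ => s⁻¹ * (‖u + s • e‖ - ‖u‖)) U (𝓝 c))
    {t : ℝ} (ht : 0 < t) : ‖u‖ ≤ ‖u - t • e‖ := by
  have hpos : ∀ᶠ s : ℝ in U, 0 < s := hU self_mem_nhdsWithin
  have h1 : Tendsto (fun s : ℝ => -t * (s⁻¹ * (‖u + s • e‖ - ‖u‖))) U (𝓝 (-t * c)) :=
    h.const_mul _
  have h2 : -t * c ≤ ‖u - t • e‖ - ‖u‖ := by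
    refine le_of_tendsto h1 ?_
    filter_upwards [hpos] with s hs
    have h3 : (t + s) • u = t • (u + s • e) + s • (u - t • e) := by module
    have h4 : (t + s) * ‖u‖ ≤ t * ‖u + s • e‖ + s * ‖u - t • e‖ := by
      have h5 : ‖(t + s) • u‖ = (t + s) * ‖u‖ := by
        rw [norm_smul, Real.norm_of_nonneg (by linarith)]
      rw [← h5, h3]
      refine (norm_add_le _ _).trans (le_of_eq ?_)
      rw [norm_smul, norm_smul, Real.norm_of_nonneg ht.le, Real.norm_of_nonneg hs.le]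
    have h6 : -t * (s⁻¹ * (‖u + s • e‖ - ‖u‖)) = s⁻¹ * (-t * (‖u + s • e‖ - ‖u‖)) := by ring
    rw [h6, inv_mul_le_iff₀ hs]
    linarith
  have h7 : 0 ≤ -t * c := by nlinarith
  linarith

theorem sndZ_key (hT : SphereIso T) {a a' : X} (ha : a ≠ 0) (ha' : a' ≠ 0)
    (hX : ContDiffAt ℝ 2 (fun z : X => ‖z‖) a) (hTC : ContDiffAt ℝ 2 T a)
    (hX' : ContDiffAt ℝ 2 (fun z : X => ‖z‖) a') (hTC' : ContDiffAt ℝ 2 T a')
    (hp : dN a = dN a') (hD : fderiv ℝ T a = fderiv ℝ T a') {z z' : X}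
    (hz : dN a z = 0) (hz' : dN a z' = 0)
    (hζ : ∀ u v, fderiv ℝ (fderiv ℝ T) a u v = (fderiv ℝ dN a u v) • fderiv ℝ T a z)
    (hζ' : ∀ u v, fderiv ℝ (fderiv ℝ T) a' u v = (fderiv ℝ dN a' u v) • fderiv ℝ T a z')
    {u : X} (hu : dN a u = 0) (huu : 0 < fderiv ℝ dN a u u) (huu' : 0 < fderiv ℝ dN a' u u)
    {t : ℝ} (ht : 0 < t) : ‖u‖ ≤ ‖u - t • (z - z')‖ := by
  have hXd : DifferentiableAt ℝ (fun z : X => ‖z‖) a := hX.differentiableAt (by norm_num)
  have hTd : DifferentiableAt ℝ T a := hTC.differentiableAt (by norm_num)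
  have hna : ‖a‖ ≠ 0 := norm_ne_zero_iff.mpr ha
  set U : Ultrafilter ℝ := Ultrafilter.of (𝓝[>] (0 : ℝ)) with hUdef
  have hU : (U : Filter ℝ) ≤ 𝓝[>] (0 : ℝ) := Ultrafilter.of_le _
  obtain ⟨q, hq⟩ := exists_isSlope hU (fderiv ℝ T a u)
  have hstar : ∀ y : X, q (fderiv ℝ T a y - dN a y • fderiv ℝ T a z) =
      q (fderiv ℝ T a y - dN a y • fderiv ℝ T a z') := by
    intro y
    have h1 := hT.sndZ_star ha hX hTC hζ hu huu.ne' y
    have h2 := hT.sndZ_star ha' hX' hTC' hζ' (hp ▸ hu) huu'.ne' y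
    rw [← hp, ← hD] at h2
    have h3 := (h1.sub h2).tendsto_div_nhds_zero
    have h4 := (hq (fderiv ℝ T a y - dN a y • fderiv ℝ T a z)).sub
      (hq (fderiv ℝ T a y - dN a y • fderiv ℝ T a z'))
    have h5 := tendsto_nhds_unique h4 ((h3.mono_left hU).congr fun s => by
      simp only [smul_eq_mul]
      rw [div_eq_inv_mul]
      ring)
    linarith
  set e : X := z - z' with he
  have hpe : dN a e = 0 := by rw [he, map_sub, hz, hz', sub_zero]
  have hbasic : ∀ y₁ : X, q (fderiv ℝ T a (y₁ + dN a y₁ • e)) = q (fderiv ℝ T a y₁) := by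
    intro y₁
    have h1 := hstar (y₁ + dN a y₁ • z)
    have h2 : dN a (y₁ + dN a y₁ • z) = dN a y₁ := by
      rw [map_add, map_smul, hz, smul_zero, add_zero]
    rw [h2] at h1
    have h3 : fderiv ℝ T a (y₁ + dN a y₁ • z) - dN a y₁ • fderiv ℝ T a z = fderiv ℝ T a y₁ := by
      rw [map_add, map_smul, add_sub_cancel_right]
    have h4 : fderiv ℝ T a (y₁ + dN a y₁ • z) - dN a y₁ • fderiv ℝ T a z' =
        fderiv ℝ T a (y₁ + dN a y₁ • e) := by
      rw [he, map_add, map_smul, map_add, map_smul, map_sub]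
      module
    rw [h3, h4] at h1
    exact h1.symm
  have hiter : ∀ (y₁ : X) (k : ℕ), q (fderiv ℝ T a (y₁ + ((k : ℝ) * dN a y₁) • e)) =
      q (fderiv ℝ T a y₁) := by
    intro y₁ k
    induction k with
    | zero => simp
    | succ k ih =>
      have h1 := hbasic (y₁ + ((k : ℝ) * dN a y₁) • e)
      have h2 : dN a (y₁ + ((k : ℝ) * dN a y₁) • e) = dN a y₁ := by
        rw [map_add, map_smul, hpe, smul_zero, add_zero]
      rw [h2] at h1
      have h3 : y₁ + ((k : ℝ) * dN a y₁) • e + dN a y₁ • e =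
          y₁ + (((k + 1 : ℕ) : ℝ) * dN a y₁) • e := by
        push_cast
        module
      rw [← h3, h1, ih]
  have hqe : q (fderiv ℝ T a e) ≤ 0 := by
    refine sndZ_slope_le hU hq (w := fderiv ℝ T a (‖a‖⁻¹ • a)) fun k => ?_
    have h1 := hiter (‖a‖⁻¹ • a) k
    have h2 : dN a (‖a‖⁻¹ • a) = 1 := by
      rw [map_smul, dN_self hXd, smul_eq_mul, inv_mul_cancel₀ hna]
    rw [h2, mul_one, map_add, map_smul _ (k : ℝ) e] at h1
    exact h1
  refine sndZ_slope_norm hU hqe ?_ ht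
  refine (hq (fderiv ℝ T a e)).congr fun s => ?_
  rw [smul_eq_mul, ← map_smul, ← map_add,
    hT.norm_fderiv_tangent ha hTd hXd (h := u + s • e)
      (by rw [map_add, map_smul, hu, hpe, smul_zero, add_zero]),
    hT.norm_fderiv_tangent ha hTd hXd hu]

theorem zeta_unique (hT : SphereIso T) [FiniteDimensional ℝ X] [FiniteDimensional ℝ Y]
    (hfin : finrank ℝ X = finrank ℝ Y) {a a' : X} (ha : a ≠ 0) (ha' : a' ≠ 0)
    (hX : ContDiffAt ℝ 2 (fun z : X => ‖z‖) a) (hY : ContDiffAt ℝ 2 (fun z : Y => ‖z‖) (T a))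
    (hTC : ContDiffAt ℝ 2 T a)
    (hX' : ContDiffAt ℝ 2 (fun z : X => ‖z‖) a') (hY' : ContDiffAt ℝ 2 (fun z : Y => ‖z‖) (T a'))
    (hTC' : ContDiffAt ℝ 2 T a')
    (hp : dN a = dN a') (hD : fderiv ℝ T a = fderiv ℝ T a')
    {ζ ζ' : Y} (hζ0 : dN (T a) ζ = 0) (hζ0' : dN (T a') ζ' = 0)
    (hζ : ∀ u v, fderiv ℝ (fderiv ℝ T) a u v = (fderiv ℝ dN a u v) • ζ)
    (hζ' : ∀ u v, fderiv ℝ (fderiv ℝ T) a' u v = (fderiv ℝ dN a' u v) • ζ')
    (hB : fderiv ℝ dN a ≠ 0) (hB' : fderiv ℝ dN a' ≠ 0) : ζ = ζ' := by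
  have hXd : DifferentiableAt ℝ (fun z : X => ‖z‖) a := hX.differentiableAt (by norm_num)
  have hXd' : DifferentiableAt ℝ (fun z : X => ‖z‖) a' := hX'.differentiableAt (by norm_num)
  have hTd : DifferentiableAt ℝ T a := hTC.differentiableAt (by norm_num)
  have hTd' : DifferentiableAt ℝ T a' := hTC'.differentiableAt (by norm_num)
  have hYd : DifferentiableAt ℝ (fun z : Y => ‖z‖) (T a) := hY.differentiableAt (by norm_num)
  have hYd' : DifferentiableAt ℝ (fun z : Y => ‖z‖) (T a') := hY'.differentiableAt (by norm_num)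
  obtain ⟨z, rfl⟩ := hT.sndZ_surj hfin ha hX hY hTC ζ
  obtain ⟨z', rfl⟩ := hT.sndZ_surj hfin ha hX hY hTC ζ'
  have hz : dN a z = 0 := by rw [← hT.dN_apply hTd hYd, hζ0]
  have hz' : dN a z' = 0 := by
    rw [hp, ← hT.dN_apply hTd' hYd', ← hD, hζ0']
  have hs : ∀ u v, fderiv ℝ dN a u v = fderiv ℝ dN a v u := hess_symm hX
  have hs' : ∀ u v, fderiv ℝ dN a' u v = fderiv ℝ dN a' v u := hess_symm hX'
  have hps : ∀ v, 0 ≤ fderiv ℝ dN a v v := sndZ_hess_nonneg hX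
  have hps' : ∀ v, 0 ≤ fderiv ℝ dN a' v v := sndZ_hess_nonneg hX'
  -- tangent vectors on which the two forms are positive
  have hex : ∃ u, dN a u = 0 ∧ 0 < fderiv ℝ dN a u u := by
    obtain ⟨v, hv⟩ := sndZ_exists_pos hs hps hB
    obtain ⟨α, u₀, hu₀, rfl⟩ := exists_decomp ha hXd v
    rw [sndZ_hess_decomp hX] at hv
    exact ⟨u₀, hu₀, hv⟩
  have hex' : ∃ u, dN a u = 0 ∧ 0 < fderiv ℝ dN a' u u := by
    obtain ⟨v, hv⟩ := sndZ_exists_pos hs' hps' hB'
    obtain ⟨α, u₀, hu₀, rfl⟩ := exists_decomp ha' hXd' v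
    rw [sndZ_hess_decomp hX'] at hv
    exact ⟨u₀, by rw [hp]; exact hu₀, hv⟩
  obtain ⟨u₁, hu₁, hu₁B⟩ := hex
  obtain ⟨u₂, hu₂, hu₂B⟩ := hex'
  obtain ⟨τ, h1, h2⟩ := ((sndZ_event hs hps (x := u₁) (y := u₂) (Or.inl hu₁B)).and
    (sndZ_event hs' hps' (x := u₁) (y := u₂) (Or.inr hu₂B))).exists
  set u₀ : X := u₁ + τ • u₂ with hu₀def
  have hu₀ : dN a u₀ = 0 := by rw [hu₀def, map_add, map_smul, hu₁, hu₂, smul_zero, add_zero]
  by_contra hne
  have he : z - z' ≠ 0 := by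
    intro h
    apply hne
    rw [sub_eq_zero.1 h]
  have hen : 0 < ‖z - z'‖ := norm_pos_iff.2 he
  obtain ⟨ρ, ⟨⟨h3, h4⟩, h5⟩, h6⟩ := (((sndZ_event hs hps (x := u₀) (y := z - z') (Or.inl h1)).and
    (sndZ_event hs' hps' (x := u₀) (y := z - z') (Or.inl h2))).and
    ((eventually_gt_atTop (0 : ℝ)))).and (eventually_gt_atTop (2 * ‖u₀‖ / ‖z - z'‖)) |>.exists
  have hpe : dN a (z - z') = 0 := by rw [map_sub, hz, hz', sub_zero]
  have h7 := hT.sndZ_key ha ha' hX hTC hX' hTC' hp hD hz hz' hζ hζ'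
    (u := u₀ + ρ • (z - z')) (by rw [map_add, map_smul, hu₀, hpe, smul_zero, add_zero]) h3 h4 h5
  rw [add_sub_cancel_right] at h7
  have h8 : ρ * ‖z - z'‖ ≤ ‖u₀ + ρ • (z - z')‖ + ‖u₀‖ := by
    have h9 : ρ • (z - z') = (u₀ + ρ • (z - z')) - u₀ := by abel
    have h10 : ‖ρ • (z - z')‖ = ρ * ‖z - z'‖ := by
      rw [norm_smul, Real.norm_of_nonneg h5.le]
    rw [← h10]
    nth_rewrite 1 [h9]
    exact norm_sub_le _ _
  rw [div_lt_iff₀ hen] at h6
  linarith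

end SphereIso

end Vale.Agent.P084
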