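import Mathlib
import Vale.Agent.Lib.P084F.FactA
import Vale.Agent.Lib.P084F.NoFlat
import Vale.Agent.Lib.P084F.SndZ
import Vale.Agent.Lib.P084F.Strasz
open Filter Topology Module Metric MeasureTheory Measure Set

namespace Vale.Agent.P084

section leafhess

variable {E : Type*} [NormedAddCommGroup E] [NormedSpace ℝ E]

/-- the second derivative of the norm is positive semidefinite -/
theorem leaf_hess_nonneg {x : E} (hE : ContDiffAt ℝ 2 (fun z : E => ‖z‖) x) (v : E) :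
    0 ≤ fderiv ℝ dN x v v := by
  have hd : DifferentiableAt ℝ (fun z : E => ‖z‖) x := hE.differentiableAt (by norm_num)
  set f : ℝ → ℝ := fun t => ‖x + t • v‖ - t * dN x v with hf
  have hmin : IsLocalMin f 0 := by
    apply Filter.Eventually.of_forall
    intro t
    have h1 := dN_le x (x + t • v)
    rw [map_add, map_smul, dN_self hd, smul_eq_mul] at h1
    simp only [hf, zero_smul, add_zero, zero_mul, sub_zero]
    linarith
  have hc : ContinuousAt f 0 := by
    have : Continuous f := by fun_prop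
    exact this.continuousAt
  have h2nd := second_deriv_nonneg_of_isLocalMin hmin hc
  have hev : ∀ᶠ t : ℝ in 𝓝 0, DifferentiableAt ℝ (fun z : E => ‖z‖) (x + t • v) := by
    have hcl : ContinuousAt (fun t : ℝ => x + t • v) 0 := by fun_prop
    have h1 : ∀ᶠ z in 𝓝 (x + (0 : ℝ) • v), ContDiffAt ℝ 2 (fun z : E => ‖z‖) z := by
      rw [zero_smul, add_zero]
      exact hE.eventually (by simp)
    filter_upwards [hcl.eventually h1] with t ht
    exact ht.differentiableAt (by norm_num)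
  have hd1 : deriv f =ᶠ[𝓝 0] fun t => dN (x + t • v) v - dN x v := by
    filter_upwards [hev] with t ht
    have hl : HasDerivAt (fun s : ℝ => x + s • v) v t := by
      have := ((hasDerivAt_id t).smul_const v).const_add x
      simpa using this
    have h1 : HasDerivAt (fun s : ℝ => ‖x + s • v‖) (dN (x + t • v) v) t :=
      (hasFDerivAt_norm ht).comp_hasDerivAt t hl
    have h2 : HasDerivAt (fun s : ℝ => s * dN x v) (dN x v) t := by
      have := (hasDerivAt_id t).mul_const (dN x v)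
      simpa using this
    exact (h1.sub h2).deriv
  rw [hd1.deriv_eq] at h2nd
  have h3 : HasDerivAt (fun t : ℝ => dN (x + t • v) v - dN x v) (fderiv ℝ dN x v v) 0 := by
    have h3 := ((hasDerivAt_comp_line (hasFDerivAt_dN hE) v).clm_apply
      (hasDerivAt_const (0 : ℝ) v)).sub_const (dN x v)
    exact h3.congr_deriv (by simp)
  rwa [h3.deriv] at h2nd

/-- degenerate directions of the second derivative of the norm are in its kernel -/
theorem leaf_hess_eq_zero {x : E} (hE : ContDiffAt ℝ 2 (fun z : E => ‖z‖) x) {k : E}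
    (hk : fderiv ℝ dN x k k = 0) : fderiv ℝ dN x k = 0 := by
  ext w
  rw [_root_.zero_apply]
  by_contra hne
  set c : ℝ := fderiv ℝ dN x k w with hc
  set b : ℝ := fderiv ℝ dN x w w with hb
  have h1 : ∀ t : ℝ, 0 ≤ b + 2 * t * c := by
    intro t
    have h2 := leaf_hess_nonneg hE (w + t • k)
    simp only [map_add, map_smul, _root_.add_apply, _root_.smul_apply, smul_eq_mul, hk,
      hess_symm hE w k, ← hc, ← hb] at h2
    linarith
  have h3 := h1 (-(b + 1) / (2 * c))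
  have h4 : 2 * (-(b + 1) / (2 * c)) * c = -(b + 1) := by
    field_simp
  rw [h4] at h3
  linarith

theorem leaf_norm_eventually {x : E} (hE : ContDiffAt ℝ 2 (fun z : E => ‖z‖) x) :
    ∀ᶠ z in 𝓝 x, DifferentiableAt ℝ (fun z : E => ‖z‖) z := by
  filter_upwards [hE.eventually (by simp)] with z hz
  exact hz.differentiableAt (by norm_num)

end leafhess

variable {X Y : Type*} [NormedAddCommGroup X] [NormedSpace ℝ X] [NormedAddCommGroup Y]
  [NormedSpace ℝ Y] {T : X → Y}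

namespace SphereIso

/-- homogeneity of the second derivative -/
theorem leaf_snd_smul (hT : SphereIso T) {x : X} (hTx : ContDiffAt ℝ 2 T x) {c : ℝ} (hc : c ≠ 0)
    (hTx' : ContDiffAt ℝ 2 T (c • x)) :
    c • fderiv ℝ (fderiv ℝ T) (c • x) = fderiv ℝ (fderiv ℝ T) x := by
  have h1 : HasFDerivAt (fun z : X => c • z) (c • ContinuousLinearMap.id ℝ X) x :=
    (hasFDerivAt_id x).const_smul c
  have h2 := (hasFDerivAt_fderiv hTx').comp x h1
  have h3 : (fderiv ℝ T ∘ fun z : X => c • z) =ᶠ[𝓝 x] fderiv ℝ T := by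
    filter_upwards [hTx.eventually (by simp)] with z hz
    exact hT.fderiv_smul_eq (hz.differentiableAt (by norm_num)) hc
  have h4 := (h2.congr_of_eventuallyEq h3.symm).unique (hasFDerivAt_fderiv hTx)
  rw [← h4]
  ext u v
  simp

theorem leaf_continuousAt_snd {x : X} (hTx : ContDiffAt ℝ 2 T x) :
    ContinuousAt (fderiv ℝ (fderiv ℝ T)) x := by
  have h1 : ContDiffAt ℝ 1 (fderiv ℝ T) x := hTx.fderiv_right (by norm_num)
  have h2 : ContDiffAt ℝ 0 (fderiv ℝ (fderiv ℝ T)) x := h1.fderiv_right (by norm_num)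
  exact h2.continuousAt

/-- the derivative is constant along segments of smooth points in a face -/
theorem leaf_const_along
    (hT1 : ∀ a : X, a ≠ 0 → ContDiffAt ℝ 1 T a)
    (hN2 : ∀ a : X, a ≠ 0 → DifferentiableAt ℝ (fun z : X => ‖z‖) a →
      ContDiffAt ℝ 2 (fun z : X => ‖z‖) a)
    (hT2 : ∀ a : X, a ≠ 0 → DifferentiableAt ℝ (fun z : X => ‖z‖) a → ContDiffAt ℝ 2 T a)
    (hζ : ∀ a : X, a ≠ 0 → DifferentiableAt ℝ (fun z : X => ‖z‖) a → ∃ ζ : Y,
      ∀ u v, fderiv ℝ (fderiv ℝ T) a u v = (fderiv ℝ dN a u v) • ζ)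
    {p : X →L[ℝ] ℝ} (hp : ∀ v, p v ≤ ‖v‖) {x y : X} (hx : ‖x‖ = 1) (hy : ‖y‖ = 1)
    (hpx : p x = 1) (hpy : p y = 1)
    (hs : ∀ t ∈ Ico (0 : ℝ) 1, DifferentiableAt ℝ (fun z : X => ‖z‖) (x + t • (y - x))) :
    fderiv ℝ T y = fderiv ℝ T x := by
  have hpl : ∀ t : ℝ, p (x + t • (y - x)) = 1 := by
    intro t
    rw [map_add, map_smul, map_sub, hpx, hpy, sub_self, smul_zero, add_zero]
  have hnl : ∀ t ∈ Icc (0 : ℝ) 1, ‖x + t • (y - x)‖ = 1 := by
    intro t ht
    apply le_antisymm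
    · have e1 : x + t • (y - x) = (1 - t) • x + t • y := by module
      rw [e1]
      refine (norm_add_le _ _).trans ?_
      rw [norm_smul, norm_smul, hx, hy, Real.norm_of_nonneg ht.1,
        Real.norm_of_nonneg (by linarith [ht.2] : 0 ≤ 1 - t)]
      linarith
    · have := hp (x + t • (y - x))
      rwa [hpl] at this
  have hne : ∀ t ∈ Icc (0 : ℝ) 1, x + t • (y - x) ≠ 0 := by
    intro t ht h0
    have := hnl t ht
    rw [h0, norm_zero] at this
    exact zero_ne_one this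
  have hdN : ∀ t ∈ Ico (0 : ℝ) 1, dN (x + t • (y - x)) = p := by
    intro t ht
    symm
    apply support_eq_dN (hs t ht) hp
    rw [hpl, hnl t ⟨ht.1, ht.2.le⟩]
  have hline : ∀ t : ℝ, HasDerivAt (fun s : ℝ => x + s • (y - x)) (y - x) t := by
    intro t
    have := ((hasDerivAt_id t).smul_const (y - x)).const_add x
    simpa using this
  have key := constant_of_has_deriv_right_zero (f := fun t : ℝ => fderiv ℝ T (x + t • (y - x)))
    (a := 0) (b := 1) ?_ ?_ 1 (by norm_num)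
  · simpa using key
  · intro t ht
    apply ContinuousAt.continuousWithinAt
    have h1 : ContinuousAt (fderiv ℝ T) (x + t • (y - x)) := by
      have h2 : ContDiffAt ℝ 0 (fderiv ℝ T) (x + t • (y - x)) :=
        (hT1 _ (hne t ht)).fderiv_right (by norm_num)
      exact h2.continuousAt
    exact ContinuousAt.comp (f := fun t : ℝ => x + t • (y - x)) h1 (hline t).continuousAt
  · intro t ht
    have htI : t ∈ Icc (0 : ℝ) 1 := ⟨ht.1, ht.2.le⟩
    have h1 : HasDerivAt (fun s : ℝ => fderiv ℝ T (x + s • (y - x)))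
        (fderiv ℝ (fderiv ℝ T) (x + t • (y - x)) (y - x)) t :=
      HasFDerivAt.comp_hasDerivAt (f := fun s : ℝ => x + s • (y - x)) t
        (hasFDerivAt_fderiv (hT2 _ (hne t htI) (hs t ht))) (hline t)
    have h2 : HasDerivAt (fun s : ℝ => (dN (x + s • (y - x)) : X →L[ℝ] ℝ))
        (fderiv ℝ dN (x + t • (y - x)) (y - x)) t :=
      HasFDerivAt.comp_hasDerivAt (f := fun s : ℝ => x + s • (y - x)) t
        (hasFDerivAt_dN (hN2 _ (hne t htI) (hs t ht))) (hline t)
    have h3 : HasDerivWithinAt (fun s : ℝ => (dN (x + s • (y - x)) : X →L[ℝ] ℝ)) 0 (Ici t) t := by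
      have h4 : HasDerivWithinAt (fun _ : ℝ => p) (0 : X →L[ℝ] ℝ) (Ici t) t :=
        hasDerivWithinAt_const _ _ _
      refine h4.congr_of_eventuallyEq ?_ (hdN t ht)
      have h5 : ∀ᶠ s : ℝ in 𝓝[≥] t, s < 1 :=
        eventually_nhdsWithin_of_eventually_nhds (gt_mem_nhds ht.2)
      filter_upwards [h5, self_mem_nhdsWithin] with s hs1 hs2
      exact hdN s ⟨ht.1.trans hs2, hs1⟩
    have h4 : fderiv ℝ dN (x + t • (y - x)) (y - x) = (0 : X →L[ℝ] ℝ) :=
      (uniqueDiffWithinAt_Ici t).eq_deriv _ (h2.hasDerivWithinAt) h3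
    obtain ⟨ζ, hζ'⟩ := hζ _ (hne t htI) (hs t ht)
    have h5 : fderiv ℝ (fderiv ℝ T) (x + t • (y - x)) (y - x) = 0 := by
      ext v
      rw [hζ', h4]
      simp
    rw [h5] at h1
    exact h1.hasDerivWithinAt

theorem leaf_isOpen
    (hN2 : ∀ a : X, a ≠ 0 → DifferentiableAt ℝ (fun z : X => ‖z‖) a →
      ContDiffAt ℝ 2 (fun z : X => ‖z‖) a)
    (hT2 : ∀ a : X, a ≠ 0 → DifferentiableAt ℝ (fun z : X => ‖z‖) a → ContDiffAt ℝ 2 T a) :
    IsOpen {x : X | x ≠ 0 ∧ DifferentiableAt ℝ (fun z : X => ‖z‖) x ∧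
      fderiv ℝ (fderiv ℝ T) x ≠ 0} := by
  rw [isOpen_iff_mem_nhds]
  rintro x ⟨hx0, hxd, hx2⟩
  filter_upwards [isOpen_ne.mem_nhds hx0, leaf_norm_eventually (hN2 x hx0 hxd),
    (leaf_continuousAt_snd (hT2 x hx0 hxd)).eventually_ne hx2] with z h1 h2 h3
  exact ⟨h1, h2, h3⟩

/-- STEP 1: the second derivative vanishes at the smooth extreme points of the unit ball -/
theorem leaf_extreme (hT : SphereIso T) [FiniteDimensional ℝ X] [FiniteDimensional ℝ Y]
    (hsurj : Function.Surjective T) (hdim : 3 ≤ finrank ℝ X)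
    (hN2 : ∀ a : X, a ≠ 0 → DifferentiableAt ℝ (fun z : X => ‖z‖) a →
      ContDiffAt ℝ 2 (fun z : X => ‖z‖) a)
    (hNY2 : ∀ a : X, a ≠ 0 → DifferentiableAt ℝ (fun z : X => ‖z‖) a →
      ContDiffAt ℝ 2 (fun z : Y => ‖z‖) (T a))
    (hT2 : ∀ a : X, a ≠ 0 → DifferentiableAt ℝ (fun z : X => ‖z‖) a → ContDiffAt ℝ 2 T a)
    {z : X} (hz : z ∈ (closedBall (0 : X) 1).extremePoints ℝ) (hz0 : z ≠ 0)
    (hzd : DifferentiableAt ℝ (fun z : X => ‖z‖) z) : fderiv ℝ (fderiv ℝ T) z = 0 := by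
  by_contra hne
  have : Nontrivial X := ⟨⟨z, 0, hz0⟩⟩
  have hopen := leaf_isOpen (T := T) hN2 hT2
  have hcl := straszewicz hz
  obtain ⟨e, ⟨he0, hed, he2⟩, he1, ψ, hψ1, hψe, hψ⟩ :=
    mem_closure_iff.mp hcl _ hopen ⟨hz0, hzd, hne⟩
  have hψeq : ψ = dN e := by
    apply support_eq_dN hed (apply_le_of_norm_le_one hψ1)
    rw [hψe, he1]
  subst hψeq
  refine no_exposed_flat he1 hopen ⟨he0, hed, he2⟩ (fun x hx => hN2 x hx.1 hx.2.1) ?_ hψ
  rintro x ⟨hx0, hxd, hx2⟩
  by_contra hno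
  push Not at hno
  apply hx2
  apply hT.snd_zero_of_posDef (hT.finrank_eq hsurj) hdim hx0 (hN2 x hx0 hxd) (hNY2 x hx0 hxd)
    (hT2 x hx0 hxd)
  intro v hv hv0
  rcases (leaf_hess_nonneg (hN2 x hx0 hxd) v).lt_or_eq with h | h
  · exact h
  · exact absurd (leaf_hess_eq_zero (hN2 x hx0 hxd) h.symm) (hno v hv0 hv)

theorem leaf_norm_dN_le_one (y : X) : ‖dN y‖ ≤ 1 := by
  have := norm_fderiv_le_of_lipschitz ℝ (x₀ := y) (lipschitzWith_one_norm (E := X))
  rw [NNReal.coe_one] at this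
  exact this

/-- STEP 2 -/
theorem leaf_exists_nonsmooth (hT : SphereIso T) [FiniteDimensional ℝ X] [FiniteDimensional ℝ Y]
    (hsurj : Function.Surjective T) (hdim : 3 ≤ finrank ℝ X)
    (hN2 : ∀ a : X, a ≠ 0 → DifferentiableAt ℝ (fun z : X => ‖z‖) a →
      ContDiffAt ℝ 2 (fun z : X => ‖z‖) a)
    (hNY2 : ∀ a : X, a ≠ 0 → DifferentiableAt ℝ (fun z : X => ‖z‖) a →
      ContDiffAt ℝ 2 (fun z : Y => ‖z‖) (T a))
    (hT2 : ∀ a : X, a ≠ 0 → DifferentiableAt ℝ (fun z : X => ‖z‖) a → ContDiffAt ℝ 2 T a)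
    (hT1 : ∀ a : X, a ≠ 0 → ContDiffAt ℝ 1 T a)
    {a : X} (ha : ‖a‖ = 1) (had : DifferentiableAt ℝ (fun z : X => ‖z‖) a)
    (hD : fderiv ℝ (fderiv ℝ T) a ≠ 0) :
    ∃ z : X, ‖z‖ = 1 ∧ ¬ DifferentiableAt ℝ (fun z : X => ‖z‖) z ∧
      fderiv ℝ T z = fderiv ℝ T a := by
  have ha0 : a ≠ 0 := by
    rintro rfl
    rw [norm_zero] at ha
    exact zero_ne_one ha
  have hfin := hT.finrank_eq hsurj
  have hζ : ∀ a : X, a ≠ 0 → DifferentiableAt ℝ (fun z : X => ‖z‖) a → ∃ ζ : Y,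
      ∀ u v, fderiv ℝ (fderiv ℝ T) a u v = (fderiv ℝ dN a u v) • ζ := by
    intro b hb hbd
    obtain ⟨ζ, -, h⟩ := hT.snd_eq_smul hfin hb (hN2 b hb hbd) (hNY2 b hb hbd) (hT2 b hb hbd)
    exact ⟨ζ, h⟩
  have hpa : dN a a = 1 := by rw [dN_self had, ha]
  set F : Set X := {z | ‖z‖ ≤ 1 ∧ dN a z = 1} with hF
  have hFn : ∀ z ∈ F, ‖z‖ = 1 := by
    rintro z ⟨h1, h2⟩
    apply le_antisymm h1
    rw [← h2]
    exact dN_le a z
  have hF0 : ∀ z ∈ F, z ≠ 0 := by
    intro z hz h0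
    have := hFn z hz
    rw [h0, norm_zero] at this
    exact zero_ne_one this
  have hFc : Convex ℝ F := by
    intro x hx y hy α β hα hβ hαβ
    refine ⟨?_, ?_⟩
    · refine (norm_add_le _ _).trans ?_
      rw [norm_smul, norm_smul, hFn x hx, hFn y hy, Real.norm_of_nonneg hα, Real.norm_of_nonneg hβ]
      linarith
    · rw [map_add, map_smul, map_smul, hx.2, hy.2, smul_eq_mul, smul_eq_mul]
      linarith
  have hFcl : IsClosed F :=
    (isClosed_le continuous_norm continuous_const).inter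
      (isClosed_eq (dN a).continuous continuous_const)
  have hFk : IsCompact F := by
    apply (isCompact_closedBall (0 : X) 1).of_isClosed_subset hFcl
    intro z hz
    simpa using hz.1
  have haF : a ∈ F := ⟨ha.le, hpa⟩
  have hseg : ∀ y ∈ F, ∀ t ∈ Icc (0 : ℝ) 1, a + t • (y - a) ∈ F := by
    intro y hy t ht
    have e1 : a + t • (y - a) = (1 - t) • a + t • y := by module
    rw [e1]
    exact hFc haF hy (by linarith [ht.2]) ht.1 (by ring)
  by_cases hall : ∀ z ∈ F, DifferentiableAt ℝ (fun z : X => ‖z‖) z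
  · -- all points smooth
    exfalso
    have hdNF : ∀ z ∈ F, dN z = dN a := by
      intro z hz
      symm
      apply support_eq_dN (hall z hz) (dN_le a)
      rw [hz.2, hFn z hz]
    have hDF : ∀ z ∈ F, fderiv ℝ T z = fderiv ℝ T a := by
      intro z hz
      apply leaf_const_along hT1 hN2 hT2 hζ (dN_le a) ha (hFn z hz) hpa hz.2
      intro t ht
      exact hall _ (hseg z hz t ⟨ht.1, ht.2.le⟩)
    obtain ⟨ζ, hζ0, hζa⟩ := hT.snd_eq_smul hfin ha0 (hN2 a ha0 had) (hNY2 a ha0 had)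
      (hT2 a ha0 had)
    have hBa : fderiv ℝ dN a ≠ 0 := by
      intro h0
      apply hD
      ext u v
      rw [hζa, h0]
      simp
    have hζne : ζ ≠ 0 := by
      rintro rfl
      apply hD
      ext u v
      rw [hζa]
      simp
    have hex : ∃ z ∈ F.extremePoints ℝ, fderiv ℝ dN z ≠ 0 := by
      by_contra hno
      push Not at hno
      set G : Set X := {x | x ∈ F ∧ fderiv ℝ dN x = 0} with hG
      have hGc : Convex ℝ G := by
        intro x hx y hy α β hα hβ hαβ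
        refine ⟨hFc hx.1 hy.1 hα hβ hαβ, ?_⟩
        have hβ' : β = 1 - α := by linarith
        rcases hα.eq_or_lt with h0 | hpos
        · rw [← h0] at hβ' ⊢
          rw [hβ', zero_smul, zero_add, sub_zero, one_smul]
          exact hy.2
        · have hmem : α • x + β • y ∈ F := hFc hx.1 hy.1 hα hβ hαβ
          have hCa : ContDiffAt ℝ 2 (fun z : X => ‖z‖) (α • x + β • y) :=
            hN2 _ (hF0 _ hmem) (hall _ hmem)
          rw [hβ'] at hCa ⊢
          ext1 h
          apply leaf_hess_eq_zero hCa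
          apply le_antisymm _ (leaf_hess_nonneg hCa h)
          have h1 := hess_le (z := x) (z' := y) (l := α) hpos (by linarith)
            (p := dN a) (leaf_norm_dN_le_one a) (by rw [hx.1.2, hFn x hx.1])
            (by rw [hy.1.2, hFn y hy.1]) (hF0 x hx.1) (hN2 x (hF0 x hx.1) (hall x hx.1)) hCa h
          rw [hx.2] at h1
          simpa using h1
      have hGcl : IsClosed G := by
        apply isClosed_of_closure_subset
        intro x hx
        have hxF : x ∈ F := by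
          have h1 : closure G ⊆ F := hFcl.closure_subset_iff.mpr fun z hz => hz.1
          exact h1 hx
        refine ⟨hxF, ?_⟩
        by_contra hne
        have hcont : ContinuousAt (fderiv ℝ (dN : X → X →L[ℝ] ℝ)) x := by
          have h2 : ContDiffAt ℝ 0 (fderiv ℝ (dN : X → X →L[ℝ] ℝ)) x :=
            (contDiffAt_dN (hN2 x (hF0 x hxF) (hall x hxF))).fderiv_right (by norm_num)
          exact h2.continuousAt
        have hev := hcont.eventually_ne hne
        obtain ⟨y, hy1, hy2⟩ := (mem_closure_iff_frequently.mp hx).and_eventually hev |>.exists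
        exact hy2 hy1.2
      have hsub : F ⊆ G := by
        rw [← closure_convexHull_extremePoints hFk hFc]
        apply hGcl.closure_subset_iff.mpr
        apply convexHull_min _ hGc
        intro z hz
        exact ⟨hz.1, hno z hz⟩
      exact hBa (hsub haF).2
    obtain ⟨z, hz, hBz⟩ := hex
    have hzF : z ∈ F := hz.1
    have hz0 := hF0 z hzF
    have hzd := hall z hzF
    obtain ⟨ζ', hζ0', hζz⟩ := hT.snd_eq_smul hfin hz0 (hN2 z hz0 hzd) (hNY2 z hz0 hzd)
      (hT2 z hz0 hzd)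
    have heq : ζ = ζ' := hT.zeta_unique hfin ha0 hz0 (hN2 a ha0 had) (hNY2 a ha0 had)
      (hT2 a ha0 had) (hN2 z hz0 hzd) (hNY2 z hz0 hzd) (hT2 z hz0 hzd) (hdNF z hzF).symm
      (hDF z hzF).symm hζ0 hζ0' hζa hζz hBa hBz
    have hext : IsExtreme ℝ (closedBall (0 : X) 1) F := by
      refine ⟨fun x hx => by simpa using hx.1, ?_⟩
      rintro x hx y hy w hw ⟨α, β, hα, hβ, hαβ, rfl⟩
      have hx' : ‖x‖ ≤ 1 := by simpa using hx
      have hy' : ‖y‖ ≤ 1 := by simpa using hy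
      refine ⟨hx', ?_⟩
      have h1 := hw.2
      rw [map_add, map_smul, map_smul, smul_eq_mul, smul_eq_mul] at h1
      have h2 := (dN_le a x).trans hx'
      have h3 := (dN_le a y).trans hy'
      apply le_antisymm h2
      by_contra hlt
      push Not at hlt
      nlinarith
    have hzext : z ∈ (closedBall (0 : X) 1).extremePoints ℝ :=
      hext.extremePoints_subset_extremePoints hz
    have hz2 := hT.leaf_extreme hsurj hdim hN2 hNY2 hT2 hzext hz0 hzd
    apply hBz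
    ext u v
    have h1 := hζz u v
    rw [hz2, ← heq] at h1
    simp only [_root_.zero_apply] at h1 ⊢
    exact (smul_eq_zero.mp h1.symm).resolve_right hζne
  · -- a nonsmooth point in the face
    push Not at hall
    obtain ⟨y, hyF, hyd⟩ := hall
    set S : Set ℝ := {t | t ∈ Icc (0 : ℝ) 1 ∧
      ¬ DifferentiableAt ℝ (fun z : X => ‖z‖) (a + t • (y - a))} with hS
    have hScl : IsClosed S := by
      apply isClosed_of_closure_subset
      intro t ht
      have htI : t ∈ Icc (0 : ℝ) 1 := by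
        have h1 : closure S ⊆ Icc (0 : ℝ) 1 := isClosed_Icc.closure_subset_iff.mpr fun z hz => hz.1
        exact h1 ht
      refine ⟨htI, fun hd => ?_⟩
      have hev := leaf_norm_eventually (hN2 _ (hF0 _ (hseg y hyF t htI)) hd)
      have hc : ContinuousAt (fun s : ℝ => a + s • (y - a)) t := by fun_prop
      obtain ⟨s, hs1, hs2⟩ :=
        (mem_closure_iff_frequently.mp ht).and_eventually (hc.eventually hev) |>.exists
      exact hs1.2 hs2
    have hSk : IsCompact S := isCompact_Icc.of_isClosed_subset hScl fun t ht => ht.1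
    have hSn : S.Nonempty := ⟨1, by norm_num, by simpa using hyd⟩
    obtain ⟨τ, hτS, hτmin⟩ := hSk.exists_isLeast hSn
    have hτ0 : 0 < τ := by
      rcases hτS.1.1.eq_or_lt with h | h
      · exfalso
        apply hτS.2
        rw [← h, zero_smul, add_zero]
        exact had
      · exact h
    have hzF := hseg y hyF τ hτS.1
    refine ⟨a + τ • (y - a), hFn _ hzF, hτS.2, ?_⟩
    apply leaf_const_along hT1 hN2 hT2 hζ (dN_le a) ha (hFn _ hzF) hpa hzF.2
    intro t ht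
    have e1 : a + t • (a + τ • (y - a) - a) = a + (t * τ) • (y - a) := by module
    rw [e1]
    by_contra hno
    have h1 : t * τ ∈ S :=
      ⟨⟨mul_nonneg ht.1 hτ0.le, by nlinarith [ht.1, ht.2, hτS.1.2]⟩, hno⟩
    have h2 := hτmin h1
    nlinarith [ht.2]

/-- STEP 3 and conclusion: the second derivative vanishes at all smooth points -/
theorem snd_eq_zero_of_reg (hT : SphereIso T) [FiniteDimensional ℝ X] [FiniteDimensional ℝ Y]
    (hsurj : Function.Surjective T) (hdim : 3 ≤ finrank ℝ X)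
    (hN2 : ∀ a : X, a ≠ 0 → DifferentiableAt ℝ (fun z : X => ‖z‖) a →
      ContDiffAt ℝ 2 (fun z : X => ‖z‖) a)
    (hNY2 : ∀ a : X, a ≠ 0 → DifferentiableAt ℝ (fun z : X => ‖z‖) a →
      ContDiffAt ℝ 2 (fun z : Y => ‖z‖) (T a))
    (hT2 : ∀ a : X, a ≠ 0 → DifferentiableAt ℝ (fun z : X => ‖z‖) a → ContDiffAt ℝ 2 T a)
    (hT1 : ∀ a : X, a ≠ 0 → ContDiffAt ℝ 1 T a)
    (hL : ∀ z : X, z ≠ 0 → ¬ DifferentiableAt ℝ (fun z : X => ‖z‖) z →
      ∀ u ∈ Dir z, ‖fderiv ℝ T z u‖ = ‖u‖)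
    {a : X} (ha : a ≠ 0) (had : DifferentiableAt ℝ (fun z : X => ‖z‖) a) :
    fderiv ℝ (fderiv ℝ T) a = 0 := by
  by_contra hD
  have hfin := hT.finrank_eq hsurj
  obtain ⟨ζ, -, hζ⟩ := hT.snd_eq_smul hfin ha (hN2 a ha had) (hNY2 a ha had) (hT2 a ha had)
  have hζne : ζ ≠ 0 := by
    rintro rfl
    apply hD
    ext u v
    rw [hζ]
    simp
  have hB : ∃ u₀ : X, fderiv ℝ dN a u₀ ≠ 0 := by
    by_contra hno
    push Not at hno
    apply hD
    ext u v
    rw [hζ, hno]
    simp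
  obtain ⟨u₀, hu₀⟩ := hB
  -- the inverse of the derivative
  have hTa : DifferentiableAt ℝ T a := (hT2 a ha had).differentiableAt (by norm_num)
  have hinj := hT.fderiv_injective ha hTa had ((hNY2 a ha had).differentiableAt (by norm_num))
  have hDinj : Function.Injective (fderiv ℝ T a : X →ₗ[ℝ] Y) := hinj
  set e : X ≃L[ℝ] Y :=
    (LinearMap.linearEquivOfInjective (fderiv ℝ T a : X →ₗ[ℝ] Y) hDinj hfin).toContinuousLinearEquiv
    with he
  have heapp : ∀ v, e v = fderiv ℝ T a v := fun v => rfl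
  -- the nonsmooth points
  have hex : ∀ x : X, x ≠ 0 → DifferentiableAt ℝ (fun z : X => ‖z‖) x →
      fderiv ℝ (fderiv ℝ T) x ≠ 0 → ∃ z : X, ‖z‖ = 1 ∧
        ¬ DifferentiableAt ℝ (fun z : X => ‖z‖) z ∧ fderiv ℝ T z = fderiv ℝ T x := by
    intro x hx hxd hx2
    have hnx : ‖x‖ ≠ 0 := norm_ne_zero_iff.mpr hx
    have hc : ‖x‖⁻¹ ≠ 0 := inv_ne_zero hnx
    have hcd : DifferentiableAt ℝ (fun z : X => ‖z‖) (‖x‖⁻¹ • x) :=
      (differentiableAt_norm_smul hc).mp hxd
    have hc0 : ‖x‖⁻¹ • x ≠ 0 := smul_ne_zero hc hx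
    obtain ⟨z, hz1, hz2, hz3⟩ := hT.leaf_exists_nonsmooth hsurj hdim hN2 hNY2 hT2 hT1
      (a := ‖x‖⁻¹ • x) (by rw [norm_smul, norm_inv, norm_norm, inv_mul_cancel₀ hnx]) hcd (by
        intro h0
        apply hx2
        rw [← hT.leaf_snd_smul (hT2 x hx hxd) hc (hT2 _ hc0 hcd), h0, smul_zero])
    refine ⟨z, hz1, hz2, ?_⟩
    rw [hz3, hT.fderiv_smul_eq ((hT2 x hx hxd).differentiableAt (by norm_num)) hc]
  have hev : ∀ᶠ t : ℝ in 𝓝 0, a + t • u₀ ∈ {x : X | x ≠ 0 ∧
      DifferentiableAt ℝ (fun z : X => ‖z‖) x ∧ fderiv ℝ (fderiv ℝ T) x ≠ 0} := by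
    have hc : ContinuousAt (fun t : ℝ => a + t • u₀) 0 := by fun_prop
    apply hc.eventually
    show ∀ᶠ y in 𝓝 (a + (0 : ℝ) • u₀), y ∈ {x : X | x ≠ 0 ∧
      DifferentiableAt ℝ (fun z : X => ‖z‖) x ∧ fderiv ℝ (fderiv ℝ T) x ≠ 0}
    rw [zero_smul, add_zero]
    exact (leaf_isOpen hN2 hT2).mem_nhds ⟨ha, had, hD⟩
  have hex2 : ∀ t : ℝ, ∃ z : X, (a + t • u₀ ≠ 0 ∧ DifferentiableAt ℝ (fun z : X => ‖z‖) (a + t • u₀)
      ∧ fderiv ℝ (fderiv ℝ T) (a + t • u₀) ≠ 0) → ‖z‖ = 1 ∧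
        ¬ DifferentiableAt ℝ (fun z : X => ‖z‖) z ∧ fderiv ℝ T z = fderiv ℝ T (a + t • u₀) := by
    intro t
    by_cases h : (a + t • u₀ ≠ 0 ∧ DifferentiableAt ℝ (fun z : X => ‖z‖) (a + t • u₀)
      ∧ fderiv ℝ (fderiv ℝ T) (a + t • u₀) ≠ 0)
    · obtain ⟨z, hz⟩ := hex _ h.1 h.2.1 h.2.2
      exact ⟨z, fun _ => hz⟩
    · exact ⟨0, fun h' => absurd h' h⟩
  choose z hz using hex2
  -- an ultrafilter
  set U : Ultrafilter ℝ := Ultrafilter.of (𝓝[>] (0 : ℝ)) with hU'
  have hU : (U : Filter ℝ) ≤ 𝓝[>] (0 : ℝ) := Ultrafilter.of_le _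
  have hU0 : (U : Filter ℝ) ≤ 𝓝 (0 : ℝ) := hU.trans nhdsWithin_le_nhds
  have hUne : (U : Filter ℝ) ≤ 𝓝[≠] (0 : ℝ) :=
    hU.trans (nhdsWithin_mono _ fun t (ht : 0 < t) => ht.ne')
  have hpos : ∀ᶠ t : ℝ in U, 0 < t := hU self_mem_nhdsWithin
  have hzU : ∀ᶠ t : ℝ in U, ‖z t‖ = 1 ∧ ¬ DifferentiableAt ℝ (fun z : X => ‖z‖) (z t) ∧
      fderiv ℝ T (z t) = fderiv ℝ T (a + t • u₀) := by
    filter_upwards [hU0 hev] with t ht
    exact hz t ht
  have hle : ((U.map z : Ultrafilter X) : Filter X) ≤ 𝓟 (sphere (0 : X) 1) := by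
    rw [le_principal_iff, Ultrafilter.mem_coe, Ultrafilter.mem_map]
    filter_upwards [hzU] with t ht
    simpa using ht.1
  obtain ⟨zs, hzs1, hzs2⟩ := (isCompact_sphere (0 : X) 1).ultrafilter_le_nhds _ hle
  have hzt : Tendsto z U (𝓝 zs) := hzs2
  have hzs0 : zs ≠ 0 := by
    intro h0
    rw [h0] at hzs1
    simp at hzs1
  have hzsd : ¬ DifferentiableAt ℝ (fun z : X => ‖z‖) zs := by
    intro hd
    obtain ⟨t, ht1, ht2⟩ := (hzU.and (hzt.eventually (leaf_norm_eventually (hN2 zs hzs0 hd)))).exists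
    exact ht1.2.1 ht2
  have hDc : ∀ x : X, x ≠ 0 → ContinuousAt (fderiv ℝ T) x := by
    intro x hx
    have h2 : ContDiffAt ℝ 0 (fderiv ℝ T) x := (hT1 x hx).fderiv_right (by norm_num)
    exact h2.continuousAt
  have hlt : Tendsto (fun t : ℝ => a + t • u₀) U (𝓝 a) := by
    have hc : ContinuousAt (fun t : ℝ => a + t • u₀) 0 := by fun_prop
    have h1 := hc.tendsto
    rw [zero_smul, add_zero] at h1
    exact h1.mono_left hU0
  have hDzs : fderiv ℝ T zs = fderiv ℝ T a := by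
    have h1 : Tendsto (fun t => fderiv ℝ T (z t)) U (𝓝 (fderiv ℝ T zs)) :=
      (hDc zs hzs0).tendsto.comp hzt
    have h2 : Tendsto (fun t : ℝ => fderiv ℝ T (a + t • u₀)) U (𝓝 (fderiv ℝ T a)) :=
      (hDc a ha).tendsto.comp hlt
    refine tendsto_nhds_unique (h1.congr' ?_) h2
    filter_upwards [hzU] with t ht
    exact ht.2.2
  have hiso : ∀ y ∈ Dir zs, ‖fderiv ℝ T a y‖ = ‖y‖ := by
    intro y hy
    rw [← hDzs]
    exact hL zs hzs0 hzsd y hy
  have hiso2 : ∀ y ∈ Dir zs, ∀ᶠ t : ℝ in U, ‖fderiv ℝ T (a + t • u₀) y‖ = ‖y‖ := by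
    intro y hy
    have h1 : Tendsto (fun t : ℝ => (z t, y)) U (𝓝 (zs, y)) := hzt.prodMk_nhds tendsto_const_nhds
    filter_upwards [hzU, h1.eventually (eventually_mem_Dir hy)] with t ht1 ht2
    rw [← ht1.2.2]
    refine hL (z t) ?_ ht1.2.1 y ht2
    intro h0
    have := ht1.1
    rw [h0, norm_zero] at this
    exact zero_ne_one this
  -- the first order condition
  have hkey : ∀ y ∈ Dir zs, DifferentiableAt ℝ (fun z : X => ‖z‖) y →
      fderiv ℝ dN a u₀ y * dN y (e.symm ζ) = 0 := by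
    intro y hy hyd
    have hYd : HasFDerivAt (fun z : Y => ‖z‖) ((dN y).comp (e.symm : Y →L[ℝ] X))
        (fderiv ℝ T a y) := by
      have h1 : HasFDerivAt (fun z : X => ‖z‖) (dN y) (e.symm (fderiv ℝ T a y)) := by
        rw [← heapp, e.symm_apply_apply]
        exact hasFDerivAt_norm hyd
      have h2 := h1.comp (fderiv ℝ T a y) (e.symm : Y →L[ℝ] X).hasFDerivAt
      refine h2.congr_of_eventuallyEq ?_
      have h3 : ContinuousAt (fun w : Y => e.symm w) (fderiv ℝ T a y) := by fun_prop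
      have h4 : ∀ᶠ w in 𝓝 (fderiv ℝ T a y), e.symm w ∈ Dir zs := by
        apply h3.eventually
        show ∀ᶠ x in 𝓝 (e.symm (fderiv ℝ T a y)), x ∈ Dir zs
        rw [← heapp, e.symm_apply_apply]
        exact (isOpen_Dir zs).mem_nhds hy
      filter_upwards [h4] with w hw
      have h5 := hiso _ hw
      rw [← heapp, e.apply_symm_apply] at h5
      exact h5
    have hk : Tendsto (fun t : ℝ => (t⁻¹ • (fderiv ℝ T (a + t • u₀) - fderiv ℝ T a)) y) U
        (𝓝 (fderiv ℝ (fderiv ℝ T) a u₀ y)) :=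
      tendsto_clm_apply ((tendsto_dslope (u := u₀) (hT2 a ha had)).mono_left hUne)
        tendsto_const_nhds
    have h1 := tendsto_slope_seq hYd hU hk
    have h2 : Tendsto (fun t : ℝ => t⁻¹ • (‖fderiv ℝ T a y
        + t • (t⁻¹ • (fderiv ℝ T (a + t • u₀) - fderiv ℝ T a)) y‖ - ‖fderiv ℝ T a y‖)) U
        (𝓝 0) := by
      refine Tendsto.congr' ?_ tendsto_const_nhds
      filter_upwards [hpos, hiso2 y hy] with t ht1 ht2
      have e1 : fderiv ℝ T a y + t • (t⁻¹ • (fderiv ℝ T (a + t • u₀) - fderiv ℝ T a)) y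
          = fderiv ℝ T (a + t • u₀) y := by
        rw [_root_.smul_apply, smul_smul, mul_inv_cancel₀ ht1.ne', one_smul, _root_.sub_apply]
        abel
      rw [e1, ht2, hiso y hy, sub_self, smul_zero]
    have h3 := tendsto_nhds_unique h1 h2
    rw [hζ] at h3
    simpa using h3
  -- conclusion
  let _ : MeasurableSpace X := borel X
  have _ : BorelSpace X := ⟨rfl⟩
  have hae : ∀ᵐ y ∂(vol X), y ∈ Dir zs → dN y (e.symm ζ) = 0 := by
    have hX : ∀ᵐ y ∂(vol X), DifferentiableAt ℝ (fun z : X => ‖z‖) y :=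
      (lipschitzWith_one_norm (E := X)).ae_differentiableAt (μ := vol X)
    have hnull : ∀ᵐ y ∂(vol X), fderiv ℝ dN a u₀ y ≠ 0 := by
      have hne : LinearMap.ker (fderiv ℝ dN a u₀ : X →ₗ[ℝ] ℝ) ≠ ⊤ := by
        intro htop
        apply hu₀
        ext v
        have hv : v ∈ LinearMap.ker (fderiv ℝ dN a u₀ : X →ₗ[ℝ] ℝ) := by
          rw [htop]
          exact Submodule.mem_top
        exact hv
      have h1 := addHaar_submodule (vol X) _ hne
      rw [ae_iff]
      refine measure_mono_null ?_ h1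
      intro v hv
      exact not_not.mp hv
    filter_upwards [hX, hnull] with y hy1 hy2 hy3
    exact (mul_eq_zero.mp (hkey y hy3 hy1)).resolve_left hy2
  have hz0 : e.symm ζ = 0 := eq_zero_of_Dir_ae hzs0 hae
  exact hζne (by simpa using hz0)

end SphereIso

end Vale.Agent.P084
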