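import Mathlib
import Vale.Agent.Lib.P084F.Leaf

open Filter Topology Module

namespace Vale.Agent.P084

variable {X : Type*} [NormedAddCommGroup X] [NormedSpace ℝ X]

/-
Proof.  `R w = δ (Φ w)`, `m w = e (Φ w) / δ (Φ w)`, `x = a + m z • v`; near `z`: `Φ w = R w • (a + m w • v)`, so `DΦ k = (DR k) • x + (R z * Dm k) • v` (or check this identity by
applying `hde` to `DΦ k` and the quotient rule for `Dm k`).  `Φ z = R z • x`, `R z > 0`, so `hess_smul`: `R z • fderiv dN (Φ z) = fderiv dN x`, `hess_self_left`, `hess_symm`: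
`fderiv dN (Φ z) (DΦ k) (DΦ l) = R z * Dm k * Dm l * fderiv dN x v v`, and `‖Φ z‖ = R z * ‖x‖` (`x ≠ 0` since `δ x = 1`; `‖x‖ ≠ 0`).
-/
theorem proj_hess {a v : X} {δ e : X →L[ℝ] ℝ} (hde : ∀ y, δ y • a + e y • v = y)
    (hδa : δ a = 1) (hδv : δ v = 0) (hea : e a = 0) (hev : e v = 1)
    {Φ : ℝ × ℝ → X} {z : ℝ × ℝ} (hΦ : DifferentiableAt ℝ Φ z) (hpos : 0 < δ (Φ z))
    (hN : ContDiffAt ℝ 2 (fun z : X => ‖z‖) (Φ z)) (k l : ℝ × ℝ) :
    fderiv ℝ dN (Φ z) (fderiv ℝ Φ z k) (fderiv ℝ Φ z l)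
      = ‖Φ z‖ * ((fderiv ℝ dN (a + (e (Φ z) / δ (Φ z)) • v) v v
          / ‖a + (e (Φ z) / δ (Φ z)) • v‖)
        * (fderiv ℝ (fun w => e (Φ w) / δ (Φ w)) z k
          * fderiv ℝ (fun w => e (Φ w) / δ (Φ w)) z l)) := by
  have hR : δ (Φ z) ≠ 0 := hpos.ne'
  -- derivatives of the coordinates
  have h1 : HasFDerivAt (fun w => δ (Φ w)) (δ.comp (fderiv ℝ Φ z)) z :=
    δ.hasFDerivAt.comp z hΦ.hasFDerivAt
  have h2 : HasFDerivAt (fun w => e (Φ w)) (e.comp (fderiv ℝ Φ z)) z :=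
    e.hasFDerivAt.comp z hΦ.hasFDerivAt
  have h1d : DifferentiableAt ℝ (fun w => δ (Φ w)) z := h1.differentiableAt
  have h2d : DifferentiableAt ℝ (fun w => e (Φ w)) z := h2.differentiableAt
  have hm : DifferentiableAt ℝ (fun w => e (Φ w) / δ (Φ w)) z := by
    have h := h2d.mul (h1d.inv hR)
    have hfun : (fun w => e (Φ w) / δ (Φ w))
        = (fun w => e (Φ w)) * (fun w => δ (Φ w))⁻¹ := by
      funext w
      exact div_eq_mul_inv _ _
    rw [hfun]
    exact h
  set m : ℝ := e (Φ z) / δ (Φ z) with hmdef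
  set R : ℝ := δ (Φ z) with hRdef
  have hme : e (Φ z) = m * R := by rw [hmdef]; field_simp
  have hDm : ∀ k : ℝ × ℝ, fderiv ℝ (fun w => e (Φ w) / δ (Φ w)) z k * R + m * δ (fderiv ℝ Φ z k)
      = e (fderiv ℝ Φ z k) := by
    intro k
    have h3 := hm.hasFDerivAt.mul h1
    have h4 : (fun w => e (Φ w) / δ (Φ w) * δ (Φ w)) =ᶠ[𝓝 z] fun w => e (Φ w) := by
      have h5 : ∀ᶠ w in 𝓝 z, δ (Φ w) ≠ 0 := h1.continuousAt.eventually_ne hR
      filter_upwards [h5] with w hw
      field_simp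
    have h6 := (h2.congr_of_eventuallyEq h4).unique h3
    have h7 := congrArg (fun L : ℝ × ℝ →L[ℝ] ℝ => L k) h6
    simp only [ContinuousLinearMap.comp_apply, _root_.add_apply, _root_.smul_apply,
      smul_eq_mul] at h7
    rw [h7]
    ring
  set x : X := a + m • v with hxdef
  have hΦx : Φ z = R • x := by
    rw [hxdef, smul_add, smul_smul, mul_comm R m, ← hme]
    exact (hde (Φ z)).symm
  have hδx : δ x = 1 := by
    rw [hxdef, map_add, map_smul, hδa, hδv, smul_zero, add_zero]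
  have hx0 : x ≠ 0 := by
    intro h
    rw [h, _root_.map_zero] at hδx
    exact zero_ne_one hδx
  have hnx : ‖x‖ ≠ 0 := norm_ne_zero_iff.mpr hx0
  have hNx : ContDiffAt ℝ 2 (fun z : X => ‖z‖) x := by
    have h := hN.contDiffAt_norm_smul (inv_ne_zero hR)
    rwa [hΦx, smul_smul, inv_mul_cancel₀ hR, one_smul] at h
  have hs := hess_smul hNx hpos
  have hD : ∀ k : ℝ × ℝ, fderiv ℝ Φ z k = δ (fderiv ℝ Φ z k) • x
      + (R * fderiv ℝ (fun w => e (Φ w) / δ (Φ w)) z k) • v := by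
    intro k
    have h := hde (fderiv ℝ Φ z k)
    rw [← hDm k] at h
    conv_lhs => rw [← h]
    rw [hxdef]
    module
  have hself : ∀ w, fderiv ℝ dN x x w = 0 := fun w => by rw [hess_self_left hNx]
  have hself2 : ∀ w, fderiv ℝ dN x w x = 0 := fun w => by rw [hess_symm hNx, hself]
  have hHess : fderiv ℝ dN (Φ z) = R⁻¹ • fderiv ℝ dN x := by
    rw [← hs, smul_smul, inv_mul_cancel₀ hR, one_smul, hΦx]
  have hnorm : ‖Φ z‖ = R * ‖x‖ := by
    rw [hΦx, norm_smul, Real.norm_of_nonneg hpos.le]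
  rw [hHess, hnorm, hD k, hD l]
  simp only [map_add, map_smul, _root_.add_apply, _root_.smul_apply, smul_eq_mul, hself, hself2]
  field_simp
  ring

/-
Proof.  `m w = e (Φ w) / δ (Φ w)`; `Dm w k = (e (DΦ w k) * δ (Φ w) - e (Φ w) * δ (DΦ w k)) / (δ (Φ w))^2` for `w` near `z`; differentiate at `z` in the direction `k`, using
`DΦ z k = 0` (so only the derivatives of `w ↦ DΦ w k` survive).  `fderiv (fderiv m) z k k` is the derivative of `w ↦ Dm w k` at `z` in the direction `k`.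
-/
theorem proj_snd {δ e : X →L[ℝ] ℝ} {Φ : ℝ × ℝ → X} {z : ℝ × ℝ} (hΦ : ContDiffAt ℝ 2 Φ z)
    (hpos : 0 < δ (Φ z)) {k : ℝ × ℝ} (hk : fderiv ℝ Φ z k = 0) :
    fderiv ℝ (fderiv ℝ (fun w => e (Φ w) / δ (Φ w))) z k k
      = (e (fderiv ℝ (fderiv ℝ Φ) z k k)
          - e (Φ z) / δ (Φ z) * δ (fderiv ℝ (fderiv ℝ Φ) z k k)) / δ (Φ z) := by
  have hR : δ (Φ z) ≠ 0 := hpos.ne'
  have hc1 : ContDiffAt ℝ 2 (fun w => δ (Φ w)) z := δ.contDiff.contDiffAt.comp z hΦ
  have hc2 : ContDiffAt ℝ 2 (fun w => e (Φ w)) z := e.contDiff.contDiffAt.comp z hΦ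
  have hm : ContDiffAt ℝ 2 (fun w => e (Φ w) / δ (Φ w)) z := hc2.div hc1 hR
  have hev : ∀ᶠ w in 𝓝 z, fderiv ℝ (fun w => e (Φ w) / δ (Φ w)) w k * δ (Φ w)
      + e (Φ w) / δ (Φ w) * δ (fderiv ℝ Φ w k) = e (fderiv ℝ Φ w k) := by
    have e1 := hΦ.eventually (by norm_num)
    have e2 := hm.eventually (by norm_num)
    have e3 : ∀ᶠ w in 𝓝 z, δ (Φ w) ≠ 0 := hc1.continuousAt.eventually_ne hR
    filter_upwards [e1, e2, e3, e3.eventually_nhds] with w w1 w2 w3 w4
    have hΦw : HasFDerivAt Φ (fderiv ℝ Φ w) w :=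
      (w1.differentiableAt (by norm_num)).hasFDerivAt
    have h1 : HasFDerivAt (fun w => δ (Φ w)) (δ.comp (fderiv ℝ Φ w)) w :=
      δ.hasFDerivAt.comp w hΦw
    have h2 : HasFDerivAt (fun w => e (Φ w)) (e.comp (fderiv ℝ Φ w)) w :=
      e.hasFDerivAt.comp w hΦw
    have h3 := (w2.differentiableAt (by norm_num)).hasFDerivAt.mul h1
    have h4 : (fun w => e (Φ w) / δ (Φ w) * δ (Φ w)) =ᶠ[𝓝 w] fun w => e (Φ w) := by
      filter_upwards [w4] with u hu
      field_simp
    have h6 := (h2.congr_of_eventuallyEq h4).unique h3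
    have h7 := congrArg (fun L : ℝ × ℝ →L[ℝ] ℝ => L k) h6
    simp only [ContinuousLinearMap.comp_apply, _root_.add_apply, _root_.smul_apply,
      smul_eq_mul] at h7
    rw [h7]
    ring
  -- differentiate once more
  have hΦz : HasFDerivAt Φ (fderiv ℝ Φ z) z := (hΦ.differentiableAt (by norm_num)).hasFDerivAt
  have g1 : HasFDerivAt (fun w => δ (Φ w)) (δ.comp (fderiv ℝ Φ z)) z :=
    δ.hasFDerivAt.comp z hΦz
  have g2 : HasFDerivAt (fun w => fderiv ℝ Φ w k) ((fderiv ℝ (fderiv ℝ Φ) z).flip k) z := by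
    have h := ((hΦ.fderiv_right (m := 1) (by norm_num)).differentiableAt
      (by norm_num)).hasFDerivAt.clm_apply (hasFDerivAt_const k z)
    refine h.congr_fderiv ?_
    ext <;> simp
  have g3 : HasFDerivAt (fun w => fderiv ℝ (fun w => e (Φ w) / δ (Φ w)) w k)
      ((fderiv ℝ (fderiv ℝ (fun w => e (Φ w) / δ (Φ w))) z).flip k) z := by
    have h := ((hm.fderiv_right (m := 1) (by norm_num)).differentiableAt
      (by norm_num)).hasFDerivAt.clm_apply (hasFDerivAt_const k z)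
    refine h.congr_fderiv ?_
    ext <;> simp
  have g4 : HasFDerivAt (fun w => e (Φ w) / δ (Φ w))
      (fderiv ℝ (fun w => e (Φ w) / δ (Φ w)) z) z :=
    (hm.differentiableAt (by norm_num)).hasFDerivAt
  have g5 : HasFDerivAt (fun w => δ (fderiv ℝ Φ w k))
      (δ.comp ((fderiv ℝ (fderiv ℝ Φ) z).flip k)) z := δ.hasFDerivAt.comp z g2
  have g6 : HasFDerivAt (fun w => e (fderiv ℝ Φ w k))
      (e.comp ((fderiv ℝ (fderiv ℝ Φ) z).flip k)) z := e.hasFDerivAt.comp z g2
  have g7 := (g3.mul g1).add (g4.mul g5)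
  have g8 := (g6.congr_of_eventuallyEq hev).unique g7
  have g9 := congrArg (fun L : ℝ × ℝ →L[ℝ] ℝ => L k) g8
  simp only [ContinuousLinearMap.comp_apply, _root_.add_apply, _root_.smul_apply, smul_eq_mul,
    ContinuousLinearMap.flip_apply, hk, _root_.map_zero, mul_zero, zero_mul, zero_add,
    add_zero] at g9
  rw [g9]
  field_simp
  ring

/-
Proof (coordinates).  `δ = ‖a‖⁻¹ • dN a`; `ker δ` is one dimensional, pick `v ≠ 0` in it; `e₀` a continuous functional with `e₀ v = 1`, `e = e₀ - e₀ a • δ`.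
`y - δ y • a - e y • v ∈ ker δ = span {v}` and is killed by `e`, so it is `0`.
-/
theorem exists_coords [FiniteDimensional ℝ X] (h2 : finrank ℝ X = 2) {a : X} (ha : a ≠ 0)
    (hX : DifferentiableAt ℝ (fun z : X => ‖z‖) a) :
    ∃ (v : X) (δ e : X →L[ℝ] ℝ), dN a v = 0 ∧ v ≠ 0 ∧ (∀ y, δ y • a + e y • v = y) ∧
      δ a = 1 ∧ δ v = 0 ∧ e a = 0 ∧ e v = 1 := by
  have hna : ‖a‖ ≠ 0 := norm_ne_zero_iff.mpr ha
  have hself : dN a a = ‖a‖ := dN_self hX
  set δ : X →L[ℝ] ℝ := ‖a‖⁻¹ • dN a with hδdef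
  have hδa : δ a = 1 := by
    rw [hδdef, _root_.smul_apply, hself, smul_eq_mul, inv_mul_cancel₀ hna]
  -- a vector outside the line
  obtain ⟨w, hw⟩ : ∃ w : X, w ∉ Submodule.span ℝ {a} := by
    by_contra hcon
    push Not at hcon
    have htop : Submodule.span ℝ {a} = ⊤ := by
      rw [Submodule.eq_top_iff']
      exact hcon
    have h1 := finrank_span_singleton (K := ℝ) ha
    rw [htop, finrank_top, h2] at h1
    norm_num at h1
  set v : X := w - δ w • a with hvdef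
  have hv0 : v ≠ 0 := by
    intro h
    apply hw
    rw [Submodule.mem_span_singleton]
    exact ⟨δ w, (sub_eq_zero.mp h).symm⟩
  have hδv : δ v = 0 := by
    rw [hvdef, map_sub, map_smul, hδa, smul_eq_mul, mul_one, sub_self]
  have hdv : dN a v = 0 := by
    have h : ‖a‖⁻¹ * dN a v = 0 := hδv
    exact (mul_eq_zero.mp h).resolve_left (inv_ne_zero hna)
  have hli : LinearIndependent ℝ ![a, v] := by
    rw [LinearIndependent.pair_iff]
    intro s t hst
    have h1 := congrArg δ hst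
    rw [map_add, map_smul, map_smul, hδa, hδv, smul_zero, add_zero, smul_eq_mul, mul_one,
      _root_.map_zero] at h1
    refine ⟨h1, ?_⟩
    rw [h1, zero_smul, zero_add] at hst
    exact (smul_eq_zero.mp hst).resolve_right hv0
  let b := basisOfLinearIndependentOfCardEqFinrank hli (by rw [h2]; rfl)
  have hb : ⇑b = ![a, v] := coe_basisOfLinearIndependentOfCardEqFinrank hli _
  have hrepr : ∀ y, b.repr y 0 • a + b.repr y 1 • v = y := by
    intro y
    have h := b.sum_repr y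
    rw [Fin.sum_univ_two, hb] at h
    exact h
  have hδy : ∀ y, δ y = b.repr y 0 := by
    intro y
    conv_lhs => rw [← hrepr y]
    rw [map_add, map_smul, map_smul, hδa, hδv, smul_zero, add_zero, smul_eq_mul, mul_one]
  refine ⟨v, δ, LinearMap.toContinuousLinearMap (b.coord 1), hdv, hv0, ?_, hδa, hδv, ?_, ?_⟩
  · intro y
    rw [hδy]
    exact hrepr y
  · have h := hrepr a
    rw [← hδy, hδa, one_smul] at h
    have h' : b.repr a 1 • v = 0 := by simpa using h
    exact (smul_eq_zero.mp h').resolve_right hv0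
  · have h := hrepr v
    rw [← hδy, hδv, zero_smul, zero_add] at h
    have h' : (b.repr v 1 - 1) • v = 0 := by rw [sub_smul, one_smul, h, sub_self]
    have h'' := (smul_eq_zero.mp h').resolve_right hv0
    exact sub_eq_zero.mp h''

/-- Proof.  `fderiv dN x k k = 0` implies `fderiv dN x k = 0` (positive semidefinite, see `leaf_hess_eq_zero` in Leaf.lean, `sndZ_psd`), `fderiv dN x x = 0`
(`hess_self_left`); every vector is `α • x + β • k` (dimension two, `dN x k = 0`, `k ≠ 0`, `dN x x = ‖x‖ ≠ 0`). -/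
theorem hess_eq_zero_two [FiniteDimensional ℝ X] (h2 : finrank ℝ X = 2) {x k : X} (hx : x ≠ 0)
    (hX : ContDiffAt ℝ 2 (fun z : X => ‖z‖) x) (hk0 : k ≠ 0) (hkx : dN x k = 0)
    (hk : fderiv ℝ dN x k k = 0) : fderiv ℝ dN x = 0 := by
  have hXd : DifferentiableAt ℝ (fun z : X => ‖z‖) x := hX.differentiableAt (by norm_num)
  obtain ⟨v, δ, e, hdv, hv0, hde, hδa, hδv, hea, hev⟩ := exists_coords h2 hx hXd
  have hnx : ‖x‖ ≠ 0 := norm_ne_zero_iff.mpr hx
  have h1 : fderiv ℝ dN x k = 0 := leaf_hess_eq_zero hX hk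
  have h3 : fderiv ℝ dN x x = 0 := by
    ext w
    rw [hess_self_left hX, _root_.zero_apply]
  have hδk : δ k = 0 := by
    have h := congrArg (dN x) (hde k)
    rw [map_add, map_smul, map_smul, hdv, hkx, smul_zero, add_zero, dN_self hXd, smul_eq_mul] at h
    exact (mul_eq_zero.mp h).resolve_right hnx
  have hek : e k • v = k := by
    have h := hde k
    rwa [hδk, zero_smul, zero_add] at h
  have hek0 : e k ≠ 0 := by
    intro h
    rw [h, zero_smul] at hek
    exact hk0 hek.symm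
  have h4 : fderiv ℝ dN x v = 0 := by
    rw [← hek, map_smul] at h1
    exact (smul_eq_zero.mp h1).resolve_left hek0
  apply ContinuousLinearMap.ext
  intro y
  rw [← hde y, map_add, map_smul, map_smul, h3, h4, smul_zero, smul_zero, add_zero,
    _root_.zero_apply]

end Vale.Agent.P084
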