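import Mathlib
import Vale.Agent.Lib.P084F.D2Defs
import Vale.Agent.Lib.P084F.D2Proj

open Filter Topology Module Metric Set

namespace Vale.Agent.P084

variable {X Y : Type*} [NormedAddCommGroup X] [NormedSpace ℝ X] [NormedAddCommGroup Y]
  [NormedSpace ℝ Y] [FiniteDimensional ℝ X] [FiniteDimensional ℝ Y] {T : X → Y}

namespace SphereIso

omit [FiniteDimensional ℝ X] [FiniteDimensional ℝ Y] in
/-- derivative of the determinant of a family of operators in coordinates -/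
theorem d2det_hasFDerivAt {D : X → X →L[ℝ] Y} {L : X →L[ℝ] X →L[ℝ] Y} {x : X}
    (hD : HasFDerivAt D L x) (y₁ y₂ : Y →L[ℝ] ℝ) (e₁ e₂ : X) (w : X) :
    HasDerivAt (fun t : ℝ => y₁ (D (x + t • w) e₁) * y₂ (D (x + t • w) e₂)
        - y₁ (D (x + t • w) e₂) * y₂ (D (x + t • w) e₁))
      (y₁ (L w e₁) * y₂ (D x e₂) + y₁ (D x e₁) * y₂ (L w e₂)
        - (y₁ (L w e₂) * y₂ (D x e₁) + y₁ (D x e₂) * y₂ (L w e₁))) 0 := by
  have h0 : HasDerivAt (fun t : ℝ => D (x + t • w)) (L w) 0 := by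
    have h1 : HasDerivAt (fun t : ℝ => x + t • w) w 0 := by
      simpa using ((hasDerivAt_id (0 : ℝ)).smul_const w).const_add x
    have h2 : HasFDerivAt D L (x + (0 : ℝ) • w) := by simpa using hD
    exact h2.comp_hasDerivAt (0 : ℝ) h1
  have hc : ∀ (y : Y →L[ℝ] ℝ) (e : X),
      HasDerivAt (fun t : ℝ => y (D (x + t • w) e)) (y (L w e)) 0 := by
    intro y e
    have h3 : HasDerivAt (fun t : ℝ => D (x + t • w) e) (L w e) 0 := by
      have h4 := h0.clm_apply (hasDerivAt_const (0 : ℝ) e)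
      exact h4.congr_deriv (by simp)
    exact y.hasFDerivAt.comp_hasDerivAt (0 : ℝ) h3
  have h5 := ((hc y₁ e₁).mul (hc y₂ e₂)).sub ((hc y₁ e₂).mul (hc y₂ e₁))
  refine (h5.congr_deriv ?_)
  simp

theorem det_false (hT : SphereIso T) (hfin : finrank ℝ X = finrank ℝ Y) (h2 : finrank ℝ X = 2)
    (hN2 : ∀ a : X, a ≠ 0 → ContDiffAt ℝ 2 (fun z : X => ‖z‖) a)
    (hY2 : ∀ a : X, a ≠ 0 → ContDiffAt ℝ 2 (fun z : Y => ‖z‖) (T a))
    (hT2 : ∀ a : X, a ≠ 0 → ContDiffAt ℝ 2 T a)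
    (hact : ∀ a : X, a ≠ 0 → fderiv ℝ (fderiv ℝ T) a ≠ 0) : False := by
  classical
  have h2Y : finrank ℝ Y = 2 := by rw [← hfin, h2]
  let b : Basis (Fin 2) ℝ X := finBasisOfFinrankEq ℝ X h2
  let c : Basis (Fin 2) ℝ Y := finBasisOfFinrankEq ℝ Y h2Y
  set e₁ : X := b 0 with he₁
  set e₂ : X := b 1 with he₂
  let y₁ : Y →L[ℝ] ℝ := (c.coord 0).toContinuousLinearMap
  let y₂ : Y →L[ℝ] ℝ := (c.coord 1).toContinuousLinearMap
  have hy₁ : ∀ y, y₁ y = c.repr y 0 := fun y => rfl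
  have hy₂ : ∀ y, y₂ y = c.repr y 1 := fun y => rfl
  have hY0 : ∀ y : Y, y₁ y = 0 → y₂ y = 0 → y = 0 := by
    intro y h1 h3
    apply c.repr.injective
    rw [_root_.map_zero]
    ext i
    fin_cases i
    · simpa [hy₁] using h1
    · simpa [hy₂] using h3
  have he₁0 : e₁ ≠ 0 := b.ne_zero 0
  have hexp : ∀ v : X, v = (b.repr v 0) • e₁ + (b.repr v 1) • e₂ := by
    intro v
    have := b.sum_repr v
    rw [Fin.sum_univ_two] at this
    exact this.symm
  set d : X → ℝ := fun x => y₁ (fderiv ℝ T x e₁) * y₂ (fderiv ℝ T x e₂)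
    - y₁ (fderiv ℝ T x e₂) * y₂ (fderiv ℝ T x e₁) with hd
  have hTd : ∀ a : X, a ≠ 0 → DifferentiableAt ℝ T a := fun a ha =>
    (hT2 a ha).differentiableAt (by norm_num)
  have hDT : ∀ a : X, a ≠ 0 → DifferentiableAt ℝ (fderiv ℝ T) a := fun a ha =>
    ((hT2 a ha).fderiv_right (m := 1) (by norm_num)).differentiableAt (by norm_num)
  have hdc : ∀ a : X, a ≠ 0 → ContinuousAt d a := by
    intro a ha
    have h3 := (hDT a ha).continuousAt
    have h4 : ∀ (y : Y →L[ℝ] ℝ) (e : X), ContinuousAt (fun x => y (fderiv ℝ T x e)) a := by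
      intro y e
      exact y.continuous.continuousAt.comp (h3.clm_apply continuousAt_const)
    exact ((h4 y₁ e₁).mul (h4 y₂ e₂)).sub ((h4 y₁ e₂).mul (h4 y₂ e₁))
  have hds : ∀ (a : X) (r : ℝ), a ≠ 0 → r ≠ 0 → d (r • a) = d a := by
    intro a r ha hr
    simp only [hd]
    rw [hT.fderiv_smul_eq (hTd a ha) hr]
  -- maximum point
  have hne : (sphere (0 : X) 1).Nonempty := by
    refine ⟨‖e₁‖⁻¹ • e₁, ?_⟩
    rw [mem_sphere_zero_iff_norm, norm_smul, norm_inv, norm_norm,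
      inv_mul_cancel₀ (norm_ne_zero_iff.mpr he₁0)]
  have hsph0 : ∀ x ∈ sphere (0 : X) 1, x ≠ 0 := by
    intro x hx h0
    rw [mem_sphere_zero_iff_norm, h0, norm_zero] at hx
    norm_num at hx
  obtain ⟨x₁, hx₁, hmax⟩ := (isCompact_sphere (0 : X) 1).exists_isMaxOn hne
    (f := d) (fun x hx => (hdc x (hsph0 x hx)).continuousWithinAt)
  have hx₁0 : x₁ ≠ 0 := hsph0 x₁ hx₁
  have hmax' : ∀ x : X, x ≠ 0 → d x ≤ d x₁ := by
    intro x hx
    have hnx : ‖x‖ ≠ 0 := norm_ne_zero_iff.mpr hx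
    have h3 : ‖x‖⁻¹ • x ∈ sphere (0 : X) 1 := by
      rw [mem_sphere_zero_iff_norm, norm_smul, norm_inv, norm_norm, inv_mul_cancel₀ hnx]
    have h4 := hmax h3
    simp only [mem_ofPred_eq] at h4
    rwa [hds x _ hx (inv_ne_zero hnx)] at h4
  -- structure of the second derivative
  obtain ⟨ζ, hζN, hζ⟩ := hT.snd_eq_smul hfin hx₁0 (hN2 x₁ hx₁0) (hY2 x₁ hx₁0) (hT2 x₁ hx₁0)
  obtain ⟨p, hp⟩ := hT.sndZ_surj hfin hx₁0 (hN2 x₁ hx₁0) (hY2 x₁ hx₁0) (hT2 x₁ hx₁0) ζ
  have hXd : DifferentiableAt ℝ (fun z : X => ‖z‖) x₁ := (hN2 x₁ hx₁0).differentiableAt (by norm_num)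
  have hYd : DifferentiableAt ℝ (fun z : Y => ‖z‖) (T x₁) :=
    (hY2 x₁ hx₁0).differentiableAt (by norm_num)
  have hinj := hT.fderiv_injective hx₁0 (hTd x₁ hx₁0) hXd hYd
  set D : X →L[ℝ] Y := fderiv ℝ T x₁ with hDdef
  have hinj0 : ∀ v, D v = 0 → v = 0 := by
    intro v hv
    apply hinj
    rw [hv, _root_.map_zero]
  -- the determinant does not vanish
  have hdx : d x₁ ≠ 0 := by
    intro h0
    have h0' : y₁ (D e₁) * y₂ (D e₂) - y₁ (D e₂) * y₂ (D e₁) = 0 := h0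
    have hlin : ∀ α β : ℝ, α • e₁ + β • e₂ = 0 → α = 0 ∧ β = 0 := by
      intro α β h
      have h5 := congrArg b.repr h
      rw [_root_.map_add, _root_.map_smul, _root_.map_smul, _root_.map_zero] at h5
      have h6 := DFunLike.congr_fun h5 (0 : Fin 2)
      have h7 := DFunLike.congr_fun h5 (1 : Fin 2)
      simp [he₁, he₂] at h6 h7
      exact ⟨h6, h7⟩
    have hv1 : (y₁ (D e₂)) • e₁ + (-(y₁ (D e₁))) • e₂ = 0 := by
      apply hinj0
      apply hY0
      · simp only [_root_.map_add, _root_.map_smul, smul_eq_mul]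
        ring
      · simp only [_root_.map_add, _root_.map_smul, smul_eq_mul]
        linarith
    have hv2 : (y₂ (D e₂)) • e₁ + (-(y₂ (D e₁))) • e₂ = 0 := by
      apply hinj0
      apply hY0
      · simp only [_root_.map_add, _root_.map_smul, smul_eq_mul]
        linarith
      · simp only [_root_.map_add, _root_.map_smul, smul_eq_mul]
        ring
    obtain ⟨_, h8⟩ := hlin _ _ hv1
    obtain ⟨_, h9⟩ := hlin _ _ hv2
    apply he₁0
    apply hinj0
    apply hY0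
    · linarith
    · linarith
  -- first order condition
  have hBp : ∀ w : X, fderiv ℝ dN x₁ w p = 0 := by
    intro w
    have hder := d2det_hasFDerivAt (hDT x₁ hx₁0).hasFDerivAt y₁ y₂ e₁ e₂ w
    have hloc : IsLocalMax (fun t : ℝ => y₁ (fderiv ℝ T (x₁ + t • w) e₁)
        * y₂ (fderiv ℝ T (x₁ + t • w) e₂)
        - y₁ (fderiv ℝ T (x₁ + t • w) e₂) * y₂ (fderiv ℝ T (x₁ + t • w) e₁)) 0 := by
      have hline := line_ne_eventually hx₁0 w
      filter_upwards [hline] with t ht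
      have h3 := hmax' _ ht
      have h4 : x₁ + (0 : ℝ) • w = x₁ := by simp
      rw [h4]
      exact h3
    have h3 := hloc.hasDerivAt_eq_zero hder
    have hpe := hexp p
    have hζ' : ζ = (b.repr p 0) • D e₁ + (b.repr p 1) • D e₂ := by
      rw [← hp]
      conv_lhs => rw [hpe]
      rw [_root_.map_add, _root_.map_smul, _root_.map_smul]
    have hBwp : fderiv ℝ dN x₁ w p
        = (b.repr p 0) * fderiv ℝ dN x₁ w e₁ + (b.repr p 1) * fderiv ℝ dN x₁ w e₂ := by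
      conv_lhs => rw [hpe]
      rw [_root_.map_add, _root_.map_smul, _root_.map_smul, smul_eq_mul, smul_eq_mul]
    rw [hζ w e₁, hζ w e₂] at h3
    simp only [_root_.map_smul, smul_eq_mul] at h3
    have e1 : y₁ ζ = (b.repr p 0) * y₁ (D e₁) + (b.repr p 1) * y₁ (D e₂) := by
      conv_lhs => rw [hζ']
      rw [_root_.map_add, _root_.map_smul, _root_.map_smul, smul_eq_mul, smul_eq_mul]
    have e2 : y₂ ζ = (b.repr p 0) * y₂ (D e₁) + (b.repr p 1) * y₂ (D e₂) := by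
      conv_lhs => rw [hζ']
      rw [_root_.map_add, _root_.map_smul, _root_.map_smul, smul_eq_mul, smul_eq_mul]
    rw [e1, e2] at h3
    have h4 : d x₁ * fderiv ℝ dN x₁ w p = 0 := by
      rw [hBwp]
      simp only [hd]
      rw [← h3]
      ring
    exact (mul_eq_zero.1 h4).resolve_left hdx
  have hp0 : p ≠ 0 := by
    intro h0
    apply hact x₁ hx₁0
    ext u v
    rw [hζ u v, ← hp, h0, _root_.map_zero, smul_zero]
    rfl
  have hpN : dN x₁ p = 0 := by
    rw [← hT.dN_apply (hTd x₁ hx₁0) hYd, hp]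
    exact hζN
  have hB0 : fderiv ℝ dN x₁ = 0 :=
    hess_eq_zero_two h2 hx₁0 (hN2 x₁ hx₁0) hp0 hpN (hBp p)
  apply hact x₁ hx₁0
  ext u v
  rw [hζ u v, hB0]
  simp

end SphereIso

end Vale.Agent.P084
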