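import Mathlib

open Filter Topology Set

namespace Vale.Agent.P084

theorem eik_pathX (h t : ℝ) : HasDerivAt (fun t : ℝ => ((t + h, t - h) : ℝ × ℝ)) (1, 1) t :=
  ((hasDerivAt_id t).add_const h).prodMk ((hasDerivAt_id t).sub_const h)

theorem eik_pathH (x t : ℝ) : HasDerivAt (fun t : ℝ => ((x + t, x - t) : ℝ × ℝ)) (1, -1) t :=
  ((hasDerivAt_id t).const_add x).prodMk ((hasDerivAt_id t).const_sub x)

theorem eik_derX {m : ℝ × ℝ → ℝ} {x h : ℝ} (hm : DifferentiableAt ℝ m (x + h, x - h)) :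
    HasDerivAt (fun t => m (t + h, t - h)) (fderiv ℝ m (x + h, x - h) (1, 1)) x :=
  HasFDerivAt.comp_hasDerivAt (f := fun t : ℝ => ((t + h, t - h) : ℝ × ℝ)) x hm.hasFDerivAt
    (eik_pathX h x)

theorem eik_derH {m : ℝ × ℝ → ℝ} {x h : ℝ} (hm : DifferentiableAt ℝ m (x + h, x - h)) :
    HasDerivAt (fun t => m (x + t, x - t)) (fderiv ℝ m (x + h, x - h) (1, -1)) h :=
  HasFDerivAt.comp_hasDerivAt (f := fun t : ℝ => ((x + t, x - t) : ℝ × ℝ)) h hm.hasFDerivAt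
    (eik_pathH x h)

theorem eik_sym {m : ℝ × ℝ → ℝ} (hs : ∀ z : ℝ × ℝ, m (z.2, z.1) = m z) {x : ℝ}
    (hm : DifferentiableAt ℝ m (x, x)) : fderiv ℝ m (x, x) (1, -1) = 0 := by
  have h1 : HasDerivAt (fun t => m (x + t, x - t)) (fderiv ℝ m (x, x) (1, -1)) 0 := by
    have h2 := eik_derH (m := m) (x := x) (h := 0) (by simpa using hm)
    simpa using h2
  have h3 : HasDerivAt (fun t => m (x + (-t), x - (-t))) (-(fderiv ℝ m (x, x) (1, -1))) 0 := by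
    have h4 : HasDerivAt (fun t => m (x + t, x - t)) (fderiv ℝ m (x, x) (1, -1)) (-(0 : ℝ)) := by
      simpa using h1
    have h5 := HasDerivAt.comp (0 : ℝ) h4 (hasDerivAt_neg (0 : ℝ))
    simpa [Function.comp_def] using h5
  have h6 : (fun t => m (x + (-t), x - (-t))) = fun t => m (x + t, x - t) := by
    funext t
    have h7 := hs (x + t, x - t)
    simp only at h7
    rw [← h7]
    congr 1
    ext
    · simp only
      ring
    · simp only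
      ring
  rw [h6] at h3
  have h8 := h1.unique h3
  linarith

theorem eik_diag {m : ℝ × ℝ → ℝ} (hd : ∀ᶠ x in 𝓝 (0 : ℝ), m (x, x) = x)
    (hm : DifferentiableAt ℝ m 0) : fderiv ℝ m 0 (1, 1) = 1 := by
  have h1 : HasDerivAt (fun t => m (t + 0, t - 0)) (fderiv ℝ m 0 (1, 1)) 0 := by
    have h2 := eik_derX (m := m) (x := 0) (h := 0) (by simpa [Prod.mk_zero_zero] using hm)
    simpa [Prod.mk_zero_zero] using h2
  have h3 : HasDerivAt (fun t : ℝ => t) (fderiv ℝ m 0 (1, 1)) 0 := by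
    refine h1.congr_of_eventuallyEq ?_
    filter_upwards [hd] with t ht
    rw [add_zero, sub_zero, ht]
  exact h3.unique (hasDerivAt_id' 0)

theorem eik_claimA0 {m : ℝ × ℝ → ℝ} {y : ℝ}
    (hm : ContDiffAt ℝ 2 m (y, y))
    (hsym : ∀ᶠ x in 𝓝 y, fderiv ℝ m (x, x) (1, -1) = 0) :
    (fun p : ℝ × ℝ => fderiv ℝ m (p.2 + p.1, p.2 - p.1) (1, -1)
      - p.1 * fderiv ℝ (fderiv ℝ m) (y, y) (1, -1) (1, -1))
      =o[𝓝 ((0 : ℝ), y)] fun p => p.1 := by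
  have hf : ContDiffAt ℝ 1 (fderiv ℝ m) (y, y) := hm.fderiv_right (by norm_num)
  have hstrict := hf.hasStrictFDerivAt (by norm_num)
  have ho := hstrict.isLittleO
  set φ : ℝ × ℝ → (ℝ × ℝ) × (ℝ × ℝ) := fun p => ((p.2 + p.1, p.2 - p.1), (p.2, p.2)) with hφ
  have hφc : Tendsto φ (𝓝 ((0 : ℝ), y)) (𝓝 ((y, y), (y, y))) := by
    have hc : Continuous φ := by
      simp only [hφ]
      fun_prop
    have := hc.tendsto ((0 : ℝ), y)
    simpa [hφ] using this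
  have ho2 := ho.comp_tendsto hφc
  have hev := (ContinuousLinearMap.apply ℝ ℝ ((1 : ℝ), (-1 : ℝ))).isBigO_comp
    (fun p => ((fun q : (ℝ × ℝ) × (ℝ × ℝ) => fderiv ℝ m q.1 - fderiv ℝ m q.2 -
      fderiv ℝ (fderiv ℝ m) (y, y) (q.1 - q.2)) ∘ φ) p) (𝓝 ((0 : ℝ), y))
  have ho3 := hev.trans_isLittleO ho2
  have hn : ((fun q : (ℝ × ℝ) × (ℝ × ℝ) => q.1 - q.2) ∘ φ) =O[𝓝 ((0 : ℝ), y)] fun p => p.1 := by
    refine Asymptotics.IsBigO.of_bound 1 (Eventually.of_forall fun p => ?_)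
    simp only [Function.comp_apply, hφ, one_mul]
    rw [Prod.norm_def]
    simp
  have ho4 := ho3.trans_isBigO hn
  have hpt : Tendsto (fun p : ℝ × ℝ => p.2) (𝓝 ((0 : ℝ), y)) (𝓝 y) :=
    continuous_snd.tendsto ((0 : ℝ), y)
  refine ho4.congr' ?_ EventuallyEq.rfl
  filter_upwards [hpt.eventually hsym] with p hp
  simp only [Function.comp_apply, hφ, ContinuousLinearMap.apply_apply]
  have e : ((p.2 + p.1, p.2 - p.1) : ℝ × ℝ) - (p.2, p.2) = p.1 • ((1 : ℝ), (-1 : ℝ)) := by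
    ext
    · simp
    · simp
  rw [e, map_smul]
  simp only [_root_.sub_apply, _root_.smul_apply, smul_eq_mul, hp, sub_zero]

theorem eik_claimA {ρ : ℝ → ℝ} (hρ : Continuous ρ) {m : ℝ × ℝ → ℝ} {y : ℝ}
    (hm : ContDiffAt ℝ 2 m (y, y)) (hy : m (y, y) = y)
    (hsym : ∀ᶠ x in 𝓝 y, fderiv ℝ m (x, x) (1, -1) = 0) :
    (fun p : ℝ × ℝ => ρ (m (p.2 + p.1, p.2 - p.1)) * fderiv ℝ m (p.2 + p.1, p.2 - p.1) (1, -1)
      - p.1 * (ρ y * fderiv ℝ (fderiv ℝ m) (y, y) (1, -1) (1, -1)))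
      =o[𝓝 ((0 : ℝ), y)] fun p => p.1 := by
  have h0 := eik_claimA0 hm hsym
  set c := fderiv ℝ (fderiv ℝ m) (y, y) (1, -1) (1, -1) with hc
  have hpath : Tendsto (fun p : ℝ × ℝ => ((p.2 + p.1, p.2 - p.1) : ℝ × ℝ)) (𝓝 ((0 : ℝ), y))
      (𝓝 (y, y)) := by
    have hc : Continuous (fun p : ℝ × ℝ => ((p.2 + p.1, p.2 - p.1) : ℝ × ℝ)) := by fun_prop
    have := hc.tendsto ((0 : ℝ), y)
    simpa using this
  have hρm : Tendsto (fun p : ℝ × ℝ => ρ (m (p.2 + p.1, p.2 - p.1))) (𝓝 ((0 : ℝ), y))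
      (𝓝 (ρ y)) := by
    have h1 : Tendsto m (𝓝 (y, y)) (𝓝 y) := by
      have := hm.continuousAt
      unfold ContinuousAt at this
      rwa [hy] at this
    exact (hρ.tendsto y).comp (h1.comp hpath)
  have hA := (hρm.isBigO_one ℝ).mul_isLittleO h0
  have hB : (fun p : ℝ × ℝ => ρ (m (p.2 + p.1, p.2 - p.1)) - ρ y) =o[𝓝 ((0 : ℝ), y)]
      (fun _ => (1 : ℝ)) := by
    rw [Asymptotics.isLittleO_one_iff]
    have := hρm.sub_const (ρ y)
    simpa using this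
  have hC : (fun p : ℝ × ℝ => c * p.1) =O[𝓝 ((0 : ℝ), y)] fun p => p.1 :=
    (Asymptotics.isBigO_refl _ _).const_mul_left c
  have hD := hB.mul_isBigO hC
  refine (hA.add hD).congr (fun p => ?_) (fun p => one_mul p.1)
  ring

theorem eik_claimC {e F : ℝ → ℝ} {Λ r : ℝ} (hr : 0 < r) (he0 : e 0 = 0)
    (he : ∀ h, |h| ≤ r → HasDerivAt e (F h) h)
    (hF : (fun h => F h - h * Λ) =o[𝓝 0] fun h => h) {ε : ℝ} (hε : 0 < ε) :
    ∀ᶠ h in 𝓝[>] (0 : ℝ), |e h - h ^ 2 / 2 * Λ| ≤ ε * h ^ 2 := by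
  have h1 := hF.bound hε
  rw [Metric.eventually_nhds_iff] at h1
  obtain ⟨δ, hδ, h2⟩ := h1
  have h3 : ∀ᶠ h in 𝓝[>] (0 : ℝ), h ∈ Ioo (0 : ℝ) (min δ r) :=
    Ioo_mem_nhdsGT (lt_min hδ hr)
  filter_upwards [h3] with h hh
  have hh0 : 0 < h := hh.1
  have hhδ : h < δ := lt_of_lt_of_le hh.2 (min_le_left _ _)
  have hhr : h < r := lt_of_lt_of_le hh.2 (min_le_right _ _)
  have key := Convex.norm_image_sub_le_of_norm_hasDerivWithin_le
    (f := fun s => e s - s ^ 2 / 2 * Λ) (f' := fun s => F s - s * Λ) (C := ε * h)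
    (s := Icc (0 : ℝ) h) (x := 0) (y := h)
    (by
      intro s hs
      have hs' : |s| ≤ r := by
        rw [abs_of_nonneg hs.1]
        linarith [hs.2]
      have d1 : HasDerivAt (fun s : ℝ => s ^ 2 / 2 * Λ) (s * Λ) s := by
        have := (((hasDerivAt_id s).pow 2).div_const 2).mul_const Λ
        refine this.congr_deriv ?_
        simp
      exact ((he s hs').sub d1).hasDerivWithinAt)
    (by
      intro s hs
      have hs' : dist s 0 < δ := by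
        rw [Real.dist_eq, sub_zero, abs_of_nonneg hs.1]
        linarith [hs.2]
      have h4 := h2 hs'
      refine h4.trans ?_
      rw [Real.norm_eq_abs, abs_of_nonneg hs.1]
      exact mul_le_mul_of_nonneg_left hs.2 hε.le)
    (convex_Icc _ _) (left_mem_Icc.2 hh0.le) (right_mem_Icc.2 hh0.le)
  simp only [he0] at key
  rw [Real.norm_eq_abs, Real.norm_eq_abs, sub_zero, abs_of_pos hh0] at key
  have e1 : e h - h ^ 2 / 2 * Λ - (0 - 0 ^ 2 / 2 * Λ) = e h - h ^ 2 / 2 * Λ := by ring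
  rw [e1] at key
  linarith [key, show ε * h * h = ε * h ^ 2 by ring]

/-- the algebraic inequality -/
theorem eik_alg {r0 r1 a0 a1 b0 b1 C h : ℝ} (hr0 : 0 ≤ r0) (hr1 : 0 ≤ r1) (ha0 : 1 / 2 ≤ a0)
    (ha1 : 1 / 2 ≤ a1) (hb0 : |b0| ≤ C * |h|) (hb1 : |b1| ≤ C * |h|)
    (heq : r0 ^ 2 * (a0 ^ 2 - b0 ^ 2) = r1 ^ 2 * (a1 ^ 2 - b1 ^ 2)) :
    |r1 * a1 - r0 * a0| ≤ 2 * C * |h| * |r1 * b1 - r0 * b0| := by
  have h1 : (r1 * a1 - r0 * a0) * (r1 * a1 + r0 * a0) =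
      (r1 * b1 - r0 * b0) * (r1 * b1 + r0 * b0) := by nlinarith
  have h2 : |r1 * b1 + r0 * b0| ≤ C * |h| * (r1 + r0) := by
    calc |r1 * b1 + r0 * b0| ≤ |r1 * b1| + |r0 * b0| := abs_add_le _ _
      _ = r1 * |b1| + r0 * |b0| := by rw [abs_mul, abs_mul, abs_of_nonneg hr0, abs_of_nonneg hr1]
      _ ≤ r1 * (C * |h|) + r0 * (C * |h|) :=
        add_le_add (mul_le_mul_of_nonneg_left hb1 hr1) (mul_le_mul_of_nonneg_left hb0 hr0)
      _ = C * |h| * (r1 + r0) := by ring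
  have h3 : (r1 + r0) / 2 ≤ r1 * a1 + r0 * a0 := by nlinarith
  rcases eq_or_lt_of_le (add_nonneg hr1 hr0) with h4 | h4
  · have h5 : r1 = 0 := by linarith
    have h6 : r0 = 0 := by linarith
    rw [h5, h6]
    simp
  · have h5 : |r1 * a1 - r0 * a0| * ((r1 + r0) / 2) ≤
        (2 * C * |h| * |r1 * b1 - r0 * b0|) * ((r1 + r0) / 2) := by
      calc |r1 * a1 - r0 * a0| * ((r1 + r0) / 2)
          ≤ |r1 * a1 - r0 * a0| * (r1 * a1 + r0 * a0) :=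
            mul_le_mul_of_nonneg_left h3 (abs_nonneg _)
        _ = |(r1 * a1 - r0 * a0) * (r1 * a1 + r0 * a0)| := by
            rw [abs_mul, abs_of_nonneg (show 0 ≤ r1 * a1 + r0 * a0 by linarith)]
        _ = |r1 * b1 - r0 * b0| * |r1 * b1 + r0 * b0| := by rw [h1, abs_mul]
        _ ≤ |r1 * b1 - r0 * b0| * (C * |h| * (r1 + r0)) :=
            mul_le_mul_of_nonneg_left h2 (abs_nonneg _)
        _ = (2 * C * |h| * |r1 * b1 - r0 * b0|) * ((r1 + r0) / 2) := by ring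
    exact le_of_mul_le_mul_right h5 (by linarith)

/-- the local data of one function -/
theorem eik_local {m : ℝ × ℝ → ℝ} (h0 : ContDiffAt ℝ 2 m 0)
    (h0d : ∀ᶠ x in 𝓝 (0 : ℝ), m (x, x) = x)
    (h0s : ∀ z : ℝ × ℝ, m (z.2, z.1) = m z) :
    ∃ C : ℝ, 0 ≤ C ∧ ∀ᶠ p in 𝓝 (0 : ℝ × ℝ), ContDiffAt ℝ 2 m (p.1 + p.2, p.1 - p.2) ∧
      1 / 2 ≤ fderiv ℝ m (p.1 + p.2, p.1 - p.2) (1, 1) ∧
      |fderiv ℝ m (p.1 + p.2, p.1 - p.2) (1, -1)| ≤ C * |p.2| := by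
  have hf : ContDiffAt ℝ 1 (fderiv ℝ m) 0 := h0.fderiv_right (by norm_num)
  obtain ⟨K, t, ht, hK⟩ := hf.exists_lipschitzOnWith
  have hT : Tendsto (fun p : ℝ × ℝ => ((p.1 + p.2, p.1 - p.2) : ℝ × ℝ)) (𝓝 0) (𝓝 0) := by
    have hc : Continuous (fun p : ℝ × ℝ => ((p.1 + p.2, p.1 - p.2) : ℝ × ℝ)) := by fun_prop
    have := hc.tendsto (0 : ℝ × ℝ)
    simpa [Prod.mk_zero_zero] using this
  have hT2 : Tendsto (fun p : ℝ × ℝ => ((p.1, p.1) : ℝ × ℝ)) (𝓝 0) (𝓝 0) := by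
    have hc : Continuous (fun p : ℝ × ℝ => ((p.1, p.1) : ℝ × ℝ)) := by fun_prop
    have := hc.tendsto (0 : ℝ × ℝ)
    simpa [Prod.mk_zero_zero] using this
  have e1 : ∀ᶠ z in 𝓝 (0 : ℝ × ℝ), ContDiffAt ℝ 2 m z := h0.eventually (by simp)
  have e2 : ∀ᶠ z in 𝓝 (0 : ℝ × ℝ), 1 / 2 < fderiv ℝ m z (1, 1) := by
    have hc : ContinuousAt (fun z => fderiv ℝ m z (1, 1)) 0 :=
      (ContinuousLinearMap.apply ℝ ℝ ((1 : ℝ), (1 : ℝ))).continuous.continuousAt.comp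
        hf.continuousAt
    refine hc.eventually (lt_mem_nhds ?_)
    show 1 / 2 < fderiv ℝ m 0 (1, 1)
    rw [eik_diag h0d (h0.differentiableAt (by norm_num))]
    norm_num
  refine ⟨K, K.2, ?_⟩
  filter_upwards [hT.eventually e1, hT.eventually e2, hT.eventually ht, hT2.eventually ht,
    hT2.eventually e1] with p p1 p2 p3 p4 p5
  refine ⟨p1, p2.le, ?_⟩
  have h1 := eik_sym h0s (x := p.1) (p5.differentiableAt (by norm_num))
  have h2 := hK.dist_le_mul _ p3 _ p4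
  rw [dist_eq_norm, dist_eq_norm] at h2
  have h3 : ‖((p.1 + p.2, p.1 - p.2) : ℝ × ℝ) - (p.1, p.1)‖ = |p.2| := by
    rw [Prod.norm_def]
    simp
  rw [h3] at h2
  have h4 : fderiv ℝ m (p.1 + p.2, p.1 - p.2) (1, -1) =
      (fderiv ℝ m (p.1 + p.2, p.1 - p.2) - fderiv ℝ m (p.1, p.1)) (1, -1) := by
    rw [_root_.sub_apply, h1, sub_zero]
  rw [h4, ← Real.norm_eq_abs]
  refine (ContinuousLinearMap.le_opNorm _ _).trans ?_
  have h5 : ‖((1 : ℝ), (-1 : ℝ))‖ = 1 := by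
    rw [Prod.norm_def]
    simp
  rw [h5, mul_one]
  exact h2

/-- the main step, with a globally continuous `ρ` -/
theorem eik_main {ρ : ℝ → ℝ} (hρ : Continuous ρ) (hρ0 : ∀ t, 0 ≤ ρ t) {m₀ m₁ : ℝ × ℝ → ℝ}
    (h0 : ContDiffAt ℝ 2 m₀ 0) (h1 : ContDiffAt ℝ 2 m₁ 0)
    (h0d : ∀ᶠ x in 𝓝 (0 : ℝ), m₀ (x, x) = x) (h1d : ∀ᶠ x in 𝓝 (0 : ℝ), m₁ (x, x) = x)
    (h0s : ∀ z : ℝ × ℝ, m₀ (z.2, z.1) = m₀ z) (h1s : ∀ z : ℝ × ℝ, m₁ (z.2, z.1) = m₁ z)
    (heik : ∀ᶠ z in 𝓝 (0 : ℝ × ℝ),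
      ρ (m₀ z) ^ 2 * (fderiv ℝ m₀ z (1, 0) * fderiv ℝ m₀ z (0, 1))
        = ρ (m₁ z) ^ 2 * (fderiv ℝ m₁ z (1, 0) * fderiv ℝ m₁ z (0, 1)))
    (hinit : ρ 0 * (fderiv ℝ (fderiv ℝ m₁) 0 (1, -1) (1, -1)
      - fderiv ℝ (fderiv ℝ m₀) 0 (1, -1) (1, -1)) = 0) :
    ∀ᶠ x in 𝓝 (0 : ℝ), ρ x * (fderiv ℝ (fderiv ℝ m₁) (x, x) (1, -1) (1, -1)
      - fderiv ℝ (fderiv ℝ m₀) (x, x) (1, -1) (1, -1)) = 0 := by
  obtain ⟨C₀, hC₀, hl₀⟩ := eik_local h0 h0d h0s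
  obtain ⟨C₁, hC₁, hl₁⟩ := eik_local h1 h1d h1s
  have hT : Tendsto (fun p : ℝ × ℝ => ((p.1 + p.2, p.1 - p.2) : ℝ × ℝ)) (𝓝 0) (𝓝 0) := by
    have hc : Continuous (fun p : ℝ × ℝ => ((p.1 + p.2, p.1 - p.2) : ℝ × ℝ)) := by fun_prop
    have := hc.tendsto (0 : ℝ × ℝ)
    simpa [Prod.mk_zero_zero] using this
  have hall : ∀ᶠ p in 𝓝 (0 : ℝ × ℝ), (ContDiffAt ℝ 2 m₀ (p.1 + p.2, p.1 - p.2) ∧
      1 / 2 ≤ fderiv ℝ m₀ (p.1 + p.2, p.1 - p.2) (1, 1) ∧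
      |fderiv ℝ m₀ (p.1 + p.2, p.1 - p.2) (1, -1)| ≤ C₀ * |p.2|) ∧
      (ContDiffAt ℝ 2 m₁ (p.1 + p.2, p.1 - p.2) ∧
      1 / 2 ≤ fderiv ℝ m₁ (p.1 + p.2, p.1 - p.2) (1, 1) ∧
      |fderiv ℝ m₁ (p.1 + p.2, p.1 - p.2) (1, -1)| ≤ C₁ * |p.2|) ∧
      (ρ (m₀ (p.1 + p.2, p.1 - p.2)) ^ 2 * (fderiv ℝ m₀ (p.1 + p.2, p.1 - p.2) (1, 0) *
          fderiv ℝ m₀ (p.1 + p.2, p.1 - p.2) (0, 1))
        = ρ (m₁ (p.1 + p.2, p.1 - p.2)) ^ 2 * (fderiv ℝ m₁ (p.1 + p.2, p.1 - p.2) (1, 0) *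
          fderiv ℝ m₁ (p.1 + p.2, p.1 - p.2) (0, 1))) :=
    hl₀.and (hl₁.and (hT.eventually heik))
  have hdiag : ∀ᶠ x in 𝓝 (0 : ℝ), (m₀ (x, x) = x ∧ m₁ (x, x) = x) := h0d.and h1d
  rw [Metric.eventually_nhds_iff] at hall hdiag
  obtain ⟨δ₁, hδ₁, hall⟩ := hall
  obtain ⟨δ₂, hδ₂, hdiag⟩ := hdiag
  set C := max C₀ C₁ with hC
  have hCnn : 0 ≤ C := hC₀.trans (le_max_left _ _)
  obtain ⟨r, hr, hrδ₁, hrδ₂, hrC⟩ : ∃ r : ℝ, 0 < r ∧ r < δ₁ ∧ r < δ₂ ∧ 8 * C * r ≤ 1 := by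
    refine ⟨min (min (δ₁ / 2) (δ₂ / 2)) (1 / (8 * C + 1)), ?_, ?_, ?_, ?_⟩
    · refine lt_min (lt_min (by linarith) (by linarith)) (by positivity)
    · calc min (min (δ₁ / 2) (δ₂ / 2)) (1 / (8 * C + 1)) ≤ δ₁ / 2 :=
          (min_le_left _ _).trans (min_le_left _ _)
        _ < δ₁ := by linarith
    · calc min (min (δ₁ / 2) (δ₂ / 2)) (1 / (8 * C + 1)) ≤ δ₂ / 2 :=
          (min_le_left _ _).trans (min_le_right _ _)
        _ < δ₂ := by linarith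
    · have h2 : min (min (δ₁ / 2) (δ₂ / 2)) (1 / (8 * C + 1)) ≤ 1 / (8 * C + 1) := min_le_right _ _
      calc 8 * C * min (min (δ₁ / 2) (δ₂ / 2)) (1 / (8 * C + 1))
          ≤ 8 * C * (1 / (8 * C + 1)) := mul_le_mul_of_nonneg_left h2 (by positivity)
        _ ≤ 1 := by
          rw [mul_one_div, div_le_one (by positivity)]
          linarith
  have hbox : ∀ x h : ℝ, |x| ≤ r → |h| ≤ r → dist ((x, h) : ℝ × ℝ) 0 < δ₁ := by
    intro x h hx hh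
    rw [dist_zero_right, Prod.norm_def]
    simp only [Real.norm_eq_abs]
    exact lt_of_le_of_lt (max_le hx hh) hrδ₁
  -- the objects
  set g : ℝ → ℝ := fun t => ∫ s in (0 : ℝ)..t, ρ s with hg
  have hgd : ∀ t, HasDerivAt g (ρ t) t := fun t =>
    (hρ.integral_hasStrictDerivAt 0 t).hasDerivAt
  set E : ℝ → ℝ → ℝ := fun x h => g (m₁ (x + h, x - h)) - g (m₀ (x + h, x - h)) with hE
  set F : ℝ → ℝ → ℝ := fun x h => ρ (m₁ (x + h, x - h)) * fderiv ℝ m₁ (x + h, x - h) (1, -1) -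
    ρ (m₀ (x + h, x - h)) * fderiv ℝ m₀ (x + h, x - h) (1, -1) with hF
  set G : ℝ → ℝ → ℝ := fun x h => ρ (m₁ (x + h, x - h)) * fderiv ℝ m₁ (x + h, x - h) (1, 1) -
    ρ (m₀ (x + h, x - h)) * fderiv ℝ m₀ (x + h, x - h) (1, 1) with hG
  set J : ℝ → ℝ := fun x => ρ x * (fderiv ℝ (fderiv ℝ m₁) (x, x) (1, -1) (1, -1)
      - fderiv ℝ (fderiv ℝ m₀) (x, x) (1, -1) (1, -1)) with hJ
  have hEx : ∀ x h, |x| ≤ r → |h| ≤ r → HasDerivAt (fun x => E x h) (G x h) x := by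
    intro x h hx hh
    obtain ⟨⟨k0, -⟩, ⟨k1, -⟩, -⟩ := hall (hbox x h hx hh)
    have d0 := eik_derX (k0.differentiableAt (by norm_num))
    have d1 := eik_derX (k1.differentiableAt (by norm_num))
    exact ((hgd _).comp x d1).sub ((hgd _).comp x d0)
  have hEh : ∀ x h, |x| ≤ r → |h| ≤ r → HasDerivAt (fun h => E x h) (F x h) h := by
    intro x h hx hh
    obtain ⟨⟨k0, -⟩, ⟨k1, -⟩, -⟩ := hall (hbox x h hx hh)
    have d0 := eik_derH (k0.differentiableAt (by norm_num))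
    have d1 := eik_derH (k1.differentiableAt (by norm_num))
    exact ((hgd _).comp h d1).sub ((hgd _).comp h d0)
  have hGF : ∀ x h, |x| ≤ r → |h| ≤ r → |G x h| ≤ 2 * C * |h| * |F x h| := by
    intro x h hx hh
    obtain ⟨⟨-, k1, k2⟩, ⟨-, k3, k4⟩, k5⟩ := hall (hbox x h hx hh)
    simp only at k1 k2 k3 k4 k5
    have hadd : ∀ L : ℝ × ℝ →L[ℝ] ℝ, L (1, 1) = L (1, 0) + L (0, 1) := by
      intro L
      rw [← map_add]
      simp
    have hsub : ∀ L : ℝ × ℝ →L[ℝ] ℝ, L (1, -1) = L (1, 0) - L (0, 1) := by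
      intro L
      rw [← map_sub]
      simp
    refine eik_alg (hρ0 _) (hρ0 _) k1 k3
      (k2.trans (mul_le_mul_of_nonneg_right (le_max_left _ _) (abs_nonneg _)))
      (k4.trans (mul_le_mul_of_nonneg_right (le_max_right _ _) (abs_nonneg _))) ?_
    rw [hadd, hadd, hsub, hsub]
    linear_combination 4 * k5
  have hE0 : ∀ x, |x| ≤ r → E x 0 = 0 := by
    intro x hx
    have h2 : dist x 0 < δ₂ := by
      rw [dist_zero_right, Real.norm_eq_abs]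
      linarith
    obtain ⟨k0, k1⟩ := hdiag h2
    simp only [hE, add_zero, sub_zero, k0, k1, sub_self]
  -- asymptotics
  have hA : ∀ y, |y| ≤ r → (fun p : ℝ × ℝ => F p.2 p.1 - p.1 * J y) =o[𝓝 ((0 : ℝ), y)]
      fun p => p.1 := by
    intro y hy
    have h2 : dist y 0 < δ₂ := by
      rw [dist_zero_right, Real.norm_eq_abs]
      linarith
    obtain ⟨k0, k1⟩ := hdiag h2
    obtain ⟨⟨c0, -⟩, ⟨c1, -⟩, -⟩ := hall (hbox y 0 hy (by simpa using hr.le))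
    simp only [add_zero, sub_zero] at c0 c1
    have hsy : ∀ᶠ x in 𝓝 y, |x| < δ₁ := by
      have : |y| < δ₁ := lt_of_le_of_lt hy hrδ₁
      exact continuous_abs.continuousAt.eventually (gt_mem_nhds this)
    have s0 : ∀ᶠ x in 𝓝 y, fderiv ℝ m₀ (x, x) (1, -1) = 0 := by
      filter_upwards [hsy] with x hx
      have hd : dist ((x, 0) : ℝ × ℝ) 0 < δ₁ := by
        rw [dist_zero_right, Prod.norm_def]
        simpa using hx
      obtain ⟨⟨c0, -⟩, -, -⟩ := hall hd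
      simp only [add_zero, sub_zero] at c0
      exact eik_sym h0s (c0.differentiableAt (by norm_num))
    have s1 : ∀ᶠ x in 𝓝 y, fderiv ℝ m₁ (x, x) (1, -1) = 0 := by
      filter_upwards [hsy] with x hx
      have hd : dist ((x, 0) : ℝ × ℝ) 0 < δ₁ := by
        rw [dist_zero_right, Prod.norm_def]
        simpa using hx
      obtain ⟨-, ⟨c1, -⟩, -⟩ := hall hd
      simp only [add_zero, sub_zero] at c1
      exact eik_sym h1s (c1.differentiableAt (by norm_num))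
    have a0 := eik_claimA hρ c0 k0 s0
    have a1 := eik_claimA hρ c1 k1 s1
    refine (a1.sub a0).congr_left fun p => ?_
    simp only [hF, hJ]
    ring
  have hJc : ContinuousOn J (Icc (-r) r) := by
    intro x hx
    have hx' : |x| ≤ r := abs_le.2 hx
    obtain ⟨⟨c0, -⟩, ⟨c1, -⟩, -⟩ := hall (hbox x 0 hx' (by simpa using hr.le))
    simp only [add_zero, sub_zero] at c0 c1
    have hdd : ∀ m : ℝ × ℝ → ℝ, ContDiffAt ℝ 2 m (x, x) →
        ContinuousAt (fun x : ℝ => fderiv ℝ (fderiv ℝ m) (x, x) (1, -1) (1, -1)) x := by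
      intro m hm
      have f1 : ContDiffAt ℝ 1 (fderiv ℝ m) (x, x) := hm.fderiv_right (by norm_num)
      have f2 : ContDiffAt ℝ 0 (fderiv ℝ (fderiv ℝ m)) (x, x) := f1.fderiv_right (by norm_num)
      have f3 : ContinuousAt (fun x : ℝ => fderiv ℝ (fderiv ℝ m) (x, x)) x := by
        refine ContinuousAt.comp (f := fun x : ℝ => ((x, x) : ℝ × ℝ)) f2.continuousAt ?_
        fun_prop
      exact (f3.clm_apply continuousAt_const).clm_apply continuousAt_const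
    exact ((hρ.continuousAt).mul ((hdd m₁ c1).sub (hdd m₀ c0))).continuousWithinAt
  obtain ⟨xs, hxs, hmax⟩ := isCompact_Icc.exists_isMaxOn (s := Icc (-r) r)
    ⟨0, by constructor <;> linarith⟩ (hJc.abs)
  have hmax' : ∀ x, |x| ≤ r → |J x| ≤ |J xs| := fun x hx => hmax (abs_le.1 hx)
  have hxs' : |xs| ≤ r := abs_le.2 hxs
  have hJ0 : J 0 = 0 := hinit
  have hr0 : |(0 : ℝ)| ≤ r := by simpa using hr.le
  -- conclusion
  have hK : |J xs| ≤ 0 := by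
    refine le_of_forall_pos_le_add fun η hη => ?_
    set ε := η / 9 with hε
    have hεpos : 0 < ε := by positivity
    have hB : ∀ᶠ h in 𝓝 (0 : ℝ), ∀ x ∈ Icc (-r) r, |F x h| ≤ (|J xs| + ε) * |h| := by
      refine isCompact_Icc.eventually_forall_of_forall_eventually fun y hy => ?_
      have h2 := (hA y (abs_le.2 hy)).bound hεpos
      filter_upwards [h2] with p hp
      rw [Real.norm_eq_abs, Real.norm_eq_abs] at hp
      have h3 : |p.1 * J y| ≤ |J xs| * |p.1| := by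
        rw [abs_mul, mul_comm]
        exact mul_le_mul_of_nonneg_right (hmax' y (abs_le.2 hy)) (abs_nonneg _)
      calc |F p.2 p.1| = |(F p.2 p.1 - p.1 * J y) + p.1 * J y| := by
            rw [sub_add_cancel]
        _ ≤ |F p.2 p.1 - p.1 * J y| + |p.1 * J y| := abs_add_le _ _
        _ ≤ ε * |p.1| + |J xs| * |p.1| := add_le_add hp h3
        _ = (|J xs| + ε) * |p.1| := by ring
    have hline : ∀ y, |y| ≤ r → (fun h => F y h - h * J y) =o[𝓝 0] fun h => h := by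
      intro y hy
      have ht : Tendsto (fun h : ℝ => ((h, y) : ℝ × ℝ)) (𝓝 0) (𝓝 ((0 : ℝ), y)) := by
        have hc : Continuous (fun h : ℝ => ((h, y) : ℝ × ℝ)) := by fun_prop
        exact hc.tendsto 0
      exact (hA y hy).comp_tendsto ht
    have hC1 := eik_claimC hr (hE0 xs hxs') (fun h hh => hEh xs h hxs' hh) (hline xs hxs') hεpos
    have hC2 := eik_claimC hr (hE0 0 hr0) (fun h hh => hEh 0 h hr0 hh) (hline 0 hr0) hεpos
    have hsm : ∀ᶠ h in 𝓝[>] (0 : ℝ), h ∈ Ioo (0 : ℝ) r := Ioo_mem_nhdsGT hr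
    obtain ⟨h, q1, q2, q3, q4⟩ := ((hB.filter_mono nhdsWithin_le_nhds).and
      (hC1.and (hC2.and hsm))).exists
    have hh0 : 0 < h := q4.1
    have hhr : |h| ≤ r := by
      rw [abs_of_pos hh0]
      exact q4.2.le
    have key := Convex.norm_image_sub_le_of_norm_hasDerivWithin_le
      (f := fun x => E x h) (f' := fun x => G x h) (C := 2 * C * h * ((|J xs| + ε) * h))
      (s := Icc (-r) r) (x := 0) (y := xs)
      (fun x hx => (hEx x h (abs_le.2 hx) hhr).hasDerivWithinAt)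
      (by
        intro x hx
        rw [Real.norm_eq_abs]
        refine (hGF x h (abs_le.2 hx) hhr).trans ?_
        have h3 := q1 x hx
        rw [abs_of_pos hh0] at h3 ⊢
        exact mul_le_mul_of_nonneg_left h3 (by positivity))
      (convex_Icc _ _) ⟨by linarith, hr.le⟩ hxs
    rw [Real.norm_eq_abs, Real.norm_eq_abs, sub_zero] at key
    rw [hJ0, mul_zero, sub_zero] at q3
    have k1 : 2 * C * h * ((|J xs| + ε) * h) * |xs| ≤ 2 * C * h * ((|J xs| + ε) * h) * r :=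
      mul_le_mul_of_nonneg_left hxs' (by positivity)
    have k2 : 2 * C * h * ((|J xs| + ε) * h) * r ≤ (|J xs| + ε) * h ^ 2 / 4 := by
      have : 2 * C * h * ((|J xs| + ε) * h) * r = (8 * C * r) * ((|J xs| + ε) * h ^ 2 / 4) := by
        ring
      rw [this]
      exact mul_le_of_le_one_left (by positivity) hrC
    have k3 : |h ^ 2 / 2 * J xs| ≤ |E xs h - E 0 h| + |E 0 h| + ε * h ^ 2 := by
      have : h ^ 2 / 2 * J xs = (E xs h - E 0 h) + E 0 h - (E xs h - h ^ 2 / 2 * J xs) := by ring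
      rw [this]
      refine (abs_sub _ _).trans ?_
      exact add_le_add (abs_add_le _ _) q2
    have k4 : |h ^ 2 / 2 * J xs| = h ^ 2 / 2 * |J xs| := by
      rw [abs_mul, abs_of_pos (by positivity)]
    rw [k4] at k3
    have k5 : h ^ 2 / 2 * |J xs| ≤ (|J xs| + ε) * h ^ 2 / 4 + 2 * ε * h ^ 2 := by
      linarith
    have k6 : h ^ 2 * |J xs| ≤ h ^ 2 * (9 * ε) := by nlinarith
    have k7 : |J xs| ≤ 9 * ε := le_of_mul_le_mul_left k6 (by positivity)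
    have k8 : 9 * ε = η := by
      rw [hε]
      ring
    linarith
  have hfin : ∀ᶠ x in 𝓝 (0 : ℝ), |x| < r :=
    continuous_abs.continuousAt.eventually (gt_mem_nhds (by simpa using hr))
  filter_upwards [hfin] with x hx
  have h2 := (hmax' x hx.le).trans hK
  exact abs_nonpos_iff.1 h2

/-
Pure real analysis (no geometry), see the comments at the single steps.
-/
theorem eikonal_unique {P : ℝ → ℝ} {m₀ m₁ : ℝ × ℝ → ℝ}
    (hPc : ∀ᶠ t in 𝓝 (0 : ℝ), ContinuousAt P t) (hP0 : ∀ᶠ t in 𝓝 (0 : ℝ), 0 ≤ P t)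
    (h0 : ContDiffAt ℝ 2 m₀ 0) (h1 : ContDiffAt ℝ 2 m₁ 0)
    (h0d : ∀ᶠ x in 𝓝 (0 : ℝ), m₀ (x, x) = x) (h1d : ∀ᶠ x in 𝓝 (0 : ℝ), m₁ (x, x) = x)
    (h0s : ∀ z : ℝ × ℝ, m₀ (z.2, z.1) = m₀ z) (h1s : ∀ z : ℝ × ℝ, m₁ (z.2, z.1) = m₁ z)
    (heik : ∀ᶠ z in 𝓝 (0 : ℝ × ℝ),
      P (m₀ z) * (fderiv ℝ m₀ z (1, 0) * fderiv ℝ m₀ z (0, 1))
        = P (m₁ z) * (fderiv ℝ m₁ z (1, 0) * fderiv ℝ m₁ z (0, 1)))
    (hinit : P 0 * (fderiv ℝ (fderiv ℝ m₁) 0 (1, -1) (1, -1)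
      - fderiv ℝ (fderiv ℝ m₀) 0 (1, -1) (1, -1)) = 0) :
    ∀ᶠ x in 𝓝 (0 : ℝ), P x * (fderiv ℝ (fderiv ℝ m₁) (x, x) (1, -1) (1, -1)
      - fderiv ℝ (fderiv ℝ m₀) (x, x) (1, -1) (1, -1)) = 0 := by
  have hP := hPc.and hP0
  rw [Metric.eventually_nhds_iff] at hP
  obtain ⟨δ, hδ, hP⟩ := hP
  set d := δ / 2 with hd
  have hdpos : 0 < d := by positivity
  have hPd : ∀ t ∈ Icc (-d) d, ContinuousAt P t ∧ 0 ≤ P t := by
    intro t ht
    refine hP ?_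
    rw [dist_zero_right, Real.norm_eq_abs]
    have := abs_le.2 ht
    linarith
  have hle : -d ≤ d := by linarith
  set ρ : ℝ → ℝ := fun t => Real.sqrt (P (max (-d) (min d t))) with hρ
  have hclamp : ∀ t : ℝ, max (-d) (min d t) ∈ Icc (-d) d :=
    fun t => ⟨le_max_left _ _, max_le hle (min_le_left _ _)⟩
  have hρc : Continuous ρ := by
    refine Real.continuous_sqrt.comp ?_
    have hPon : ContinuousOn P (Icc (-d) d) := fun t ht => (hPd t ht).1.continuousWithinAt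
    exact hPon.comp_continuous (by fun_prop) hclamp
  have hρP : ∀ᶠ t in 𝓝 (0 : ℝ), ρ t ^ 2 = P t := by
    have : ∀ᶠ t in 𝓝 (0 : ℝ), t ∈ Icc (-d) d := Icc_mem_nhds (by linarith) hdpos
    filter_upwards [this] with t ht
    simp only [hρ]
    rw [min_eq_right ht.2, max_eq_right ht.1, Real.sq_sqrt (hPd t ht).2]
  have hm : ∀ m : ℝ × ℝ → ℝ, ContDiffAt ℝ 2 m 0 → (∀ᶠ x in 𝓝 (0 : ℝ), m (x, x) = x) →
      ∀ᶠ z in 𝓝 (0 : ℝ × ℝ), ρ (m z) ^ 2 = P (m z) := by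
    intro m hm hmd
    have h2 : m 0 = 0 := by
      have := hmd.self_of_nhds
      simpa [Prod.mk_zero_zero] using this
    have h3 : Tendsto m (𝓝 0) (𝓝 0) := by
      have := hm.continuousAt
      unfold ContinuousAt at this
      rwa [h2] at this
    exact h3.eventually hρP
  have hfin := eik_main hρc (fun t => Real.sqrt_nonneg _) h0 h1 h0d h1d h0s h1s
    (by
      filter_upwards [heik, hm m₀ h0 h0d, hm m₁ h1 h1d] with z z1 z2 z3
      rw [z2, z3]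
      exact z1)
    (by
      have h4 : ρ 0 ^ 2 = P 0 := hρP.self_of_nhds
      rw [← h4, pow_two, mul_assoc] at hinit
      rcases mul_eq_zero.1 hinit with h5 | h5
      · rw [h5, zero_mul]
      · exact h5)
  filter_upwards [hfin, hρP] with x x1 x2
  rw [← x2, pow_two, mul_assoc, x1, mul_zero]

end Vale.Agent.P084
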