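import Mathlib
import Vale.Agent.Lib.P084F.D2Defs
import Vale.Agent.Lib.P084F.D2Proj
import Vale.Agent.Lib.P084F.DegMain

open Filter Topology Module Metric MeasureTheory Measure Set
open scoped NNReal ENNReal

namespace Vale.Agent.P084

variable {X Y : Type*} [NormedAddCommGroup X] [NormedSpace ℝ X] [NormedAddCommGroup Y]
  [NormedSpace ℝ Y] [FiniteDimensional ℝ X] [FiniteDimensional ℝ Y]
  [MeasurableSpace X] [BorelSpace X] [MeasurableSpace Y] [BorelSpace Y] {T : X → Y}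

/-- if the norm is constant along a short segment, then the Hessian vanishes -/
theorem kink_hess_zero {E : Type*} [NormedAddCommGroup E] [NormedSpace ℝ E] {w d : E}
    (hN : ContDiffAt ℝ 2 (fun z : E => ‖z‖) w) (hd : dN w d = 0)
    (hc : ∀ᶠ s : ℝ in 𝓝[>] 0, ‖w + s • d‖ = ‖w‖) : fderiv ℝ dN w d d = 0 := by
  have hline : Tendsto (fun s : ℝ => w + s • d) (𝓝 0) (𝓝 w) := by
    have h : Continuous (fun s : ℝ => w + s • d) := by fun_prop
    have := h.tendsto 0
    simpa using this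
  have h3 : HasDerivAt (fun t : ℝ => dN (w + t • d) d) (fderiv ℝ dN w d d) 0 := by
    have h2 := hasDerivAt_comp_line (hasFDerivAt_dN hN) d
    have h3 := h2.clm_apply (hasDerivAt_const (0 : ℝ) d)
    exact h3.congr_deriv (by simp)
  obtain ⟨s₀, hs₀, hsub⟩ := mem_nhdsGT_iff_exists_Ioo_subset.mp hc
  have hs₀' : 0 < s₀ := hs₀
  have hdiff : ∀ᶠ s : ℝ in 𝓝[>] 0, DifferentiableAt ℝ (fun z : E => ‖z‖) (w + s • d) :=
    (hline.eventually (leaf_norm_eventually hN)).filter_mono nhdsWithin_le_nhds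
  have hzero : ∀ᶠ s : ℝ in 𝓝[>] 0, dN (w + s • d) d = 0 := by
    filter_upwards [hdiff, Ioo_mem_nhdsGT hs₀'] with s hs1 hs2
    have h1 : HasDerivAt (fun t : ℝ => ‖w + t • d‖) (dN (w + s • d) d) s := by
      have h2 : HasDerivAt (fun t : ℝ => w + t • d) d s := by
        have := ((hasDerivAt_id s).smul_const d).const_add w
        simpa using this
      exact (hasFDerivAt_norm hs1).comp_hasDerivAt s h2
    have h2 : (fun t : ℝ => ‖w + t • d‖) =ᶠ[𝓝 s] fun _ => ‖w‖ := by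
      filter_upwards [Ioo_mem_nhds hs2.1 hs2.2] with t ht
      exact hsub ht
    have h3 : HasDerivAt (fun _ : ℝ => ‖w‖) (dN (w + s • d) d) s :=
      h1.congr_of_eventuallyEq h2.symm
    exact h3.unique (hasDerivAt_const s ‖w‖)
  have h4 := h3.hasDerivWithinAt (s := Ioi (0 : ℝ))
  rw [hasDerivWithinAt_iff_tendsto_slope' (by simp)] at h4
  have h5 : Tendsto (slope (fun t : ℝ => dN (w + t • d) d) 0) (𝓝[>] 0) (𝓝 0) := by
    refine tendsto_const_nhds.congr' ?_
    filter_upwards [hzero] with s hs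
    rw [slope_def_field, hs, zero_smul, add_zero, hd]
    simp
  exact tendsto_nhds_unique h4 h5

namespace SphereIso

/-- STEP 1 -/
theorem kink_step (hT : SphereIso T) (hsurj : Function.Surjective T)
    (hfin : finrank ℝ X = finrank ℝ Y) {z : X} (hz : z ≠ 0) {L : X ≃L[ℝ] Y}
    (hL : HasFDerivAt T (L : X →L[ℝ] Y) z)
    (hLd : ∀ᵐ b ∂(vol X), Om z b → ∀ u, dN (Wv (T z) (T b)) (L u) = dN (Wv z b) u)
    (hLn : ∀ u ∈ Dir z, ‖L u‖ = ‖u‖) {y : X} (hy : Om z (-y))
    (hN : ContDiffAt ℝ 2 (fun z : X => ‖z‖) (Wv z (-y)))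
    (hpos : ∀ k, k ≠ 0 → dN (Wv z (-y)) k = 0 → fderiv ℝ dN (Wv z (-y)) k k ≠ 0) :
    T y = L y := by
  have hnz : 0 < ‖z‖ := norm_pos_iff.mpr hz
  set w : X := Wv z (-y) with hw
  set W : Y := Wv (T z) (T (-y)) with hW
  have hWn : ‖W‖ = ‖w‖ := hT.norm_Wv _ _
  have hwDir : w ∈ Dir z := hy.Wv_mem_Dir
  have hNd : DifferentiableAt ℝ (fun z : X => ‖z‖) w := hN.differentiableAt (by norm_num)
  have hTc : Continuous T := hT.lipschitz.continuous
  -- the key identity
  have hkey : dN w (L.symm W) = ‖w‖ := by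
    set G : Set X := {b : X | (Om z b → ∀ u, dN (Wv (T z) (T b)) (L u) = dN (Wv z b) u) ∧
      (Om z b → DifferentiableAt ℝ (fun z : X => ‖z‖) (Wv z b) ∧
        DifferentiableAt ℝ (fun z : Y => ‖z‖) (Wv (T z) (T b)))} with hG
    have hGae : ∀ᵐ b ∂(vol X), b ∈ G := by
      filter_upwards [hLd, ae_good_Om hT hsurj hfin z] with b h1 h2
      exact ⟨h1, h2⟩
    have hGd : Dense G := dense_of_ae hGae
    have hmem : -y ∈ closure ({b : X | Om z b} ∩ G) := by
      have := hGd.open_subset_closure_inter (isOpen_Om_right z)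
      exact this hy
    have hne : (𝓝[{b : X | Om z b} ∩ G] (-y)).NeBot := mem_closure_iff_nhdsWithin_neBot.mp hmem
    have hWb : Tendsto (fun b => Wv (T z) (T b)) (𝓝[{b : X | Om z b} ∩ G] (-y)) (𝓝 W) := by
      have : Continuous fun b => Wv (T z) (T b) := (continuous_Wv_right (T z)).comp hTc
      exact (this.tendsto (-y)).mono_left nhdsWithin_le_nhds
    have hwb : Tendsto (fun b => Wv z b) (𝓝[{b : X | Om z b} ∩ G] (-y)) (𝓝 w) :=
      ((continuous_Wv_right z).tendsto (-y)).mono_left nhdsWithin_le_nhds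
    have h1 : Tendsto (fun b => ‖Wv (T z) (T b)‖) (𝓝[{b : X | Om z b} ∩ G] (-y)) (𝓝 ‖W‖) :=
      hWb.norm
    have h2 : Tendsto (fun b => dN (Wv z b) (L.symm (Wv (T z) (T b))))
        (𝓝[{b : X | Om z b} ∩ G] (-y)) (𝓝 (dN w (L.symm W))) := by
      have hdc : ContinuousAt (dN : X → X →L[ℝ] ℝ) w := (contDiffAt_dN hN).continuousAt
      have h3 := hdc.tendsto.comp hwb
      have h4 : Tendsto (fun b => L.symm (Wv (T z) (T b))) (𝓝[{b : X | Om z b} ∩ G] (-y))
          (𝓝 (L.symm W)) := (L.symm.continuous.tendsto W).comp hWb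
      exact tendsto_clm_apply h3 h4
    have h3 : (fun b => ‖Wv (T z) (T b)‖) =ᶠ[𝓝[{b : X | Om z b} ∩ G] (-y)]
        fun b => dN (Wv z b) (L.symm (Wv (T z) (T b))) := by
      filter_upwards [self_mem_nhdsWithin] with b hb
      have h4 := hb.2.1 hb.1 (L.symm (Wv (T z) (T b)))
      rw [L.apply_symm_apply, dN_self (hb.2.2 hb.1).2] at h4
      exact h4
    rw [← hWn]
    exact tendsto_nhds_unique h2 (h1.congr' h3)
  -- `d = L⁻¹ W - w` vanishes
  set d : X := L.symm W - w with hd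
  have hdN : dN w d = 0 := by
    rw [hd, map_sub, hkey, dN_self hNd, sub_self]
  have hd0 : d = 0 := by
    by_contra hne
    refine hpos d hne hdN (kink_hess_zero hN hdN ?_)
    have hev1 : ∀ᶠ s : ℝ in 𝓝[>] 0, w + s • d ∈ Dir z := by
      have hline : Tendsto (fun s : ℝ => w + s • d) (𝓝 0) (𝓝 w) := by
        have h : Continuous (fun s : ℝ => w + s • d) := by fun_prop
        have := h.tendsto 0
        simpa using this
      exact (hline.eventually ((isOpen_Dir z).mem_nhds hwDir)).filter_mono nhdsWithin_le_nhds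
    filter_upwards [hev1, Ioo_mem_nhdsGT zero_lt_one] with s hs1 hs2
    apply le_antisymm
    · rw [← hLn _ hs1]
      have e1 : L (w + s • d) = (1 - s) • L w + s • W := by
        rw [hd, map_add, map_smul, map_sub, L.apply_symm_apply]
        module
      rw [e1]
      calc ‖(1 - s) • L w + s • W‖ ≤ ‖(1 - s) • L w‖ + ‖s • W‖ := norm_add_le _ _
        _ = (1 - s) * ‖w‖ + s * ‖w‖ := by
            rw [norm_smul, norm_smul, Real.norm_of_nonneg (by linarith [hs2.2] : 0 ≤ 1 - s),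
              Real.norm_of_nonneg hs2.1.le, hLn _ hwDir, hWn]
        _ = ‖w‖ := by ring
    · have h1 := dN_le w (w + s • d)
      rw [map_add, map_smul, hdN, dN_self hNd, smul_zero, add_zero] at h1
      exact h1
  have hWw : W = L w := by
    have h1 : L.symm W = w := sub_eq_zero.mp hd0
    rw [← h1, L.apply_symm_apply]
  have hLz : L z = T z := by
    have h1 := hT.fderiv_self hL.differentiableAt
    rw [hL.fderiv] at h1
    exact h1
  have h1 : ‖z‖ • T y = ‖z‖ • L y := by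
    have e1 : W = ‖y‖ • T z + ‖z‖ • T y := by
      rw [hW, Wv_def, hT.norm_map, hT.norm_map, hT.map_neg, norm_neg, smul_neg, sub_neg_eq_add]
    have e2 : L w = ‖y‖ • T z + ‖z‖ • L y := by
      rw [hw, Wv_def, norm_neg, smul_neg, sub_neg_eq_add, map_add, map_smul, map_smul, hLz]
    rw [e1, e2] at hWw
    exact add_left_cancel hWw
  exact smul_right_injective Y hnz.ne' h1

theorem kink_false (hT : SphereIso T) (hsurj : Function.Surjective T)
    (hfin : finrank ℝ X = finrank ℝ Y) (h2 : finrank ℝ X = 2) {z v : X} (hz : z ≠ 0)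
    (hnd : ¬ DifferentiableAt ℝ (fun z : X => ‖z‖) z) {t₀ : ℝ} (ht₀ : 0 < t₀)
    (hN2 : ∀ t ∈ Ioo 0 t₀, ContDiffAt ℝ 2 (fun z : X => ‖z‖) (z + t • v))
    (hT2 : ∀ t ∈ Ioo 0 t₀, ContDiffAt ℝ 2 T (z + t • v))
    (hζ : ∀ t ∈ Ioo 0 t₀, ∃ ζ : Y, ∀ p q, fderiv ℝ (fderiv ℝ T) (z + t • v) p q
      = (fderiv ℝ dN (z + t • v) p q) • ζ)
    (hact : ∀ t ∈ Ioo 0 t₀, fderiv ℝ (fderiv ℝ T) (z + t • v) ≠ 0) : False := by
  have hnz : 0 < ‖z‖ := norm_pos_iff.mpr hz
  have : Nontrivial X := ⟨⟨z, 0, hz⟩⟩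
  have hdeg : Deg T z := deg_of_not_diff hT hsurj hfin hz hnd
  obtain ⟨-, L, hL, hLd, hLn⟩ := deg_main hT hsurj hfin hz hdeg
  have hne0 : ∀ t ∈ Ioo 0 t₀, z + t • v ≠ 0 := by
    intro t ht h0
    have h1 := (hN2 t ht).differentiableAt (by norm_num : (2 : WithTop ℕ∞) ≠ 0)
    rw [h0] at h1
    exact not_differentiableAt_norm_zero X h1
  have hdne : ∀ t ∈ Ioo 0 t₀, fderiv ℝ dN (z + t • v) ≠ 0 := by
    intro t ht h0
    apply hact t ht
    obtain ⟨ζ, hζ'⟩ := hζ t ht
    ext p q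
    rw [hζ' p q, h0]
    simp
  have hpos : ∀ t ∈ Ioo 0 t₀, ∀ k, k ≠ 0 → dN (z + t • v) k = 0 →
      fderiv ℝ dN (z + t • v) k k ≠ 0 := by
    intro t ht k hk hk0 hkk
    exact hdne t ht (hess_eq_zero_two h2 (hne0 t ht) (hN2 t ht) hk hk0 hkk)
  -- `T = L` on the short segment
  have hline : Tendsto (fun t : ℝ => z + t • v) (𝓝 0) (𝓝 z) := line_tendsto z v
  have hOm : ∀ᶠ t : ℝ in 𝓝 0, Om z (-(z + t • v)) := by
    have h1 : Tendsto (fun t : ℝ => -(z + t • v)) (𝓝 0) (𝓝 (-z)) := hline.neg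
    exact h1.eventually ((isOpen_Om_right z).mem_nhds (Om_neg_self hz))
  have hTL : ∀ᶠ t : ℝ in 𝓝[>] 0, T (z + t • v) = L (z + t • v) := by
    filter_upwards [hOm.filter_mono nhdsWithin_le_nhds, Ioo_mem_nhdsGT ht₀] with t hOt ht
    have hy0 : 0 < ‖z + t • v‖ := norm_pos_iff.mpr (hne0 t ht)
    set R : ℝ := ‖z + t • v‖ + ‖z‖ with hR
    have hRpos : 0 < R := by positivity
    set s : ℝ := ‖z‖ * t / R with hs
    have hs1 : s ∈ Ioo 0 t₀ := by
      refine ⟨by have := ht.1; positivity, ?_⟩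
      have h3 : s ≤ t := by
        rw [hs, div_le_iff₀ hRpos, hR]
        nlinarith [ht.1]
      exact lt_of_le_of_lt h3 ht.2
    have hw : Wv z (-(z + t • v)) = R • (z + s • v) := by
      rw [Wv_def, norm_neg, smul_neg, sub_neg_eq_add, smul_add, smul_add, smul_smul, smul_smul]
      have e1 : R * s = ‖z‖ * t := by rw [hs]; field_simp
      rw [e1, hR, add_smul]
      abel
    have hNw : ContDiffAt ℝ 2 (fun z : X => ‖z‖) (Wv z (-(z + t • v))) := by
      rw [hw]
      exact (hN2 s hs1).contDiffAt_norm_smul hRpos.ne'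
    refine kink_step hT hsurj hfin hz hL hLd hLn hOt hNw ?_
    intro k hk hk0 hkk
    rw [hw, dN_smul_pos hRpos] at hk0
    rw [hw] at hkk
    refine hpos s hs1 k hk hk0 ?_
    rw [← hess_smul (hN2 s hs1) hRpos, _root_.smul_apply, _root_.smul_apply, hkk, smul_zero]
  obtain ⟨t₁, ht₁, hsub⟩ := mem_nhdsGT_iff_exists_Ioo_subset.mp hTL
  have ht₁' : 0 < t₁ := ht₁
  -- choose a point
  set τ : ℝ := min t₀ t₁ / 2 with hτ
  have hmin : 0 < min t₀ t₁ := lt_min ht₀ ht₁'
  have hτpos : 0 < τ := by positivity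
  have hτ0 : τ < t₀ := lt_of_lt_of_le (by linarith : τ < min t₀ t₁) (min_le_left _ _)
  have hτ1 : τ < t₁ := lt_of_lt_of_le (by linarith : τ < min t₀ t₁) (min_le_right _ _)
  have hlineD : ∀ s : ℝ, HasDerivAt (fun t : ℝ => z + t • v) v s := by
    intro s
    have := ((hasDerivAt_id s).smul_const v).const_add z
    simpa using this
  have hfirst : ∀ᶠ s : ℝ in 𝓝 τ, fderiv ℝ T (z + s • v) v = L v := by
    filter_upwards [Ioo_mem_nhds hτpos hτ0, Ioo_mem_nhds hτpos hτ1] with s hs0 hs1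
    have h1 : HasDerivAt (fun t : ℝ => T (z + t • v)) (fderiv ℝ T (z + s • v) v) s :=
      ((hT2 s hs0).differentiableAt (by norm_num)).hasFDerivAt.comp_hasDerivAt s (hlineD s)
    have h3 : HasDerivAt (fun t : ℝ => L (z + t • v)) (L v) s :=
      L.hasFDerivAt.comp_hasDerivAt s (hlineD s)
    have h4 : (fun t : ℝ => T (z + t • v)) =ᶠ[𝓝 s] fun t : ℝ => L (z + t • v) := by
      filter_upwards [Ioo_mem_nhds hs1.1 hs1.2] with t ht
      exact hsub ht
    exact (h1.congr_of_eventuallyEq h4.symm).unique h3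
  have hτm : τ ∈ Ioo 0 t₀ := ⟨hτpos, hτ0⟩
  have hsnd : fderiv ℝ (fderiv ℝ T) (z + τ • v) v v = 0 := by
    have h1 : HasDerivAt (fun s : ℝ => fderiv ℝ T (z + s • v))
        (fderiv ℝ (fderiv ℝ T) (z + τ • v) v) τ :=
      (hasFDerivAt_fderiv (hT2 τ hτm)).comp_hasDerivAt τ (hlineD τ)
    have h3 : HasDerivAt (fun s : ℝ => fderiv ℝ T (z + s • v) v)
        (fderiv ℝ (fderiv ℝ T) (z + τ • v) v v) τ := by
      have h4 := h1.clm_apply (hasDerivAt_const τ v)
      exact h4.congr_deriv (by simp)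
    have h4 : (fun s : ℝ => fderiv ℝ T (z + s • v) v) =ᶠ[𝓝 τ] fun _ => L v := hfirst
    exact (h3.congr_of_eventuallyEq h4.symm).unique (hasDerivAt_const τ (L v))
  obtain ⟨ζ, hζ'⟩ := hζ τ hτm
  rw [hζ' v v] at hsnd
  rcases smul_eq_zero.mp hsnd with h0 | h0
  · -- the Hessian of the norm vanishes in the direction `v`
    set y : X := z + τ • v with hy
    have hyn : ‖y‖ ≠ 0 := norm_ne_zero_iff.mpr (hne0 τ hτm)
    have hyd : DifferentiableAt ℝ (fun z : X => ‖z‖) y :=
      (hN2 τ hτm).differentiableAt (by norm_num)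
    set c : ℝ := dN y v / ‖y‖ with hc
    set k : X := v - c • y with hk
    have hk0 : dN y k = 0 := by
      rw [hk, map_sub, map_smul, dN_self hyd, hc, smul_eq_mul, div_mul_cancel₀ _ hyn, sub_self]
    have hkk : fderiv ℝ dN y k k = 0 := by
      have e1 : k = (-c) • y + v := by rw [hk]; module
      rw [e1, sndZ_hess_decomp (hN2 τ hτm), h0]
    by_cases hkz : k = 0
    · have hv : v = c • y := sub_eq_zero.mp hkz
      have hzy : z = (1 - τ * c) • y := by
        have e1 : z = y - τ • v := by rw [hy]; abel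
        calc z = y - τ • v := e1
          _ = y - τ • (c • y) := by rw [← hv]
          _ = (1 - τ * c) • y := by module
      have hcne : (1 - τ * c) ≠ 0 := by
        intro h1
        rw [h1, zero_smul] at hzy
        exact hz hzy
      apply hnd
      rw [hzy]
      exact ((hN2 τ hτm).contDiffAt_norm_smul hcne).differentiableAt (by norm_num)
    · exact hpos τ hτm k hkz hk0 hkk
  · apply hact τ hτm
    ext p q
    rw [hζ' p q, h0]
    simp

end SphereIso

end Vale.Agent.P084
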