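import Mathlib
import Vale.Agent.Lib.P084.Local2
import Vale.Agent.Lib.P084F.D2Defs

open Filter Topology Module

namespace Vale.Agent.P084

section sum

variable {E : Type*} [NormedAddCommGroup E] [NormedSpace ℝ E]

theorem d2link_hasDerivAt {g : ℝ → E} {x : ℝ} (hg : ContDiffAt ℝ 2 g x) :
    HasDerivAt g (deriv g x) x := (hg.differentiableAt (by norm_num)).hasDerivAt

theorem d2link_hasDerivAt_deriv {g : ℝ → E} {x : ℝ} (hg : ContDiffAt ℝ 2 g x) :
    HasDerivAt (deriv g) (deriv (deriv g) x) x := by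
  have h1 : HasFDerivAt (fderiv ℝ g) (fderiv ℝ (fderiv ℝ g) x) x :=
    SphereIso.hasFDerivAt_fderiv hg
  have h2 := h1.clm_apply (hasFDerivAt_const (1 : ℝ) x)
  have h3 : DifferentiableAt ℝ (fun t => fderiv ℝ g t 1) x := h2.differentiableAt
  have h4 : (fun t => fderiv ℝ g t 1) = deriv g := by
    funext t
    exact fderiv_apply_one_eq_deriv
  rw [h4] at h3
  exact h3.hasDerivAt

theorem d2link_contDiffAt {g : ℝ → E} {x : ℝ} (hg : ContDiffAt ℝ 2 g x) :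
    ContDiffAt ℝ 2 (fun w : ℝ × ℝ => g w.1 + g w.2) (x, x) := by
  have h1 : ContDiffAt ℝ 2 (fun z : ℝ × ℝ => g z.1) (x, x) :=
    ContDiffAt.comp ((x, x) : ℝ × ℝ) (g := g) (f := Prod.fst) hg contDiffAt_fst
  have h2 : ContDiffAt ℝ 2 (fun z : ℝ × ℝ => g z.2) (x, x) :=
    ContDiffAt.comp ((x, x) : ℝ × ℝ) (g := g) (f := Prod.snd) hg contDiffAt_snd
  exact h1.add h2

theorem d2link_fderiv {g : ℝ → E} {w : ℝ × ℝ} (h1 : HasDerivAt g (deriv g w.1) w.1)
    (h2 : HasDerivAt g (deriv g w.2) w.2) :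
    fderiv ℝ (fun w : ℝ × ℝ => g w.1 + g w.2) w (1, -1) = deriv g w.1 - deriv g w.2 := by
  have e1 : HasFDerivAt (fun w : ℝ × ℝ => g w.1) _ w :=
    HasFDerivAt.comp w (f := Prod.fst) h1.hasFDerivAt hasFDerivAt_fst
  have e2 : HasFDerivAt (fun w : ℝ × ℝ => g w.2) _ w :=
    HasFDerivAt.comp w (f := Prod.snd) h2.hasFDerivAt hasFDerivAt_snd
  have e3 : HasFDerivAt (fun w : ℝ × ℝ => g w.1 + g w.2) _ w := e1.add e2
  rw [e3.fderiv]
  simp [sub_eq_add_neg]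

theorem d2link_fderiv_ev {g : ℝ → E} {x : ℝ} (hg : ContDiffAt ℝ 2 g x) :
    ∀ᶠ w : ℝ × ℝ in 𝓝 (x, x),
      fderiv ℝ (fun w : ℝ × ℝ => g w.1 + g w.2) w (1, -1) = deriv g w.1 - deriv g w.2 := by
  have h1 : ∀ᶠ w : ℝ × ℝ in 𝓝 (x, x), ContDiffAt ℝ 2 g w.1 :=
    (continuous_fst.tendsto ((x, x) : ℝ × ℝ)).eventually (hg.eventually (by norm_num))
  have h2 : ∀ᶠ w : ℝ × ℝ in 𝓝 (x, x), ContDiffAt ℝ 2 g w.2 :=
    (continuous_snd.tendsto ((x, x) : ℝ × ℝ)).eventually (hg.eventually (by norm_num))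
  filter_upwards [h1, h2] with w h1 h2
  exact d2link_fderiv (d2link_hasDerivAt h1) (d2link_hasDerivAt h2)

theorem d2link_snd {g : ℝ → E} {x : ℝ} (hg : ContDiffAt ℝ 2 g x) :
    fderiv ℝ (fderiv ℝ (fun w : ℝ × ℝ => g w.1 + g w.2)) (x, x) (1, -1) (1, -1)
      = (2 : ℝ) • deriv (deriv g) x := by
  have h1 : HasFDerivAt (fderiv ℝ (fun w : ℝ × ℝ => g w.1 + g w.2))
      (fderiv ℝ (fderiv ℝ (fun w : ℝ × ℝ => g w.1 + g w.2)) (x, x)) (x, x) :=
    SphereIso.hasFDerivAt_fderiv (d2link_contDiffAt hg)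
  have h2 := h1.clm_apply (hasFDerivAt_const ((1, -1) : ℝ × ℝ) ((x, x) : ℝ × ℝ))
  have h3 := d2link_hasDerivAt_deriv hg
  have e1 : HasFDerivAt (fun w : ℝ × ℝ => deriv g w.1) _ (x, x) :=
    HasFDerivAt.comp ((x, x) : ℝ × ℝ) (f := Prod.fst) h3.hasFDerivAt hasFDerivAt_fst
  have e2 : HasFDerivAt (fun w : ℝ × ℝ => deriv g w.2) _ (x, x) :=
    HasFDerivAt.comp ((x, x) : ℝ × ℝ) (f := Prod.snd) h3.hasFDerivAt hasFDerivAt_snd
  have h4 := (h2.congr_of_eventuallyEq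
    ((d2link_fderiv_ev hg).mono fun w hw => hw.symm)).unique (e1.sub e2)
  have h5 := congrArg (fun L : ℝ × ℝ →L[ℝ] E => L (1, -1)) h4
  simp only [_root_.add_apply, ContinuousLinearMap.comp_apply, ContinuousLinearMap.flip_apply,
    _root_.sub_apply, _root_.zero_apply, _root_.map_zero, zero_add] at h5
  rw [h5]
  simp [two_smul]

end sum

variable {X Y : Type*} [NormedAddCommGroup X] [NormedSpace ℝ X] [NormedAddCommGroup Y]
  [NormedSpace ℝ Y] {T : X → Y} {S : Y → X}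

/-- PROOF: `S (T g + T g) = S (T (2 • g))`. -/
theorem Ph_diag (hT : SphereIso T) (hS : SphereIso S) (hST : ∀ x, S (T x) = x) (a v : X) (x : ℝ) :
    Ph0 a v (x, x) = (2 : ℝ) • gam a v x ∧ Ph1 T S a v (x, x) = (2 : ℝ) • gam a v x := by
  refine ⟨?_, ?_⟩
  · unfold Ph0
    rw [two_smul]
  · unfold Ph1
    rw [← two_smul ℝ, ← hT.smul, hST]

/-
PROOF.  Write `G = gam a v`, `ν = T ∘ G` (`C²` near `0`), `k = (1,-1)`.  `DPh0 (ξ,υ) k = G' ξ - G' υ`, so it vanishes at `(x,x)` and `D²Ph0 (x,x) k k = 2 • G'' x`.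
`W (ξ,υ) = ν ξ + ν υ = T (Ph1 (ξ,υ))` near `0`: `DW (ξ,υ) k = ν' ξ - ν' υ = fderiv T (Ph1 (ξ,υ)) (DPh1 (ξ,υ) k)`; `DPh1 (ξ,υ) k = fderiv S (W) (ν' ξ - ν' υ)` vanishes at `(x,x)`;
differentiating `fderiv T (Ph1 w) (DPh1 w k) = ν' w.1 - ν' w.2` at `w = (x,x)` in the direction `k` (use that the second factor vanishes at `(x,x)`):
`fderiv T (2 • G x) (D²Ph1 (x,x) k k) = 2 • ν'' x`, `fderiv T (2 • G x) = fderiv T (G x)` (`fderiv_smul_eq`), and `ν'' x = D²T (G x) (G' x) (G' x) + fderiv T (G x) (G'' x)`.  Subtract.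
(`Reg2.line`, `Reg2.gam`, `gam_contDiffAt_of` give all the smoothness needed at nearby points.)
-/
theorem link_snd (hT : SphereIso T) (hS : SphereIso S) (hST : ∀ x, S (T x) = x)
    (hTS : ∀ y, T (S y) = y) {a v : X} (ha : a ≠ 0) (h : Reg2 T S a) :
    ∀ᶠ x in 𝓝 (0 : ℝ), fderiv ℝ (Ph0 a v) (x, x) (1, -1) = 0 ∧
      fderiv ℝ (Ph1 T S a v) (x, x) (1, -1) = 0 ∧
      fderiv ℝ T (gam a v x) (fderiv ℝ (fderiv ℝ (Ph1 T S a v)) (x, x) (1, -1) (1, -1)
          - fderiv ℝ (fderiv ℝ (Ph0 a v)) (x, x) (1, -1) (1, -1))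
        = (2 : ℝ) • fderiv ℝ (fderiv ℝ T) (gam a v x) (deriv (gam a v) x) (deriv (gam a v) x) := by
  filter_upwards [line_ne_eventually ha v, h.line v] with x hx0 hR
  have hRg : Reg2 T S (gam a v x) := hR.gam hT hS hx0
  have hG : ContDiffAt ℝ 2 (gam a v) x := gam_contDiffAt_of hx0 hR.hX
  set G : ℝ → X := gam a v with hGdef
  set ν : ℝ → Y := fun t => T (G t) with hν
  have hνc : ContDiffAt ℝ 2 ν x := ContDiffAt.comp x (g := T) hRg.hT hG
  set W : ℝ × ℝ → Y := fun w => ν w.1 + ν w.2 with hW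
  have hWc : ContDiffAt ℝ 2 W (x, x) := d2link_contDiffAt hνc
  have hPh0 : Ph0 a v = fun w : ℝ × ℝ => G w.1 + G w.2 := rfl
  have hPh1 : Ph1 T S a v = fun w : ℝ × ℝ => S (W w) := rfl
  have hWxx : W (x, x) = (2 : ℝ) • T (G x) := by
    rw [hW, two_smul]
  have hPxx : Ph1 T S a v (x, x) = (2 : ℝ) • G x := (Ph_diag hT hS hST a v x).2
  have hSc : ContDiffAt ℝ 2 S (W (x, x)) := by
    rw [hWxx]
    exact hS.contDiffAt_smul hRg.hS two_ne_zero
  have hPc : ContDiffAt ℝ 2 (Ph1 T S a v) (x, x) := ContDiffAt.comp (x, x) (g := S) hSc hWc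
  have hTc : ContDiffAt ℝ 2 T (Ph1 T S a v (x, x)) := by
    rw [hPxx]
    exact hT.contDiffAt_smul hRg.hT two_ne_zero
  have hTP : (fun w => T (Ph1 T S a v w)) = W := by
    funext w
    rw [hPh1, hTS]
  have h01 : fderiv ℝ (Ph0 a v) (x, x) (1, -1) = 0 := by
    rw [hPh0, (d2link_fderiv_ev hG).self_of_nhds, sub_self]
  have hWk : fderiv ℝ W (x, x) (1, -1) = 0 := by
    rw [(d2link_fderiv_ev hνc).self_of_nhds, sub_self]
  have h11 : fderiv ℝ (Ph1 T S a v) (x, x) (1, -1) = 0 := by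
    have e1 : HasFDerivAt (fun w : ℝ × ℝ => S (W w)) _ (x, x) :=
      (hSc.differentiableAt (by norm_num)).hasFDerivAt.comp ((x, x) : ℝ × ℝ)
        (hWc.differentiableAt (by norm_num)).hasFDerivAt
    rw [hPh1, e1.fderiv, ContinuousLinearMap.comp_apply, hWk, _root_.map_zero]
  -- second derivatives
  have hsndG : fderiv ℝ (fderiv ℝ (Ph0 a v)) (x, x) (1, -1) (1, -1)
      = (2 : ℝ) • deriv (deriv G) x := d2link_snd hG
  have hsndW : fderiv ℝ (fderiv ℝ W) (x, x) (1, -1) (1, -1) = (2 : ℝ) • deriv (deriv ν) x :=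
    d2link_snd hνc
  have hkey : fderiv ℝ T (G x) (fderiv ℝ (fderiv ℝ (Ph1 T S a v)) (x, x) (1, -1) (1, -1))
      = fderiv ℝ (fderiv ℝ W) (x, x) (1, -1) (1, -1) := by
    have e1 : HasFDerivAt (fderiv ℝ (Ph1 T S a v))
        (fderiv ℝ (fderiv ℝ (Ph1 T S a v)) (x, x)) (x, x) := SphereIso.hasFDerivAt_fderiv hPc
    have e2 := e1.clm_apply (hasFDerivAt_const ((1, -1) : ℝ × ℝ) ((x, x) : ℝ × ℝ))
    have e3 : ContinuousAt (fun w => fderiv ℝ T (Ph1 T S a v w)) (x, x) := by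
      have c1 : ContinuousAt (fderiv ℝ T) (Ph1 T S a v (x, x)) :=
        (SphereIso.hasFDerivAt_fderiv hTc).continuousAt
      exact ContinuousAt.comp (f := Ph1 T S a v) c1 hPc.continuousAt
    have e4 := hasFDerivAt_clm_apply_of_zero e3 e2 h11
    have e5 : HasFDerivAt (fderiv ℝ W) (fderiv ℝ (fderiv ℝ W) (x, x)) (x, x) :=
      SphereIso.hasFDerivAt_fderiv hWc
    have e6 := e5.clm_apply (hasFDerivAt_const ((1, -1) : ℝ × ℝ) ((x, x) : ℝ × ℝ))
    have e7 : (fun w => fderiv ℝ W w (1, -1)) =ᶠ[𝓝 (x, x)]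
        fun w => fderiv ℝ T (Ph1 T S a v w) (fderiv ℝ (Ph1 T S a v) w (1, -1)) := by
      have f1 := hPc.eventually (by norm_num)
      have f2 := hPc.continuousAt.eventually (hTc.eventually (by norm_num))
      filter_upwards [f1, f2] with w f1 f2
      have f3 : HasFDerivAt (fun w => T (Ph1 T S a v w)) _ w :=
        (f2.differentiableAt (by norm_num)).hasFDerivAt.comp w
          (f1.differentiableAt (by norm_num)).hasFDerivAt
      rw [hTP] at f3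
      rw [f3.fderiv, ContinuousLinearMap.comp_apply]
    have e8 := (e4.congr_of_eventuallyEq e7).unique e6
    have e9 := congrArg (fun L : ℝ × ℝ →L[ℝ] Y => L (1, -1)) e8
    simp only [_root_.add_apply, ContinuousLinearMap.comp_apply, ContinuousLinearMap.flip_apply,
      _root_.zero_apply, _root_.map_zero, zero_add, hPxx] at e9
    rw [← e9, hT.fderiv_smul_eq (hRg.hT.differentiableAt (by norm_num)) two_ne_zero]
  have hν2 : deriv (deriv ν) x = fderiv ℝ (fderiv ℝ T) (G x) (deriv G x) (deriv G x)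
      + fderiv ℝ T (G x) (deriv (deriv G) x) := by
    have e1 : deriv ν =ᶠ[𝓝 x] fun t => fderiv ℝ T (G t) (deriv G t) := by
      have f1 := hG.eventually (by norm_num)
      have f2 := hG.continuousAt.eventually (hRg.hT.eventually (by norm_num))
      filter_upwards [f1, f2] with t f1 f2
      exact ((f2.differentiableAt (by norm_num)).hasFDerivAt.comp_hasDerivAt t
        (d2link_hasDerivAt f1)).deriv
    rw [e1.deriv_eq]
    have e2 : HasDerivAt (fun t => fderiv ℝ T (G t))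
        (fderiv ℝ (fderiv ℝ T) (G x) (deriv G x)) x :=
      (SphereIso.hasFDerivAt_fderiv hRg.hT).comp_hasDerivAt x (d2link_hasDerivAt hG)
    exact (e2.clm_apply (d2link_hasDerivAt_deriv hG)).deriv
  refine ⟨h01, h11, ?_⟩
  rw [map_sub, hkey, hsndW, hsndG, map_smul, ← smul_sub, hν2, add_sub_cancel_right]

end Vale.Agent.P084
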