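import Mathlib
import Vale.Agent.Lib.P084F.D2Defs
import Vale.Agent.Lib.P084F.LocHess

open Filter Topology Module

namespace Vale.Agent.P084

variable {X Y : Type*} [NormedAddCommGroup X] [NormedSpace ℝ X] [NormedAddCommGroup Y]
  [NormedSpace ℝ Y] {T : X → Y} {S : Y → X}

/-- general (not only tangential) invariance of the Hessian; PROOF: `exists_decomp`, `hess_tangent_loc` (LocHess.lean), `fderiv_self`, `hess_self_left`, `hess_symm`. -/
theorem SphereIso.hess_inv_loc (hT : SphereIso T) {x : X} (hx : x ≠ 0)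
    (hX : ContDiffAt ℝ 2 (fun z : X => ‖z‖) x) (hY : ContDiffAt ℝ 2 (fun z : Y => ‖z‖) (T x))
    (hTC : ContDiffAt ℝ 2 T x) (u h : X) :
    fderiv ℝ dN (T x) (fderiv ℝ T x u) (fderiv ℝ T x h) = fderiv ℝ dN x u h := by
  have hXd : DifferentiableAt ℝ (fun z : X => ‖z‖) x := hX.differentiableAt (by norm_num)
  have hTd : DifferentiableAt ℝ T x := hTC.differentiableAt (by norm_num)
  obtain ⟨α, u₀, hu₀, rfl⟩ := exists_decomp hx hXd u
  obtain ⟨β, h₀, hh₀, rfl⟩ := exists_decomp hx hXd h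
  have e1 : ∀ v, fderiv ℝ dN x x v = 0 := fun v => hess_self_left hX v
  have e2 : ∀ v, fderiv ℝ dN x v x = 0 := fun v => by rw [hess_symm hX, e1]
  have e3 : ∀ v, fderiv ℝ dN (T x) (T x) v = 0 := fun v => hess_self_left hY v
  have e4 : ∀ v, fderiv ℝ dN (T x) v (T x) = 0 := fun v => by rw [hess_symm hY, e3]
  have key := hT.hess_tangent_loc hx hX hY hTC hu₀ hh₀
  simp only [map_add, map_smul, _root_.add_apply, _root_.smul_apply, hT.fderiv_self hTd, e1, e2,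
    e3, e4, smul_zero, zero_add, key]

/-- PROOF: `hT.norm_add` with `‖gam‖ = 1`, `hTS`, `norm_map`. -/
theorem norm_Ph1 (hT : SphereIso T) (hS : SphereIso S) (hTS : ∀ y, T (S y) = y) {a v : X}
    {z : ℝ × ℝ} (h1 : a + z.1 • v ≠ 0) (h2 : a + z.2 • v ≠ 0) :
    ‖Ph1 T S a v z‖ = ‖Ph0 a v z‖ := by
  unfold Ph1 Ph0
  rw [hS.norm_map, hT.norm_add]
  rw [norm_gam h1, norm_gam h2]

/-
PROOF.  For `z = (ξ, υ)` near `0` put `G = gam a v`, `ν = T ∘ G` (both `C²` near `0`), `W z = ν ξ + ν υ`, `Ph1 z = S (W z)`, so `T (Ph1 z) = W z`.  `‖W z‖ = ‖Ph0 z‖` (norm_add).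
Differentiate this in the second variable: `dN (W z) (ν' υ) = dN (Ph0 z) (G' υ)` for all `z` near `0` (the norms are differentiable at `W z`, `Ph0 z`, which are close to
`(2/‖a‖) T a`, `(2/‖a‖) a`).  Differentiate that in the first variable (`hasFDerivAt_dN`): `fderiv dN (W z) (ν' ξ) (ν' υ) = fderiv dN (Ph0 z) (G' ξ) (G' υ)`.
Here `G' ξ = fderiv Ph0 z (1,0)`, `G' υ = fderiv Ph0 z (0,1)`, and by the chain rule for `T ∘ Ph1 = W`: `ν' ξ = fderiv T (Ph1 z) (fderiv Ph1 z (1,0))`, `ν' υ = fderiv T (Ph1 z) (fderiv Ph1 z (0,1))`.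
Conclude with `hess_inv_loc` at `x = Ph1 z` (`Reg2 T S (Ph1 z)` for `z` near `0`: `Reg2.eventually`, continuity of `Ph1`, `Ph1 0 = (2/‖a‖) • a`, `Reg2.smul`).
-/

/-- the derivative of the second order identity along one variable -/
theorem mixed_eq_curve {g : ℝ → X} {n : ℝ → Y} {g1 : ℝ → X} {n1 : ℝ → Y} {ξ υ : ℝ}
    (hg : ∀ᶠ r in 𝓝 ξ, HasDerivAt g (g1 r) r) (hn : ∀ᶠ r in 𝓝 ξ, HasDerivAt n (n1 r) r)
    (hg' : HasDerivAt g (g1 υ) υ) (hn' : HasDerivAt n (n1 υ) υ)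
    (hX : ContDiffAt ℝ 2 (fun z : X => ‖z‖) (g ξ + g υ))
    (hY : ContDiffAt ℝ 2 (fun z : Y => ‖z‖) (n ξ + n υ))
    (heq : ∀ᶠ r in 𝓝 ξ, ∀ᶠ s in 𝓝 υ, ‖n r + n s‖ = ‖g r + g s‖) :
    fderiv ℝ dN (n ξ + n υ) (n1 ξ) (n1 υ) = fderiv ℝ dN (g ξ + g υ) (g1 ξ) (g1 υ) := by
  have hgξ : HasDerivAt g (g1 ξ) ξ := hg.self_of_nhds
  have hnξ : HasDerivAt n (n1 ξ) ξ := hn.self_of_nhds
  have hgc : HasDerivAt (fun r => g r + g υ) (g1 ξ) ξ := hgξ.add_const (g υ)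
  have hnc : HasDerivAt (fun r => n r + n υ) (n1 ξ) ξ := hnξ.add_const (n υ)
  have hXe : ∀ᶠ r in 𝓝 ξ, ContDiffAt ℝ 2 (fun z : X => ‖z‖) (g r + g υ) :=
    hgc.continuousAt.eventually (hX.eventually (by norm_num))
  have hYe : ∀ᶠ r in 𝓝 ξ, ContDiffAt ℝ 2 (fun z : Y => ‖z‖) (n r + n υ) :=
    hnc.continuousAt.eventually (hY.eventually (by norm_num))
  -- first order identity
  have h1 : (fun r => dN (n r + n υ) (n1 υ)) =ᶠ[𝓝 ξ] fun r => dN (g r + g υ) (g1 υ) := by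
    filter_upwards [hXe, hYe, heq] with r hr1 hr2 hr3
    have e1 : HasDerivAt (fun s => ‖n r + n s‖) (dN (n r + n υ) (n1 υ)) υ := by
      have h1 : HasDerivAt (fun s => n r + n s) (n1 υ) υ := hn'.const_add (n r)
      exact (hasFDerivAt_norm (hr2.differentiableAt (by norm_num))).comp_hasDerivAt υ h1
    have e2 : HasDerivAt (fun s => ‖g r + g s‖) (dN (g r + g υ) (g1 υ)) υ := by
      have h1 : HasDerivAt (fun s => g r + g s) (g1 υ) υ := hg'.const_add (g r)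
      exact (hasFDerivAt_norm (hr1.differentiableAt (by norm_num))).comp_hasDerivAt υ h1
    exact (e1.congr_of_eventuallyEq (EventuallyEq.symm hr3)).unique e2
  have e1 : HasDerivAt (fun r => dN (n r + n υ) (n1 υ))
      (fderiv ℝ dN (n ξ + n υ) (n1 ξ) (n1 υ)) ξ := by
    have h2 := (hasFDerivAt_dN hY).comp_hasDerivAt ξ hnc
    have h3 := h2.clm_apply (hasDerivAt_const ξ (n1 υ))
    exact h3.congr_deriv (by simp)
  have e2 : HasDerivAt (fun r => dN (g r + g υ) (g1 υ))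
      (fderiv ℝ dN (g ξ + g υ) (g1 ξ) (g1 υ)) ξ := by
    have h2 := (hasFDerivAt_dN hX).comp_hasDerivAt ξ hgc
    have h3 := h2.clm_apply (hasDerivAt_const ξ (g1 υ))
    exact h3.congr_deriv (by simp)
  exact (e1.congr_of_eventuallyEq h1.symm).unique e2

theorem mixed_eq (hT : SphereIso T) (hS : SphereIso S) (hST : ∀ x, S (T x) = x)
    (hTS : ∀ y, T (S y) = y) {a v : X} (ha : a ≠ 0) (h : Reg2 T S a) :
    ∀ᶠ z in 𝓝 (0 : ℝ × ℝ),
      fderiv ℝ dN (Ph0 a v z) (fderiv ℝ (Ph0 a v) z (1, 0)) (fderiv ℝ (Ph0 a v) z (0, 1))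
        = fderiv ℝ dN (Ph1 T S a v z) (fderiv ℝ (Ph1 T S a v) z (1, 0))
            (fderiv ℝ (Ph1 T S a v) z (0, 1)) := by
  have hna : ‖a‖ ≠ 0 := norm_ne_zero_iff.mpr ha
  have hc : (2 * ‖a‖⁻¹) ≠ 0 := mul_ne_zero two_ne_zero (inv_ne_zero hna)
  -- good parameters
  have hA : ∀ᶠ t : ℝ in 𝓝 0, a + t • v ≠ 0 ∧ Reg2 T S (a + t • v) :=
    (line_ne_eventually ha v).and (h.line v)
  have hA' := hA.eventually_nhds
  have hz1 : ∀ᶠ z : ℝ × ℝ in 𝓝 0, ∀ᶠ t : ℝ in 𝓝 z.1, a + t • v ≠ 0 ∧ Reg2 T S (a + t • v) :=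
    (continuous_fst.tendsto' (0 : ℝ × ℝ) 0 rfl).eventually hA'
  have hz2 : ∀ᶠ z : ℝ × ℝ in 𝓝 0, ∀ᶠ t : ℝ in 𝓝 z.2, a + t • v ≠ 0 ∧ Reg2 T S (a + t • v) :=
    (continuous_snd.tendsto' (0 : ℝ × ℝ) 0 rfl).eventually hA'
  have hP0 : Ph0 a v 0 = (2 * ‖a‖⁻¹) • a := by
    have e1 : gam a v (0 : ℝ × ℝ).1 = ‖a‖⁻¹ • a := gam_zero a v
    have e2 : gam a v (0 : ℝ × ℝ).2 = ‖a‖⁻¹ • a := gam_zero a v
    rw [Ph0, e1, e2, ← two_smul ℝ, smul_smul]
  have hP1 : Ph1 T S a v 0 = (2 * ‖a‖⁻¹) • a := by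
    have e1 : gam a v (0 : ℝ × ℝ).1 = ‖a‖⁻¹ • a := gam_zero a v
    have e2 : gam a v (0 : ℝ × ℝ).2 = ‖a‖⁻¹ • a := gam_zero a v
    rw [Ph1, e1, e2, hT.smul, ← two_smul ℝ, smul_smul, hS.smul, hST]
  have hr := h.smul hT hS hc
  have hB0 : ∀ᶠ z : ℝ × ℝ in 𝓝 0, Reg2 T S (Ph0 a v z) := by
    have e : ∀ᶠ y in 𝓝 (Ph0 a v 0), Reg2 T S y := by
      rw [hP0]
      exact hr.eventually
    exact (Ph0_contDiffAt ha h.hX).continuousAt.eventually e
  have hB1 : ∀ᶠ z : ℝ × ℝ in 𝓝 0, Reg2 T S (Ph1 T S a v z) ∧ Ph1 T S a v z ≠ 0 := by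
    have e : ∀ᶠ y in 𝓝 (Ph1 T S a v 0), Reg2 T S y ∧ y ≠ 0 := by
      rw [hP1]
      exact hr.eventually.and (isOpen_ne.mem_nhds (smul_ne_zero hc ha))
    exact (Ph1_contDiffAt hT hS ha h).continuousAt.eventually e
  have hC0 := (Ph0_contDiffAt (v := v) ha h.hX).eventually (by norm_num)
  have hC1 := (Ph1_contDiffAt (v := v) hT hS ha h).eventually (by norm_num)
  filter_upwards [hz1, hz2, hB0, hB1, hC0, hC1] with z h1 h2 h3 h4 h5 h6
  obtain ⟨ξ, υ⟩ := z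
  simp only at h1 h2
  -- derivatives of the curves
  have hg : ∀ t : ℝ, a + t • v ≠ 0 ∧ Reg2 T S (a + t • v) →
      HasDerivAt (gam a v) (deriv (gam a v) t) t := fun t ht =>
    ((gam_contDiffAt_of ht.1 ht.2.hX).differentiableAt (by norm_num)).hasDerivAt
  have hn : ∀ t : ℝ, a + t • v ≠ 0 ∧ Reg2 T S (a + t • v) →
      HasDerivAt (fun t => T (gam a v t)) (deriv (fun t => T (gam a v t)) t) t := fun t ht => by
    have e1 : DifferentiableAt ℝ T (gam a v t) :=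
      (ht.2.gam hT hS ht.1).hT.differentiableAt (by norm_num)
    have e2 : DifferentiableAt ℝ (gam a v) t := (hg t ht).differentiableAt
    exact (DifferentiableAt.comp t e1 e2).hasDerivAt
  have hgood1 := h1.self_of_nhds
  have hgood2 := h2.self_of_nhds
  have hW : T (Ph1 T S a v (ξ, υ)) = T (gam a v ξ) + T (gam a v υ) := hTS _
  have key := mixed_eq_curve (g := gam a v) (n := fun t => T (gam a v t)) (ξ := ξ) (υ := υ)
    (g1 := deriv (gam a v)) (n1 := deriv (fun t => T (gam a v t)))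
    (h1.mono hg) (h1.mono hn) (hg υ hgood2) (hn υ hgood2) h3.hX
    (by have := h4.1.hY; rwa [hW] at this)
    (by
      filter_upwards [h1] with r hr
      filter_upwards [h2] with s hs
      exact hT.norm_add _ _ (by rw [norm_gam hr.1, norm_gam hs.1]))
  -- the partial derivatives
  have hd1 : HasDerivAt (fun t : ℝ => (t, υ)) ((1 : ℝ), (0 : ℝ)) ξ :=
    (hasDerivAt_id ξ).prodMk (hasDerivAt_const ξ υ)
  have hd2 : HasDerivAt (fun t : ℝ => (ξ, t)) ((0 : ℝ), (1 : ℝ)) υ :=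
    (hasDerivAt_const υ ξ).prodMk (hasDerivAt_id υ)
  have hD0 : HasFDerivAt (Ph0 a v) (fderiv ℝ (Ph0 a v) (ξ, υ)) (ξ, υ) :=
    (h5.differentiableAt (by norm_num)).hasFDerivAt
  have hD1 : HasFDerivAt (Ph1 T S a v) (fderiv ℝ (Ph1 T S a v) (ξ, υ)) (ξ, υ) :=
    (h6.differentiableAt (by norm_num)).hasFDerivAt
  have hDT : HasFDerivAt T (fderiv ℝ T (Ph1 T S a v (ξ, υ))) (Ph1 T S a v (ξ, υ)) :=
    (h4.1.hT.differentiableAt (by norm_num)).hasFDerivAt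
  have p1 : fderiv ℝ (Ph0 a v) (ξ, υ) (1, 0) = deriv (gam a v) ξ := by
    have e1 := hD0.comp_hasDerivAt ξ hd1
    have e2 : HasDerivAt (fun t => gam a v t + gam a v υ) (deriv (gam a v) ξ) ξ :=
      (hg ξ hgood1).add_const _
    exact e1.unique e2
  have p2 : fderiv ℝ (Ph0 a v) (ξ, υ) (0, 1) = deriv (gam a v) υ := by
    have e1 := hD0.comp_hasDerivAt υ hd2
    have e2 : HasDerivAt (fun t => gam a v ξ + gam a v t) (deriv (gam a v) υ) υ :=
      (hg υ hgood2).const_add _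
    exact e1.unique e2
  have q1 : fderiv ℝ T (Ph1 T S a v (ξ, υ)) (fderiv ℝ (Ph1 T S a v) (ξ, υ) (1, 0)) =
      deriv (fun t => T (gam a v t)) ξ := by
    have e1 := hDT.comp_hasDerivAt ξ (hD1.comp_hasDerivAt ξ hd1)
    have e2 : HasDerivAt (fun t => T (gam a v t) + T (gam a v υ))
        (deriv (fun t => T (gam a v t)) ξ) ξ := (hn ξ hgood1).add_const _
    refine HasDerivAt.unique (f := fun t => T (Ph1 T S a v (t, υ))) e1 ?_
    refine e2.congr_of_eventuallyEq (Eventually.of_forall fun t => ?_)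
    exact hTS _
  have q2 : fderiv ℝ T (Ph1 T S a v (ξ, υ)) (fderiv ℝ (Ph1 T S a v) (ξ, υ) (0, 1)) =
      deriv (fun t => T (gam a v t)) υ := by
    have e1 := hDT.comp_hasDerivAt υ (hD1.comp_hasDerivAt υ hd2)
    have e2 : HasDerivAt (fun t => T (gam a v ξ) + T (gam a v t))
        (deriv (fun t => T (gam a v t)) υ) υ := (hn υ hgood2).const_add _
    refine HasDerivAt.unique (f := fun t => T (Ph1 T S a v (ξ, t))) e1 ?_
    refine e2.congr_of_eventuallyEq (Eventually.of_forall fun t => ?_)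
    exact hTS _
  have hinv := hT.hess_inv_loc h4.2 h4.1.hX h4.1.hY h4.1.hT
    (fderiv ℝ (Ph1 T S a v) (ξ, υ) (1, 0)) (fderiv ℝ (Ph1 T S a v) (ξ, υ) (0, 1))
  rw [q1, q2, hW] at hinv
  rw [← hinv, p1, p2]
  exact key.symm

end Vale.Agent.P084
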