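import Mathlib
import Vale.Agent.Lib.P084F.D2Eik
import Vale.Agent.Lib.P084F.D2Link
import Vale.Agent.Lib.P084F.D2Mix
import Vale.Agent.Lib.P084F.D2Proj

open Filter Topology Module

namespace Vale.Agent.P084

variable {X Y : Type*} [NormedAddCommGroup X] [NormedSpace ℝ X] [NormedAddCommGroup Y]
  [NormedSpace ℝ Y] [FiniteDimensional ℝ X] [FiniteDimensional ℝ Y] {T : X → Y} {S : Y → X}

namespace SphereIso

/-- the Hessian of the norm degenerates at a point of a plane: the second derivative vanishes -/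
theorem lu_caseA (hT : SphereIso T) (h2 : finrank ℝ X = 2) (hfin : finrank ℝ X = finrank ℝ Y)
    {y v : X} {δ : X →L[ℝ] ℝ} (hy : y ≠ 0) (hδy : δ y = 1) (hδv : δ v = 0) (hv : v ≠ 0)
    (hR : Reg2 T S y) (hP : fderiv ℝ dN y v v = 0) : fderiv ℝ (fderiv ℝ T) y = 0 := by
  have hXd : DifferentiableAt ℝ (fun z : X => ‖z‖) y := hR.hX.differentiableAt (by norm_num)
  have hB : fderiv ℝ (dN : X → X →L[ℝ] ℝ) y = 0 := by
    obtain ⟨α, k, hk, hvk⟩ := exists_decomp hy hXd v
    refine hess_eq_zero_two h2 hy hR.hX (k := k) ?_ hk ?_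
    · rintro rfl
      rw [add_zero] at hvk
      rw [hvk, _root_.map_smul, hδy, smul_eq_mul, mul_one] at hδv
      rw [hδv, zero_smul] at hvk
      exact hv hvk
    · have h1 := sndZ_hess_decomp hR.hX α α k k
      rw [← hvk, hP] at h1
      exact h1.symm
  obtain ⟨ζ, -, hζ⟩ := hT.snd_eq_smul hfin hy hR.hX hR.hY hR.hT
  ext u w
  rw [hζ, hB]
  simp

omit [FiniteDimensional ℝ X] in
/-- the derivative of the parametrization -/
theorem lu_deriv_gam {a v : X} {x : ℝ} (h0 : a + x • v ≠ 0)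
    (hX : DifferentiableAt ℝ (fun z : X => ‖z‖) (a + x • v)) :
    ∃ c : ℝ, deriv (gam a v) x = ‖a + x • v‖⁻¹ • v + c • (a + x • v) := by
  have h1 : HasDerivAt (fun t : ℝ => a + t • v) v x := by
    have := ((hasDerivAt_id x).smul_const v).const_add a
    simpa using this
  have h2 : HasDerivAt (fun t : ℝ => ‖a + t • v‖) (dN (a + x • v) v) x :=
    (hasFDerivAt_norm hX).comp_hasDerivAt x h1
  have h3 := (h2.inv (norm_ne_zero_iff.mpr h0)).smul h1
  exact ⟨_, h3.deriv⟩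

omit [FiniteDimensional ℝ X] in
/-- regularity near a point -/
theorem lu_reg {δ : X →L[ℝ] ℝ} {Φ : ℝ × ℝ → X} {z : ℝ × ℝ} (hΦ : ContDiffAt ℝ 2 Φ z)
    (hδ : 0 < δ (Φ z)) (hN : ContDiffAt ℝ 2 (fun w : X => ‖w‖) (Φ z)) :
    ∀ᶠ w in 𝓝 z, ContDiffAt ℝ 2 Φ w ∧ 0 < δ (Φ w) ∧ ContDiffAt ℝ 2 (fun w : X => ‖w‖) (Φ w) := by
  have h1 := hΦ.eventually (by norm_num)
  have h2 : ContinuousAt (fun w => δ (Φ w)) z := δ.continuous.continuousAt.comp hΦ.continuousAt
  have h3 := h2.eventually (lt_mem_nhds hδ)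
  have h4 := hΦ.continuousAt.eventually (hN.eventually (by norm_num))
  filter_upwards [h1, h3, h4] with w h1 h3 h4
  exact ⟨h1, h3, h4⟩

/-- the other case -/
theorem lu_caseB (hT : SphereIso T) (hfin : finrank ℝ X = finrank ℝ Y)
    {y v g' : X} {c d : ℝ} (hy : y ≠ 0) (hspan : ∀ u : X, ∃ α β : ℝ, u = α • y + β • v)
    (hR : Reg2 T S y) (hRg : Reg2 T S (‖y‖⁻¹ • y)) (hg' : g' = ‖y‖⁻¹ • v + c • y)
    (hlink : fderiv ℝ T (‖y‖⁻¹ • y) (d • y) =
      (2 : ℝ) • fderiv ℝ (fderiv ℝ T) (‖y‖⁻¹ • y) g' g') : fderiv ℝ (fderiv ℝ T) y = 0 := by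
  have hny : 0 < ‖y‖ := norm_pos_iff.mpr hy
  have hXd : DifferentiableAt ℝ (fun z : X => ‖z‖) y := hR.hX.differentiableAt (by norm_num)
  set r : ℝ := ‖y‖⁻¹ with hr
  have hr0 : 0 < r := inv_pos.mpr hny
  have hg0 : r • y ≠ 0 := smul_ne_zero hr0.ne' hy
  obtain ⟨ζ, hζ0, hζ⟩ := hT.snd_eq_smul hfin hg0 hRg.hX hRg.hY hRg.hT
  have h1 := congrArg (dN (T (r • y))) hlink
  rw [hT.dN_apply (hRg.hT.differentiableAt (by norm_num)) (hRg.hY.differentiableAt (by norm_num)),
    hζ, _root_.map_smul, _root_.map_smul, _root_.map_smul, hζ0, smul_zero, smul_zero,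
    dN_smul_pos hr0, dN_self hXd, smul_eq_mul] at h1
  have hd : d = 0 := (mul_eq_zero.mp h1).resolve_right hny.ne'
  rw [hd, zero_smul, _root_.map_zero] at hlink
  have hA1 : ∀ w, fderiv ℝ (fderiv ℝ T) (r • y) y w = 0 := by
    intro w
    have h3 := hT.snd_self_left hRg.hT w
    rw [_root_.map_smul, _root_.smul_apply] at h3
    exact (smul_eq_zero.mp h3).resolve_left hr0.ne'
  have hA2 : ∀ w, fderiv ℝ (fderiv ℝ T) (r • y) w y = 0 := by
    intro w
    rw [snd_symm hRg.hT, hA1]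
  have h4 : fderiv ℝ (fderiv ℝ T) (r • y) g' g' =
      (r * r) • fderiv ℝ (fderiv ℝ T) (r • y) v v := by
    rw [hg']
    simp only [map_add, _root_.map_smul, _root_.add_apply, _root_.smul_apply, hA1, hA2, smul_zero,
      add_zero, smul_smul]
  rw [h4, smul_smul] at hlink
  have h5 : fderiv ℝ (fderiv ℝ T) (r • y) v v = 0 :=
    (smul_eq_zero.mp hlink.symm).resolve_left (by positivity)
  have h6 : fderiv ℝ (fderiv ℝ T) (r • y) = 0 := by
    ext u w
    obtain ⟨α, β, rfl⟩ := hspan u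
    obtain ⟨α', β', rfl⟩ := hspan w
    simp only [map_add, _root_.map_smul, _root_.add_apply, _root_.smul_apply, hA1, hA2, h5,
      smul_zero, add_zero]
    simp
  rw [← hT.leaf_snd_smul hR.hT hr0.ne' hRg.hT, h6, smul_zero]

theorem local_unique (hT : SphereIso T) (hS : SphereIso S) (hST : ∀ x, S (T x) = x)
    (hTS : ∀ y, T (S y) = y) (h2 : finrank ℝ X = 2) (hfin : finrank ℝ X = finrank ℝ Y)
    {a : X} (ha : a ≠ 0) (h : Reg2 T S a) (hD : fderiv ℝ (fderiv ℝ T) a = 0) :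
    ∀ᶠ z in 𝓝 a, fderiv ℝ (fderiv ℝ T) z = 0 := by
  obtain ⟨v, δ, e, hav, hv, hde, hδa, hδv, hea, hev⟩ :=
    exists_coords h2 ha (h.hX.differentiableAt (by norm_num))
  have hna : 0 < ‖a‖ := norm_pos_iff.mpr ha
  have hδy : ∀ x : ℝ, δ (a + x • v) = 1 := by
    intro x
    rw [map_add, _root_.map_smul, hδa, hδv, smul_zero, add_zero]
  have hey : ∀ x : ℝ, e (a + x • v) = x := by
    intro x
    rw [map_add, _root_.map_smul, hea, hev, smul_eq_mul, mul_one, zero_add]
  have hy0 : ∀ x : ℝ, a + x • v ≠ 0 := by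
    intro x hx
    have h1 := hδy x
    rw [hx, _root_.map_zero] at h1
    exact zero_ne_one h1
  have hny : ∀ x : ℝ, 0 < ‖a + x • v‖ := fun x => norm_pos_iff.mpr (hy0 x)
  have hδg : ∀ x : ℝ, δ ((2 : ℝ) • gam a v x) = 2 * ‖a + x • v‖⁻¹ := by
    intro x
    rw [gam, _root_.map_smul, _root_.map_smul, hδy, smul_eq_mul, smul_eq_mul, mul_one]
  have heg : ∀ x : ℝ, e ((2 : ℝ) • gam a v x) = 2 * ‖a + x • v‖⁻¹ * x := by
    intro x
    rw [gam, _root_.map_smul, _root_.map_smul, hey, smul_eq_mul, smul_eq_mul, mul_assoc]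
  have hδgp : ∀ x : ℝ, 0 < δ ((2 : ℝ) • gam a v x) := by
    intro x
    rw [hδg]
    have := hny x
    positivity
  have hratio : ∀ x : ℝ, e ((2 : ℝ) • gam a v x) / δ ((2 : ℝ) • gam a v x) = x := by
    intro x
    rw [heg, hδg]
    have := hny x
    field_simp
  have hd0 : ∀ x : ℝ, Ph0 a v (x, x) = (2 : ℝ) • gam a v x := fun x =>
    (Ph_diag hT hS hST a v x).1
  have hd1 : ∀ x : ℝ, Ph1 T S a v (x, x) = (2 : ℝ) • gam a v x := fun x =>
    (Ph_diag hT hS hST a v x).2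
  set m₀ : ℝ × ℝ → ℝ := fun w => e (Ph0 a v w) / δ (Ph0 a v w) with hm₀
  set m₁ : ℝ × ℝ → ℝ := fun w => e (Ph1 T S a v w) / δ (Ph1 T S a v w) with hm₁
  set P : ℝ → ℝ := fun t => fderiv ℝ dN (a + t • v) v v / ‖a + t • v‖ with hP
  have hz0 : (0 : ℝ × ℝ) = ((0 : ℝ), (0 : ℝ)) := rfl
  have hC0 := Ph0_contDiffAt (v := v) ha h.hX
  have hC1 := Ph1_contDiffAt (v := v) hT hS ha h
  have hδ00 : 0 < δ (Ph0 a v 0) := by rw [hz0, hd0]; exact hδgp 0
  have hδ10 : 0 < δ (Ph1 T S a v 0) := by rw [hz0, hd1]; exact hδgp 0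
  have hlineR : ∀ᶠ t : ℝ in 𝓝 0, Reg2 T S (a + t • v) := h.line v
  have hgR : ∀ᶠ t : ℝ in 𝓝 0, Reg2 T S (‖a + t • v‖⁻¹ • (a + t • v)) := by
    filter_upwards [hlineR] with t ht
    exact ht.smul hT hS (inv_ne_zero (hny t).ne')
  have hN0 : ContDiffAt ℝ 2 (fun w : X => ‖w‖) ((2 : ℝ) • gam a v 0) := by
    rw [gam_zero]
    exact (h.hX.contDiffAt_norm_smul (inv_ne_zero hna.ne')).contDiffAt_norm_smul two_ne_zero
  have hreg0 := lu_reg (δ := δ) hC0 hδ00 (by rw [hz0, hd0]; exact hN0)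
  have hreg1 := lu_reg (δ := δ) hC1 hδ10 (by rw [hz0, hd1]; exact hN0)
  have hdiag : Tendsto (fun x : ℝ => (x, x)) (𝓝 0) (𝓝 (0 : ℝ × ℝ)) := by
    have hc : Continuous (fun x : ℝ => (x, x)) := by fun_prop
    exact hc.tendsto 0
  have hlink := link_snd hT hS hST hTS (v := v) ha h
  have hsnd : ∀ᶠ x in 𝓝 (0 : ℝ), fderiv ℝ (fderiv ℝ m₁) (x, x) (1, -1) (1, -1)
      - fderiv ℝ (fderiv ℝ m₀) (x, x) (1, -1) (1, -1)
      = (e (fderiv ℝ (fderiv ℝ (Ph1 T S a v)) (x, x) (1, -1) (1, -1)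
          - fderiv ℝ (fderiv ℝ (Ph0 a v)) (x, x) (1, -1) (1, -1))
        - x * δ (fderiv ℝ (fderiv ℝ (Ph1 T S a v)) (x, x) (1, -1) (1, -1)
          - fderiv ℝ (fderiv ℝ (Ph0 a v)) (x, x) (1, -1) (1, -1))) /
          δ ((2 : ℝ) • gam a v x) := by
    filter_upwards [hdiag.eventually hreg0, hdiag.eventually hreg1, hlink] with x h0 h1 hl
    have e0 := proj_snd (e := e) h0.1 h0.2.1 hl.1
    have e1 := proj_snd (e := e) h1.1 h1.2.1 hl.2.1
    rw [hd0, hratio] at e0
    rw [hd1, hratio] at e1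
    rw [hm₀, hm₁, e0, e1, map_sub, map_sub]
    ring
  have heik : ∀ᶠ x in 𝓝 (0 : ℝ), P x * (fderiv ℝ (fderiv ℝ m₁) (x, x) (1, -1) (1, -1)
      - fderiv ℝ (fderiv ℝ m₀) (x, x) (1, -1) (1, -1)) = 0 := by
    apply eikonal_unique
    · filter_upwards [hlineR] with t ht
      have hc1 : ContinuousAt (fun t : ℝ => a + t • v) t := by fun_prop
      have hc2 : ContinuousAt (fderiv ℝ (dN : X → X →L[ℝ] ℝ)) (a + t • v) := by
        have h2 : ContDiffAt ℝ 0 (fderiv ℝ (dN : X → X →L[ℝ] ℝ)) (a + t • v) :=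
          (contDiffAt_dN ht.hX).fderiv_right (by norm_num)
        exact h2.continuousAt
      have hc3 : ContinuousAt (fun t : ℝ => fderiv ℝ (dN : X → X →L[ℝ] ℝ) (a + t • v)) t :=
        ContinuousAt.comp (f := fun t : ℝ => a + t • v) hc2 hc1
      exact ((hc3.clm_apply continuousAt_const).clm_apply continuousAt_const).div hc1.norm
        (hny t).ne'
    · filter_upwards [hlineR] with t ht
      exact div_nonneg (leaf_hess_nonneg ht.hX v) (norm_nonneg _)
    · exact (e.contDiff.contDiffAt.comp (0 : ℝ × ℝ) hC0).div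
        (δ.contDiff.contDiffAt.comp (0 : ℝ × ℝ) hC0) hδ00.ne'
    · exact (e.contDiff.contDiffAt.comp (0 : ℝ × ℝ) hC1).div
        (δ.contDiff.contDiffAt.comp (0 : ℝ × ℝ) hC1) hδ10.ne'
    · refine Filter.Eventually.of_forall fun x => ?_
      rw [hm₀]
      simp only
      rw [hd0, hratio]
    · refine Filter.Eventually.of_forall fun x => ?_
      rw [hm₁]
      simp only
      rw [hd1, hratio]
    · intro z
      have h1 : Ph0 a v (z.2, z.1) = Ph0 a v z := by
        unfold Ph0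
        exact add_comm _ _
      rw [hm₀]
      simp only
      rw [h1]
    · intro z
      have h1 : Ph1 T S a v (z.2, z.1) = Ph1 T S a v z := by
        unfold Ph1
        rw [add_comm]
      rw [hm₁]
      simp only
      rw [h1]
    · filter_upwards [hreg0, hreg1, mixed_eq hT hS hST hTS (v := v) ha h] with z h0 h1 hm
      rw [proj_hess hde hδa hδv hea hev (h0.1.differentiableAt (by norm_num)) h0.2.1 h0.2.2,
        proj_hess hde hδa hδv hea hev (h1.1.differentiableAt (by norm_num)) h1.2.1 h1.2.2,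
        norm_Ph1 hT hS hTS (hy0 _) (hy0 _)] at hm
      have h3 : ‖Ph0 a v z‖ ≠ 0 := by
        rw [norm_ne_zero_iff]
        intro h4
        have h5 := h0.2.1
        rw [h4, _root_.map_zero] at h5
        exact lt_irrefl _ h5
      exact mul_left_cancel₀ h3 hm
    · have h1 := hsnd.self_of_nhds
      have h2 := hlink.self_of_nhds.2.2
      have h3 : fderiv ℝ (fderiv ℝ T) (gam a v 0) = 0 := by
        rw [gam_zero]
        have h4 := hT.leaf_snd_smul h.hT (inv_ne_zero hna.ne')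
          (hT.contDiffAt_smul h.hT (inv_ne_zero hna.ne'))
        rw [hD] at h4
        exact (smul_eq_zero.mp h4).resolve_left (inv_ne_zero hna.ne')
      have h5 := (h.line v).self_of_nhds
      have h6 := h5.gam hT hS (hy0 0)
      have h7 := hT.fderiv_injective (x := gam a v 0)
        (by rw [gam_zero]; exact smul_ne_zero (inv_ne_zero hna.ne') ha)
        (h6.hT.differentiableAt (by norm_num)) (h6.hX.differentiableAt (by norm_num))
        (h6.hY.differentiableAt (by norm_num))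
      rw [h3] at h2
      simp only [_root_.zero_apply, smul_zero] at h2
      rw [← _root_.map_zero (fderiv ℝ T (gam a v 0))] at h2
      have h8 := h7 h2
      rw [h8] at h1
      simp only [_root_.map_zero, mul_zero, sub_zero, zero_div] at h1
      rw [hz0, h1, mul_zero]
  -- the line
  have hline : ∀ᶠ x in 𝓝 (0 : ℝ), fderiv ℝ (fderiv ℝ T) (a + x • v) = 0 := by
    filter_upwards [heik, hsnd, hlink, hlineR, hgR] with x hx hs hl hR hRg
    rw [hs, mul_eq_zero] at hx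
    rcases hx with hx | hx
    · have h1 : fderiv ℝ dN (a + x • v) v v = 0 :=
        (div_eq_zero_iff.mp hx).resolve_right (hny x).ne'
      exact hT.lu_caseA h2 hfin (hy0 x) (hδy x) hδv hv hR h1
    · have h1 := (div_eq_zero_iff.mp hx).resolve_right (hδgp x).ne'
      have hll := hl.2.2
      clear_value m₀ m₁ P
      generalize hΔ : fderiv ℝ (fderiv ℝ (Ph1 T S a v)) (x, x) (1, -1) (1, -1)
          - fderiv ℝ (fderiv ℝ (Ph0 a v)) (x, x) (1, -1) (1, -1) = Δ at h1 hll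
      obtain ⟨c, hc⟩ := lu_deriv_gam (hy0 x) (hR.hX.differentiableAt (by norm_num))
      refine hT.lu_caseB hfin (c := c) (d := δ Δ) (hy0 x) ?_ hR hRg hc ?_
      · intro u
        refine ⟨δ u, e u - x * δ u, ?_⟩
        conv_lhs => rw [← hde u]
        module
      · have h4 : δ Δ • (a + x • v) = Δ := by
          conv_rhs => rw [← hde Δ]
          rw [sub_eq_zero.mp h1]
          module
        rw [h4]
        exact hll
  -- all points
  have hx0 : Tendsto (fun z : X => e z / δ z) (𝓝 a) (𝓝 0) := by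
    have hc : ContinuousAt (fun z : X => e z / δ z) a :=
      e.continuous.continuousAt.div δ.continuous.continuousAt (by rw [hδa]; exact one_ne_zero)
    have h1 := hc.tendsto
    rwa [hea, zero_div] at h1
  have hδp : ∀ᶠ z in 𝓝 a, 0 < δ z :=
    δ.continuous.continuousAt.eventually (lt_mem_nhds (by rw [hδa]; exact one_pos))
  filter_upwards [hx0.eventually hline, hx0.eventually hlineR, hδp, h.eventually] with z hz hzR hzδ hzC
  have h1 : δ z • (a + (e z / δ z) • v) = z := by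
    conv_rhs => rw [← hde z]
    rw [smul_add, smul_smul, mul_div_cancel₀ _ hzδ.ne']
  have h2 := hT.leaf_snd_smul hzR.hT hzδ.ne' (by rw [h1]; exact hzC.hT)
  rw [h1, hz] at h2
  exact (smul_eq_zero.mp h2).resolve_left hzδ.ne'

end SphereIso

end Vale.Agent.P084
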