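import Mathlib
import Vale.Agent.Lib.P084F.D2Det
import Vale.Agent.Lib.P084F.D2Kink
import Vale.Agent.Lib.P084F.D2Local

open Filter Topology Module Metric Set

namespace Vale.Agent.P084

variable {X Y : Type*} [NormedAddCommGroup X] [NormedSpace ℝ X] [NormedAddCommGroup Y]
  [NormedSpace ℝ Y] [FiniteDimensional ℝ X] [FiniteDimensional ℝ Y] {T : X → Y} {S : Y → X}

namespace SphereIso

/-- in dimension two the second derivative vanishes at the smooth points -/
theorem snd_eq_zero_two (hT : SphereIso T) (hS : SphereIso S) (hST : ∀ x, S (T x) = x)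
    (hTS : ∀ y, T (S y) = y) (hsurj : Function.Surjective T) (h2 : finrank ℝ X = 2)
    (hfin : finrank ℝ X = finrank ℝ Y)
    (hreg : ∀ a : X, a ≠ 0 → DifferentiableAt ℝ (fun z : X => ‖z‖) a → Reg2 T S a)
    {a : X} (ha : a ≠ 0) (had : DifferentiableAt ℝ (fun z : X => ‖z‖) a) :
    fderiv ℝ (fderiv ℝ T) a = 0 := by
  letI : MeasurableSpace X := borel X
  haveI : BorelSpace X := ⟨rfl⟩
  letI : MeasurableSpace Y := borel Y
  haveI : BorelSpace Y := ⟨rfl⟩
  by_contra hD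
  set A : Set X := {x : X | x ≠ 0 ∧ DifferentiableAt ℝ (fun z : X => ‖z‖) x ∧
      fderiv ℝ (fderiv ℝ T) x ≠ 0} with hA
  have hAopen : IsOpen A := leaf_isOpen (fun a h1 h2 => (hreg a h1 h2).hX)
    (fun a h1 h2 => (hreg a h1 h2).hT)
  have hAsmul : ∀ x ∈ A, ∀ c : ℝ, c ≠ 0 → c • x ∈ A := by
    rintro x ⟨hx0, hxd, hx2⟩ c hc
    have h1 : ContDiffAt ℝ 2 T (c • x) := hT.contDiffAt_smul (hreg x hx0 hxd).hT hc
    refine ⟨smul_ne_zero hc hx0, ?_, ?_⟩
    · exact ((hreg x hx0 hxd).hX.contDiffAt_norm_smul hc).differentiableAt (by norm_num)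
    · intro h0
      apply hx2
      rw [← hT.leaf_snd_smul (hreg x hx0 hxd).hT hc h1, h0, smul_zero]
  have haA : a ∈ A := ⟨ha, had, hD⟩
  have hex : ∃ w : X, w ≠ 0 ∧ w ∉ A := by
    by_contra hcon
    push Not at hcon
    exact hT.det_false hfin h2 (fun a h => (hreg a h (hcon a h).2.1).hX)
      (fun a h => (hreg a h (hcon a h).2.1).hY) (fun a h => (hreg a h (hcon a h).2.1).hT)
      (fun a h => (hcon a h).2.2)
  obtain ⟨w, hw0, hwA⟩ := hex
  have hline0 : ∀ t : ℝ, a + t • (w - a) ≠ 0 := by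
    intro t h0
    have h1 : (1 - t) • a + t • w = 0 := by rw [← h0]; module
    rcases eq_or_ne t 0 with rfl | ht
    · rw [sub_zero, one_smul, zero_smul, add_zero] at h1
      exact ha h1
    · have h2 : w = (-(t⁻¹ * (1 - t))) • a := by
        have h3 : t • w = -((1 - t) • a) := by
          rw [eq_neg_iff_add_eq_zero, add_comm]; exact h1
        calc w = t⁻¹ • (t • w) := by rw [smul_smul, inv_mul_cancel₀ ht, one_smul]
          _ = _ := by rw [h3, smul_neg, smul_smul, neg_smul]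
      apply hwA
      rw [h2]
      apply hAsmul a haA
      intro h3
      rw [h3, zero_smul] at h2
      exact hw0 h2
  have hcont : Continuous (fun t : ℝ => a + t • (w - a)) := by fun_prop
  set B : Set ℝ := Icc (0 : ℝ) 1 ∩ {t : ℝ | a + t • (w - a) ∉ A} with hB
  have hBcl : IsClosed B := isClosed_Icc.inter (hAopen.isClosed_compl.preimage hcont)
  have h1B : (1 : ℝ) ∈ B := by
    refine ⟨⟨zero_le_one, le_refl _⟩, ?_⟩
    show a + (1 : ℝ) • (w - a) ∉ A
    rw [one_smul, add_sub_cancel]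
    exact hwA
  have hBbdd : BddBelow B := ⟨0, fun t ht => ht.1.1⟩
  set τ : ℝ := sInf B with hτ
  have hτB : τ ∈ B := hBcl.csInf_mem ⟨1, h1B⟩ hBbdd
  have hτ0 : 0 < τ := by
    rcases hτB.1.1.eq_or_lt with h | h
    · exfalso
      apply hτB.2
      rw [← h, zero_smul, add_zero]
      exact haA
    · exact h
  have hlt : ∀ t : ℝ, 0 ≤ t → t < τ → a + t • (w - a) ∈ A := by
    intro t ht0 ht
    by_contra hn
    have h1 : t ∈ B := ⟨⟨ht0, le_trans ht.le hτB.1.2⟩, hn⟩
    exact absurd (csInf_le hBbdd h1) (not_le.mpr ht)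
  set z : X := a + τ • (w - a) with hz
  have hz0 : z ≠ 0 := hline0 τ
  have hseg : ∀ s ∈ Ioo (0 : ℝ) τ, z + s • (a - w) ∈ A := by
    intro s hs
    have h1 : z + s • (a - w) = a + (τ - s) • (w - a) := by rw [hz]; module
    rw [h1]
    exact hlt _ (by linarith [hs.2]) (by linarith [hs.1])
  by_cases hzd : DifferentiableAt ℝ (fun z : X => ‖z‖) z
  · have hz2 : fderiv ℝ (fderiv ℝ T) z = 0 := by
      by_contra hne
      exact hτB.2 ⟨hz0, hzd, hne⟩
    have h1 := hT.local_unique hS hST hTS h2 hfin hz0 (hreg z hz0 hzd) hz2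
    have h3 : Tendsto (fun s : ℝ => z + s • (a - w)) (𝓝[>] 0) (𝓝 z) :=
      (line_tendsto z (a - w)).mono_left nhdsWithin_le_nhds
    have h4 : ∀ᶠ s : ℝ in 𝓝[>] 0, s ∈ Ioo (0 : ℝ) τ := Ioo_mem_nhdsGT hτ0
    obtain ⟨s, hs1, hs2⟩ := ((h3.eventually h1).and h4).exists
    exact (hseg s hs2).2.2 hs1
  · refine hT.kink_false hsurj hfin h2 hz0 hzd hτ0 (v := a - w) ?_ ?_ ?_ ?_
    · exact fun t ht => (hreg _ (hseg t ht).1 (hseg t ht).2.1).hX
    · exact fun t ht => (hreg _ (hseg t ht).1 (hseg t ht).2.1).hT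
    · intro t ht
      have hr := hreg _ (hseg t ht).1 (hseg t ht).2.1
      obtain ⟨ζ, -, hζ⟩ := hT.snd_eq_smul hfin (hseg t ht).1 hr.hX hr.hY hr.hT
      exact ⟨ζ, hζ⟩
    · exact fun t ht => (hseg t ht).2.2

end SphereIso

end Vale.Agent.P084
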