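import Mathlib
import Vale.Agent.Lib.P084F.AvgF
import Vale.Agent.Lib.P084F.FOavg

open Filter Topology Module Metric MeasureTheory Measure Set
open scoped NNReal ENNReal

namespace Vale.Agent.P084

variable {X Y : Type*} [NormedAddCommGroup X] [NormedSpace ℝ X] [NormedAddCommGroup Y]
  [NormedSpace ℝ Y] [FiniteDimensional ℝ X] [FiniteDimensional ℝ Y]
  [MeasurableSpace X] [BorelSpace X] [MeasurableSpace Y] [BorelSpace Y] {T : X → Y}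

section aux

variable {E F : Type*} [NormedAddCommGroup E] [NormedSpace ℝ E] [NormedAddCommGroup F]
  [NormedSpace ℝ F]

/-- finitely many separating functionals bound the norm from above -/
theorem sharp_lower [FiniteDimensional ℝ F] {n : ℕ} (Φ : Fin n → F →L[ℝ] ℝ)
    (hsep : ∀ w : F, (∀ i, Φ i w = 0) → w = 0) :
    ∃ c₀ : ℝ, 0 < c₀ ∧ ∀ w : F, c₀ * ‖w‖ ≤ ‖fun i => Φ i w‖ := by
  let A : F →ₗ[ℝ] (Fin n → ℝ) := LinearMap.pi fun i => (Φ i : F →ₗ[ℝ] ℝ)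
  have hA : ∀ w, A w = fun i => Φ i w := fun w => rfl
  have hker : LinearMap.ker A = ⊥ := by
    rw [LinearMap.ker_eq_bot']
    intro w hw
    apply hsep
    intro i
    have := congrFun hw i
    rw [hA] at this
    exact this
  obtain ⟨K, hK, hanti⟩ := A.exists_antilipschitzWith hker
  have hK' : (0 : ℝ) < K := hK
  refine ⟨(K : ℝ)⁻¹, inv_pos.mpr hK', fun w => ?_⟩
  have h1 := hanti.le_mul_dist w 0
  rw [dist_zero_right, map_zero, dist_zero_right, hA] at h1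
  rw [inv_mul_le_iff₀ hK']
  exact h1

/-- stability of the lower bound -/
theorem sharp_lower_near {n : ℕ} {Φ Ψ : Fin n → F →L[ℝ] ℝ} {c₀ : ℝ} (hc₀ : 0 < c₀)
    (h : ∀ w : F, c₀ * ‖w‖ ≤ ‖fun i => Φ i w‖) (hΨ : ∀ i, ‖Φ i - Ψ i‖ ≤ c₀ / 2) (w : F) :
    c₀ / 2 * ‖w‖ ≤ ‖fun i => Ψ i w‖ := by
  have h1 := h w
  have h2 : (fun i => Φ i w) = (fun i => Ψ i w) + fun i => (Φ i - Ψ i) w := by
    funext i
    simp
  have h3 : ‖fun i => (Φ i - Ψ i) w‖ ≤ c₀ / 2 * ‖w‖ := by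
    rw [pi_norm_le_iff_of_nonneg (by positivity)]
    intro i
    exact ((Φ i - Ψ i).le_opNorm w).trans (by gcongr; exact hΨ i)
  rw [h2] at h1
  have h4 := norm_add_le (fun i => Ψ i w) (fun i => (Φ i - Ψ i) w)
  linarith

/-- the estimate for one functional -/
theorem sharp_est {Φa Φc : F →L[ℝ] ℝ} {Fa Fc : E →L[ℝ] ℝ} {Da Dc : E →L[ℝ] F} {κ : E →L[ℝ] ℝ}
    {a c : E} {Ta Tc : F} {L M δ R s : ℝ}
    (ha : ∀ u, Φa (Da u) = Fa u + (Φa Ta - Fa a) * (s * κ u))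
    (hc : ∀ u, Φc (Dc u) = Fc u)
    (hK : Φc Tc = Fc c)
    (hΦ : ‖Φa - Φc‖ ≤ L * δ) (hF : ‖Fa - Fc‖ ≤ L * δ) (hD : ‖Da‖ ≤ 3) (hκ : ‖κ‖ ≤ 1)
    (hM : ‖Φc‖ ≤ M) (hM' : ‖Fc‖ ≤ M) (hT : ‖Ta - Tc‖ ≤ 3 * δ) (hac : ‖a - c‖ ≤ δ)
    (hR : ‖a‖ ≤ R) (hR' : ‖Ta‖ ≤ R) (hs : 0 ≤ s) (hL : 0 ≤ L) (hM0 : 0 ≤ M) (hδ : 0 ≤ δ) (u : E) :
    ‖Φc ((Da - Dc) u)‖ ≤ (4 * L + (2 * L * R + 4 * M) * s) * δ * ‖u‖ := by
  have hKa : |Φa Ta - Fa a| ≤ (2 * L * R + 4 * M) * δ := by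
    have e1 : Φa Ta - Fa a = (Φa - Φc) Ta + Φc (Ta - Tc) - (Fa - Fc) a - Fc (a - c) := by
      simp only [_root_.sub_apply, map_sub]
      rw [hK]
      ring
    have b1 : ‖(Φa - Φc) Ta‖ ≤ L * δ * R := (ContinuousLinearMap.le_opNorm _ _).trans (by gcongr)
    have b2 : ‖Φc (Ta - Tc)‖ ≤ M * (3 * δ) := (ContinuousLinearMap.le_opNorm _ _).trans (by gcongr)
    have b3 : ‖(Fa - Fc) a‖ ≤ L * δ * R := (ContinuousLinearMap.le_opNorm _ _).trans (by gcongr)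
    have b4 : ‖Fc (a - c)‖ ≤ M * δ := (ContinuousLinearMap.le_opNorm _ _).trans (by gcongr)
    rw [Real.norm_eq_abs] at b1 b2 b3 b4
    rw [abs_le] at b1 b2 b3 b4 ⊢
    rw [e1]
    constructor <;> nlinarith [b1.1, b1.2, b2.1, b2.2, b3.1, b3.2, b4.1, b4.2]
  have e2 : Φc ((Da - Dc) u) = (Fa - Fc) u + (Φa Ta - Fa a) * (s * κ u) - (Φa - Φc) (Da u) := by
    have h1 := ha u
    have h2 := hc u
    simp only [_root_.sub_apply, map_sub]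
    rw [h1, h2]
    ring
  have c1 : ‖(Fa - Fc) u‖ ≤ L * δ * ‖u‖ := (ContinuousLinearMap.le_opNorm _ _).trans (by gcongr)
  have c2 : ‖(Φa Ta - Fa a) * (s * κ u)‖ ≤ (2 * L * R + 4 * M) * δ * (s * (1 * ‖u‖)) := by
    rw [norm_mul, norm_mul, Real.norm_of_nonneg hs, Real.norm_eq_abs]
    have hR0 : 0 ≤ R := (norm_nonneg _).trans hR
    have := (κ.le_opNorm u).trans (mul_le_mul_of_nonneg_right hκ (norm_nonneg u))
    gcongr
  have c3 : ‖(Φa - Φc) (Da u)‖ ≤ L * δ * (3 * ‖u‖) := by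
    refine (ContinuousLinearMap.le_opNorm _ _).trans ?_
    have := (Da.le_opNorm u).trans (mul_le_mul_of_nonneg_right hD (norm_nonneg u))
    gcongr
  rw [e2]
  refine (norm_sub_le _ _).trans ?_
  have c4 := norm_add_le ((Fa - Fc) u) ((Φa Ta - Fa a) * (s * κ u))
  have c5 : (4 * L + (2 * L * R + 4 * M) * s) * δ * ‖u‖ = L * δ * ‖u‖
    + (2 * L * R + 4 * M) * δ * (s * (1 * ‖u‖)) + L * δ * (3 * ‖u‖) := by ring
  rw [c5]
  linarith

end aux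

namespace SphereIso

/-
PROOF.  `avT_unif` for `T` and for the identity and `exists_fam_sep` give finitely many `(β i, ρ i)` such that the averages `Φ_i a = avT T (β i) (ρ i) a`,
`F_i a = avT id (β i) (ρ i) a` are Lipschitz on `ball x₀ (ρ i)`, and the `Φ_i x₀` separate `Y`.  Let `A a w = (Φ_i a w)_i ∈ Fin n → ℝ`.  `A x₀` is injective, so `‖A x₀ w‖ ≥ 2 c₀ ‖w‖`
(finite dimension: `LinearMap.exists_antilipschitzWith`), and `‖A c w‖ ≥ c₀ ‖w‖` for `c` near `x₀`.  For `a, c` near `x₀`, `Deg T c`: `avT_FO` at `a` and at `c`, where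
`K_i(c) = Φ_i c (T c) - F_i c c = 0` by `avT_deg`:
`A c ((D a - D c) u) = (A c - A a) (D a u) + (F a - F c) u + K(a) (‖a‖⁻¹ dN a u)`, `‖D a‖ ≤ 3` (`norm_fderiv_le_of_lipschitz`), `|K_i a| = |K_i a - K_i c| ≤ C ‖a - c‖` (Lipschitz, `T` is
`3`-Lipschitz), `‖dN a‖ ≤ 1`, `‖a‖ ≥ ‖x₀‖/2`.
-/
theorem sharp (hT : SphereIso T) (hsurj : Function.Surjective T)
    (hfin : finrank ℝ X = finrank ℝ Y) {x₀ : X} (hx₀ : x₀ ≠ 0) :
    ∃ ε > 0, ∃ C : ℝ, 0 ≤ C ∧ ∀ a ∈ ball x₀ ε, ∀ c ∈ ball x₀ ε, Deg T c →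
      ‖fderiv ℝ T a - fderiv ℝ T c‖ ≤ C * ‖a - c‖ := by
  obtain ⟨n, β, ρ, hP, hsep⟩ := hT.exists_fam_sep hsurj hfin hx₀
    (fun b₀ r => (∃ K : ℝ≥0, LipschitzOnWith K (avT T b₀ r) (ball x₀ r)) ∧
      (∃ K : ℝ≥0, LipschitzOnWith K (avT (fun x : X => x) b₀ r) (ball x₀ r)) ∧
      (∀ a ∈ ball x₀ r, ∀ b ∈ ball b₀ r, Om a b) ∧
      (∀ a : X, IntegrableOn (fun b => dN (Wv a b)) (ball b₀ r) (vol X)) ∧
      (∀ a : X, IntegrableOn (fun b => dN (Wv (T a) (T b))) (ball b₀ r) (vol X))) (by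
    refine Eventually.of_forall fun b₀ h => ?_
    obtain ⟨r₁, hr₁, h1⟩ := avT_unif Y hfin h
    obtain ⟨r₂, hr₂, h2⟩ := avT_unif X rfl h
    refine ⟨min r₁ r₂, lt_min hr₁ hr₂, fun r hr hrr => ?_⟩
    obtain ⟨K₁, hO, h1'⟩ := h1 r hr (hrr.trans_le (min_le_left _ _))
    obtain ⟨K₂, -, h2'⟩ := h2 r hr (hrr.trans_le (min_le_right _ _))
    obtain ⟨p1, p2⟩ := h1' T hT hsurj
    obtain ⟨q1, q2⟩ := h2' (fun x : X => x) id_iso (fun z => ⟨z, rfl⟩)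
    exact ⟨⟨K₁, p1⟩, ⟨K₂, q1⟩, hO, q2, p2⟩)
  obtain ⟨c₀, hc₀, hlow⟩ := sharp_lower (fun i => avT T (β i) (ρ i) x₀) hsep
  choose hρ hPP using hP
  choose K₁ hK₁ using fun i => (hPP i).1
  choose K₂ hK₂ using fun i => (hPP i).2.1
  -- the constants
  set L : ℝ := ∑ i, ((K₁ i : ℝ) + K₂ i) with hLdef
  have hL0 : 0 ≤ L := Finset.sum_nonneg fun i _ => by positivity
  have hL1 : ∀ i, (K₁ i : ℝ) ≤ L := fun i => by
    have := Finset.single_le_sum (f := fun i => ((K₁ i : ℝ) + K₂ i))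
      (fun j _ => by positivity) (Finset.mem_univ i)
    have h2 : (0 : ℝ) ≤ K₂ i := NNReal.coe_nonneg _
    linarith
  have hL2 : ∀ i, (K₂ i : ℝ) ≤ L := fun i => by
    have := Finset.single_le_sum (f := fun i => ((K₁ i : ℝ) + K₂ i))
      (fun j _ => by positivity) (Finset.mem_univ i)
    have h2 : (0 : ℝ) ≤ K₁ i := NNReal.coe_nonneg _
    linarith
  set M₀ : ℝ := ∑ i, (‖avT T (β i) (ρ i) x₀‖ + ‖avT (fun x : X => x) (β i) (ρ i) x₀‖) with hM₀def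
  have hM₀0 : 0 ≤ M₀ := Finset.sum_nonneg fun i _ => by positivity
  have hM1 : ∀ i, ‖avT T (β i) (ρ i) x₀‖ ≤ M₀ := fun i => by
    have := Finset.single_le_sum
      (f := fun i => (‖avT T (β i) (ρ i) x₀‖ + ‖avT (fun x : X => x) (β i) (ρ i) x₀‖))
      (fun j _ => by positivity) (Finset.mem_univ i)
    have h2 := norm_nonneg (avT (fun x : X => x) (β i) (ρ i) x₀)
    linarith
  have hM2 : ∀ i, ‖avT (fun x : X => x) (β i) (ρ i) x₀‖ ≤ M₀ := fun i => by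
    have := Finset.single_le_sum
      (f := fun i => (‖avT T (β i) (ρ i) x₀‖ + ‖avT (fun x : X => x) (β i) (ρ i) x₀‖))
      (fun j _ => by positivity) (Finset.mem_univ i)
    have h2 := norm_nonneg (avT T (β i) (ρ i) x₀)
    linarith
  set M : ℝ := M₀ + L with hMdef
  have hM0 : 0 ≤ M := by positivity
  have hxn : 0 < ‖x₀‖ := norm_pos_iff.mpr hx₀
  set R : ℝ := 2 * ‖x₀‖ with hRdef
  set s₀ : ℝ := 2 / ‖x₀‖ with hs₀def
  have hs₀ : 0 ≤ s₀ := by positivity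
  have hR0 : 0 ≤ R := by positivity
  -- the radius
  have hev : ∀ᶠ ε : ℝ in 𝓝[>] 0, 0 < ε ∧ ε ≤ 1 ∧ ε ≤ ‖x₀‖ / 2 ∧ L * ε ≤ c₀ / 2 ∧ ∀ i, ε ≤ ρ i := by
    have e1 : ∀ᶠ ε : ℝ in 𝓝[>] 0, 0 < ε := self_mem_nhdsWithin
    have e2 : ∀ᶠ ε : ℝ in 𝓝[>] 0, ε ≤ 1 :=
      eventually_nhdsWithin_of_eventually_nhds (ge_mem_nhds one_pos)
    have e3 : ∀ᶠ ε : ℝ in 𝓝[>] 0, ε ≤ ‖x₀‖ / 2 :=
      eventually_nhdsWithin_of_eventually_nhds (ge_mem_nhds (by positivity))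
    have e4 : ∀ᶠ ε : ℝ in 𝓝[>] 0, L * ε ≤ c₀ / 2 := by
      apply eventually_nhdsWithin_of_eventually_nhds
      have : Tendsto (fun ε : ℝ => L * ε) (𝓝 0) (𝓝 (L * 0)) := tendsto_id.const_mul L
      rw [mul_zero] at this
      exact this.eventually (ge_mem_nhds (by positivity))
    have e5 : ∀ᶠ ε : ℝ in 𝓝[>] 0, ∀ i, ε ≤ ρ i := Filter.eventually_all.mpr fun i =>
      eventually_nhdsWithin_of_eventually_nhds (ge_mem_nhds (hρ i))
    filter_upwards [e1, e2, e3, e4, e5] with ε h1 h2 h3 h4 h5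
    exact ⟨h1, h2, h3, h4, h5⟩
  obtain ⟨ε, hε0, hε1, hεx, hεc, hερ⟩ := hev.exists
  set C₁ : ℝ := 4 * L + (2 * L * R + 4 * M) * s₀ with hC₁def
  have hC₁0 : 0 ≤ C₁ := by positivity
  refine ⟨ε, hε0, 2 / c₀ * C₁, by positivity, fun a ha c hc hdeg => ?_⟩
  have hai : ∀ i, a ∈ ball x₀ (ρ i) := fun i => ball_subset_ball (hερ i) ha
  have hci : ∀ i, c ∈ ball x₀ (ρ i) := fun i => ball_subset_ball (hερ i) hc
  have hx₀i : ∀ i, x₀ ∈ ball x₀ (ρ i) := fun i => mem_ball_self (hρ i)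
  have hnear : ∀ z ∈ ball x₀ ε, ‖x₀‖ / 2 ≤ ‖z‖ ∧ ‖z‖ ≤ R ∧ z ≠ 0 := by
    intro z hz
    rw [mem_ball, dist_eq_norm] at hz
    have h1 := norm_sub_norm_le z x₀
    have h2 := norm_sub_norm_le x₀ z
    rw [norm_sub_rev] at h2
    have h3 : ‖x₀‖ / 2 ≤ ‖z‖ := by linarith
    refine ⟨h3, by rw [hRdef]; linarith, ?_⟩
    rintro rfl
    rw [norm_zero] at h3
    linarith
  obtain ⟨ha1, ha2, ha0⟩ := hnear a ha
  obtain ⟨hc1, hc2, hc0⟩ := hnear c hc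
  have hD : ‖fderiv ℝ T a‖ ≤ 3 := by
    have := norm_fderiv_le_of_lipschitz ℝ (x₀ := a) hT.lipschitz
    rwa [NNReal.coe_ofNat] at this
  have hTac : ‖T a - T c‖ ≤ 3 * ‖a - c‖ := by
    have := hT.lipschitz.dist_le_mul a c
    rwa [dist_eq_norm, dist_eq_norm, NNReal.coe_ofNat] at this
  have hsa : ‖a‖⁻¹ ≤ s₀ := by
    rw [hs₀def, ← inv_div]
    exact inv_anti₀ (by positivity) ha1
  have hinv0 : 0 ≤ ‖a‖⁻¹ := by positivity
  have hεx₀ : ∀ z ∈ ball x₀ ε, ‖z - x₀‖ ≤ ε := fun z hz => by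
    rw [mem_ball, dist_eq_norm] at hz
    exact hz.le
  have hΦL : ∀ i, ∀ z ∈ ball x₀ (ρ i), ∀ z' ∈ ball x₀ (ρ i),
      ‖avT T (β i) (ρ i) z - avT T (β i) (ρ i) z'‖ ≤ L * ‖z - z'‖ := fun i z hz z' hz' => by
    have := (hK₁ i).dist_le_mul z hz z' hz'
    rw [dist_eq_norm, dist_eq_norm] at this
    exact this.trans (mul_le_mul_of_nonneg_right (hL1 i) (norm_nonneg _))
  have hFL : ∀ i, ∀ z ∈ ball x₀ (ρ i), ∀ z' ∈ ball x₀ (ρ i),
      ‖avT (fun x : X => x) (β i) (ρ i) z - avT (fun x : X => x) (β i) (ρ i) z'‖ ≤ L * ‖z - z'‖ :=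
    fun i z hz z' hz' => by
    have := (hK₂ i).dist_le_mul z hz z' hz'
    rw [dist_eq_norm, dist_eq_norm] at this
    exact this.trans (mul_le_mul_of_nonneg_right (hL2 i) (norm_nonneg _))
  -- the lower bound at `c`
  have hlowc : ∀ w : Y, c₀ / 2 * ‖w‖ ≤ ‖fun i => avT T (β i) (ρ i) c w‖ := by
    refine sharp_lower_near hc₀ hlow fun i => ?_
    refine (hΦL i x₀ (hx₀i i) c (hci i)).trans (le_trans ?_ hεc)
    rw [norm_sub_rev]
    exact mul_le_mul_of_nonneg_left (hεx₀ c hc) hL0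
  -- the estimate
  have hmain : ∀ u : X, ‖(fderiv ℝ T a - fderiv ℝ T c) u‖ ≤ 2 / c₀ * C₁ * ‖a - c‖ * ‖u‖ := by
    intro u
    have h1 := hlowc ((fderiv ℝ T a - fderiv ℝ T c) u)
    have h2 : ‖fun i => avT T (β i) (ρ i) c ((fderiv ℝ T a - fderiv ℝ T c) u)‖
        ≤ C₁ * ‖a - c‖ * ‖u‖ := by
      rw [pi_norm_le_iff_of_nonneg (by positivity)]
      intro i
      obtain ⟨-, -, hOm, hI1, hI2⟩ := hPP i
      have hKc : avT T (β i) (ρ i) c (T c) = avT (fun x : X => x) (β i) (ρ i) c c :=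
        hT.avT_deg hsurj hfin hc0 hdeg (hOm c (hci i)) (hI1 c) (hI2 c)
      have h3 := sharp_est (κ := (dN a : X →L[ℝ] ℝ)) (s := ‖a‖⁻¹) (L := L) (M := M)
        (δ := ‖a - c‖) (R := R)
        (Φa := avT T (β i) (ρ i) a) (Φc := avT T (β i) (ρ i) c)
        (Fa := avT (fun x : X => x) (β i) (ρ i) a) (Fc := avT (fun x : X => x) (β i) (ρ i) c)
        (Da := fderiv ℝ T a) (Dc := fderiv ℝ T c) (a := a) (c := c) (Ta := T a) (Tc := T c)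
        (fun u => hT.avT_FO hsurj hfin ha0 (hOm a (hai i)) (hI1 a) (hI2 a) u)
        (fun u => by
          have := hT.avT_FO hsurj hfin hc0 (hOm c (hci i)) (hI1 c) (hI2 c) u
          rw [this, hKc]; ring)
        hKc (hΦL i a (hai i) c (hci i)) (hFL i a (hai i) c (hci i)) hD (norm_dN_le_one a)
        (by
          have e1 := hΦL i c (hci i) x₀ (hx₀i i)
          have e2 := norm_sub_norm_le (avT T (β i) (ρ i) c) (avT T (β i) (ρ i) x₀)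
          have e3 : L * ‖c - x₀‖ ≤ L * 1 :=
            mul_le_mul_of_nonneg_left ((hεx₀ c hc).trans hε1) hL0
          have e4 := hM1 i
          rw [hMdef]
          linarith)
        (by
          have e1 := hFL i c (hci i) x₀ (hx₀i i)
          have e2 := norm_sub_norm_le (avT (fun x : X => x) (β i) (ρ i) c)
            (avT (fun x : X => x) (β i) (ρ i) x₀)
          have e3 : L * ‖c - x₀‖ ≤ L * 1 :=
            mul_le_mul_of_nonneg_left ((hεx₀ c hc).trans hε1) hL0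
          have e4 := hM2 i
          rw [hMdef]
          linarith)
        hTac le_rfl ha2 (by rw [hT.norm_map]; exact ha2) hinv0 hL0 hM0 (norm_nonneg _) u
      refine h3.trans ?_
      rw [hC₁def]
      gcongr
    have h4 : c₀ / 2 * ‖(fderiv ℝ T a - fderiv ℝ T c) u‖ ≤ C₁ * ‖a - c‖ * ‖u‖ := h1.trans h2
    have h5 : 2 / c₀ * C₁ * ‖a - c‖ * ‖u‖ = 2 / c₀ * (C₁ * ‖a - c‖ * ‖u‖) := by ring
    have h6 : ‖(fderiv ℝ T a - fderiv ℝ T c) u‖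
        = 2 / c₀ * (c₀ / 2 * ‖(fderiv ℝ T a - fderiv ℝ T c) u‖) := by
      field_simp
    rw [h5, h6]
    exact mul_le_mul_of_nonneg_left h4 (by positivity)
  exact ContinuousLinearMap.opNorm_le_bound _ (by positivity) hmain

end SphereIso

end Vale.Agent.P084
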