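import Mathlib
import Vale.Agent.Lib.P084F.C11
import Vale.Agent.Lib.P084F.Cartan
import Vale.Agent.Lib.P084F.Sharp

open Filter Topology Module Metric MeasureTheory Measure Set
open scoped NNReal ENNReal

namespace Vale.Agent.P084

section isomaux

variable {E F : Type*} [NormedAddCommGroup E] [NormedSpace ℝ E] [NormedAddCommGroup F]
  [NormedSpace ℝ F]

/-- invariance of the derivative of the norm under linear isometries -/
theorem dN_isometryEquiv (M : E ≃ₗᵢ[ℝ] F) (z u : E) : dN (M z) (M u) = dN z u := by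
  have h : (fun w : E => ‖w‖) = (fun w : F => ‖w‖) ∘ (M.toContinuousLinearEquiv : E ≃L[ℝ] F) := by
    funext w
    simp
  unfold dN
  rw [h, ContinuousLinearEquiv.comp_right_fderiv]
  rfl

theorem Wv_isometryEquiv (M : E ≃ₗᵢ[ℝ] F) (a b : E) : Wv (M a) (M b) = M (Wv a b) := by
  rw [Wv_def, Wv_def, map_sub, map_smul, map_smul, M.norm_map, M.norm_map]

/-- a vector along which the norm has positive derivative is in the cone `Dir` -/
theorem mem_Dir_of_dN_pos {c u : E} (hd : DifferentiableAt ℝ (fun z : E => ‖z‖) c)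
    (hu : 0 < dN c u) : u ∈ Dir c := by
  have h1 : HasDerivAt (fun t : ℝ => c - t • u) (-u) 0 := by
    have := ((hasDerivAt_id (0 : ℝ)).smul_const u).const_sub c
    simpa using this
  have h2 : HasFDerivAt (fun z : E => ‖z‖) (dN c) ((fun t : ℝ => c - t • u) 0) := by
    simpa using hasFDerivAt_norm hd
  have h3 : HasDerivAt (fun t : ℝ => ‖c - t • u‖) (dN c (-u)) 0 := h2.comp_hasDerivAt 0 h1
  rw [map_neg] at h3
  have h4 := h3.hasDerivWithinAt (s := Set.Ioi (0 : ℝ))
  rw [hasDerivWithinAt_iff_tendsto_slope' (by simp)] at h4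
  have h5 : ∀ᶠ t in 𝓝[>] (0 : ℝ), slope (fun t : ℝ => ‖c - t • u‖) 0 t < 0 :=
    h4.eventually (gt_mem_nhds (by linarith))
  obtain ⟨t, ht, ht0⟩ := (h5.and self_mem_nhdsWithin).exists
  have ht0' : 0 < t := ht0
  refine ⟨t, ht0', ?_⟩
  rw [slope_def_field, sub_zero, zero_smul, sub_zero] at ht
  have := (div_neg_iff.mp ht)
  rcases this with h | h
  · linarith [h.2]
  · linarith [h.1]

end isomaux

variable {X Y : Type*} [NormedAddCommGroup X] [NormedSpace ℝ X] [NormedAddCommGroup Y]
  [NormedSpace ℝ Y] [FiniteDimensional ℝ X] [FiniteDimensional ℝ Y]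
  [MeasurableSpace X] [BorelSpace X] [MeasurableSpace Y] [BorelSpace Y] {T : X → Y}

namespace SphereIso

/-- the derivative of a surjective sphere isometry is continuous away from the origin -/
theorem continuousAt_fderiv (hT : SphereIso T) (hsurj : Function.Surjective T)
    (hfin : finrank ℝ X = finrank ℝ Y) {x₀ : X} (hx₀ : x₀ ≠ 0) :
    ContinuousAt (fderiv ℝ T) x₀ := by
  by_cases hdeg : Deg T x₀
  · obtain ⟨ε, hε, C, hC, h⟩ := sharp hT hsurj hfin hx₀
    rw [ContinuousAt, tendsto_iff_norm_sub_tendsto_zero]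
    have h1 : Tendsto (fun a : X => C * ‖a - x₀‖) (𝓝 x₀) (𝓝 0) := by
      have : ContinuousAt (fun a : X => C * ‖a - x₀‖) x₀ := by fun_prop
      have h2 := this.tendsto
      simpa using h2
    refine squeeze_zero' (Eventually.of_forall fun a => norm_nonneg _) ?_ h1
    filter_upwards [ball_mem_nhds x₀ hε] with a ha
    exact h a ha x₀ (mem_ball_self hε) hdeg
  · exact (nondeg_regular hT hsurj hfin hx₀ hdeg).2.2.continuousAt

theorem linear_of_smooth_deg (hT : SphereIso T) (hsurj : Function.Surjective T)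
    (hfin : finrank ℝ X = finrank ℝ Y) (hdim : 2 ≤ finrank ℝ X) {c : X} (hc : c ≠ 0)
    (hdeg : Deg T c) (hd : DifferentiableAt ℝ (fun z : X => ‖z‖) c) :
    ∃ L : X →L[ℝ] Y, ∀ x, T x = L x := by
  obtain ⟨hkap, L, hL, -, hLn⟩ := deg_main hT hsurj hfin hc hdeg
  have hnc : 0 < ‖c‖ := norm_pos_iff.mpr hc
  -- `L` is an isometry
  have hne : ∀ u, dN c u ≠ 0 → ‖L u‖ = ‖u‖ := by
    intro u hu
    rcases lt_or_gt_of_ne hu with h | h
    · have h1 : 0 < dN c (-u) := by rw [_root_.map_neg]; linarith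
      have h2 := hLn (-u) (mem_Dir_of_dN_pos hd h1)
      rwa [_root_.map_neg, norm_neg, norm_neg] at h2
    · exact hLn u (mem_Dir_of_dN_pos hd h)
  have hiso : ∀ u, ‖L u‖ = ‖u‖ := by
    intro u
    by_cases hu : dN c u = 0
    · have h1 : Tendsto (fun t : ℝ => ‖L (u + t • c)‖) (𝓝[≠] 0) (𝓝 ‖L u‖) := by
        have hcont : ContinuousAt (fun t : ℝ => ‖L (u + t • c)‖) 0 := by fun_prop
        have h := hcont.tendsto
        simp only [zero_smul, add_zero] at h
        exact h.mono_left nhdsWithin_le_nhds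
      have h2 : Tendsto (fun t : ℝ => ‖u + t • c‖) (𝓝[≠] 0) (𝓝 ‖u‖) := by
        have hcont : ContinuousAt (fun t : ℝ => ‖u + t • c‖) 0 := by fun_prop
        have h := hcont.tendsto
        simp only [zero_smul, add_zero] at h
        exact h.mono_left nhdsWithin_le_nhds
      refine tendsto_nhds_unique (h1.congr' ?_) h2
      filter_upwards [self_mem_nhdsWithin] with t ht
      apply hne
      rw [map_add, map_smul, hu, dN_self hd, zero_add, smul_eq_mul]
      exact mul_ne_zero ht hnc.ne'
    · exact hne u hu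
  -- the corrected map `g`
  let L' : X ≃ₗᵢ[ℝ] Y := ⟨L.toLinearEquiv, hiso⟩
  have hL' : ∀ u, L' u = L u := fun u => rfl
  let M : Y ≃ₗᵢ[ℝ] X := L'.symm
  have hML : ∀ u, M (L u) = u := fun u => L'.symm_apply_apply u
  have hLM : ∀ y, L (M y) = y := fun y => L'.apply_symm_apply y
  let g : X → X := fun x => M (T x)
  have hgdef : ∀ x, g x = M (T x) := fun x => rfl
  have hg : SphereIso g := by
    constructor
    · intro s x
      rw [hgdef, hgdef, hT.smul, map_smul]
    · intro a b hab
      rw [hgdef, hgdef, ← map_sub, M.norm_map, hT.dist a b hab]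
  have hgs : Function.Surjective g := by
    intro x
    obtain ⟨z, hz⟩ := hsurj (L x)
    exact ⟨z, by rw [hgdef, hz, hML]⟩
  have hTc : T c = L c := by
    have h1 := hT.fderiv_self hL.differentiableAt
    rw [hL.fderiv] at h1
    exact h1.symm
  have hgc : g c = c := by rw [hgdef, hTc, hML]
  have hgd : HasFDerivAt g (ContinuousLinearMap.id ℝ X) c := by
    have h1 := (M.toContinuousLinearEquiv : Y →L[ℝ] X).hasFDerivAt.comp c hL
    have h2 : ((M.toContinuousLinearEquiv : Y →L[ℝ] X)).comp (L : X →L[ℝ] Y)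
        = ContinuousLinearMap.id ℝ X := by
      ext u
      exact hML u
    rw [h2] at h1
    exact h1
  have hgdeg : Deg g c := by
    refine ⟨0, ?_⟩
    filter_upwards [hkap] with b hb hOm
    have h1 : kap g c b = kap T c b := by
      unfold kap
      rw [hgdef, hgdef, Wv_isometryEquiv, dN_isometryEquiv]
    rw [_root_.map_zero, h1, hb hOm]
  have hgcont : Continuous g := hg.lipschitz.continuous
  -- connectedness
  have hopen : IsOpen {x : X | ∀ᶠ y in 𝓝 x, g y = y} := isOpen_setOfPred_eventually_nhds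
  have hcmem : c ∈ {x : X | ∀ᶠ y in 𝓝 x, g y = y} :=
    cartan_local hg hgs hc hgc hgd (Or.inl hgdeg)
  have hrank : 1 < Module.rank ℝ X := by
    rw [← finrank_eq_rank]
    exact_mod_cast hdim
  have hconn : IsPreconnected ({0}ᶜ : Set X) :=
    (isConnected_compl_singleton_of_one_lt_rank hrank 0).isPreconnected
  have hsub : ({0}ᶜ : Set X) ⊆ {x : X | ∀ᶠ y in 𝓝 x, g y = y} := by
    refine hconn.subset_of_closure_inter_subset hopen ⟨c, hc, hcmem⟩ ?_
    rintro z ⟨hzcl, hz0⟩
    have hz : z ≠ 0 := hz0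
    have hgz : g z = z := by
      have hcl : IsClosed {x : X | g x = x} := isClosed_eq hgcont continuous_id
      have hsub : {x : X | ∀ᶠ y in 𝓝 x, g y = y} ⊆ {x : X | g x = x} := fun x hx => hx.self_of_nhds
      exact closure_minimal hsub hcl hzcl
    have hfz : fderiv ℝ g z = ContinuousLinearMap.id ℝ X := by
      have hca := continuousAt_fderiv hg hgs rfl hz
      have h1 := mem_closure_image hca hzcl
      have h2 : fderiv ℝ g '' {x : X | ∀ᶠ y in 𝓝 x, g y = y} ⊆
          {ContinuousLinearMap.id ℝ X} := by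
        rintro _ ⟨x, hx, rfl⟩
        have hx' : g =ᶠ[𝓝 x] (fun y => y) := hx
        rw [mem_singleton_iff, hx'.fderiv_eq]
        exact fderiv_fun_id
      have h3 := closure_mono h2 h1
      rwa [closure_singleton, mem_singleton_iff] at h3
    have hzd : HasFDerivAt g (ContinuousLinearMap.id ℝ X) z := by
      have := (differentiableAt_FO hg hgs rfl hz).1.hasFDerivAt
      rwa [hfz] at this
    refine cartan_local hg hgs hz hgz hzd ?_
    by_cases hdz : Deg g z
    · exact Or.inl hdz
    · right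
      obtain ⟨h1, h2, -⟩ := nondeg_regular hg hgs rfl hz hdz
      refine ⟨?_, h2.continuousAt⟩
      filter_upwards [h1] with a ha
      by_contra hnd
      exact ha.2 (deg_of_not_diff hg hgs rfl ha.1 hnd)
  refine ⟨(L : X →L[ℝ] Y), fun x => ?_⟩
  by_cases hx : x = 0
  · rw [hx, hT.map_zero, _root_.map_zero]
  · have h1 : g x = x := (hsub (show x ∈ ({0}ᶜ : Set X) from hx)).self_of_nhds
    calc T x = L (M (T x)) := (hLM _).symm
      _ = L (g x) := rfl
      _ = L x := by rw [h1]

end SphereIso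

end Vale.Agent.P084
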