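import Mathlib
import Vale.Agent.Lib.P084F.D2Main
import Vale.Agent.Lib.P084F.MainF

open Filter Topology Module Metric MeasureTheory Measure Set
open scoped NNReal ENNReal

namespace Vale.Agent.P084

section core

variable {X Y : Type*} [NormedAddCommGroup X] [NormedSpace ℝ X] [NormedAddCommGroup Y]
  [NormedSpace ℝ Y] [FiniteDimensional ℝ X] [FiniteDimensional ℝ Y]

/-- Homogeneous maps that are isometric on spheres are linear (dimension at least two). -/
theorem SphereIso.linear_of_two_le {T : X → Y} (hT : SphereIso T)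
    (hsurj : Function.Surjective T) (hdim : 2 ≤ finrank ℝ X) :
    ∃ L : X →L[ℝ] Y, ∀ x, T x = L x := by
  let _ : MeasurableSpace X := borel X
  have _ : BorelSpace X := ⟨rfl⟩
  let _ : MeasurableSpace Y := borel Y
  have _ : BorelSpace Y := ⟨rfl⟩
  have hfin : finrank ℝ X = finrank ℝ Y := hT.finrank_eq hsurj
  by_cases hsd : ∃ c : X, c ≠ 0 ∧ Deg T c ∧ DifferentiableAt ℝ (fun z : X => ‖z‖) c
  · obtain ⟨c, hc, hdeg, hd⟩ := hsd
    exact hT.linear_of_smooth_deg hsurj hfin (by omega) hc hdeg hd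
  have hns : ∀ a : X, a ≠ 0 → Deg T a → ¬ DifferentiableAt ℝ (fun z : X => ‖z‖) a :=
    fun a ha h1 h2 => hsd ⟨a, ha, h1, h2⟩
  obtain ⟨S, hS, hST, hTS⟩ := hT.exists_inverse hsurj
  have hSs : Function.Surjective S := fun x => ⟨T x, hST x⟩
  have hSne : ∀ y : Y, y ≠ 0 → S y ≠ 0 := fun y hy => hS.map_ne_zero hy
  -- nondegenerate points correspond
  have hDinv : ∀ a : X, a ≠ 0 → (Deg S (T a) ↔ Deg T a) := fun a ha =>
    hT.Deg_inv hsurj hfin hS hST hTS ha
  have hnsY : ∀ y : Y, y ≠ 0 → Deg S y → ¬ DifferentiableAt ℝ (fun z : Y => ‖z‖) y := by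
    intro y hy h1 h2
    have h3 : Deg T (S y) := by
      have := (hDinv (S y) (hSne y hy)).mp
      rw [hTS] at this
      exact this h1
    apply hns (S y) (hSne y hy) h3
    have h4 := (hT.differentiableAt_FO hsurj hfin (hSne y hy)).1
    have h5 : DifferentiableAt ℝ (fun z : Y => ‖z‖) (T (S y)) := by rw [hTS]; exact h2
    exact (hT.dN_comp h4 h5).differentiableAt
  have hN2 : ∀ a : X, a ≠ 0 → DifferentiableAt ℝ (fun z : X => ‖z‖) a →
      ContDiffAt ℝ 2 (fun z : X => ‖z‖) a := fun a ha hd =>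
    (hT.C2_of_nondeg hsurj hfin hns ha hd).1
  have hT2 : ∀ a : X, a ≠ 0 → DifferentiableAt ℝ (fun z : X => ‖z‖) a → ContDiffAt ℝ 2 T a :=
    fun a ha hd => (hT.C2_of_nondeg hsurj hfin hns ha hd).2
  have hYd : ∀ a : X, a ≠ 0 → DifferentiableAt ℝ (fun z : X => ‖z‖) a →
      DifferentiableAt ℝ (fun z : Y => ‖z‖) (T a) := by
    intro a ha hd
    have h1 : ¬ Deg S (T a) := by
      rw [hDinv a ha]
      exact fun h => hns a ha h hd
    by_contra h3
    exact h1 (hS.deg_of_not_diff hSs hfin.symm (hT.map_ne_zero ha) h3)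
  have hreg : ∀ a : X, a ≠ 0 → DifferentiableAt ℝ (fun z : X => ‖z‖) a → Reg2 T S a := by
    intro a ha hd
    have h := hS.C2_of_nondeg hSs hfin.symm hnsY (hT.map_ne_zero ha) (hYd a ha hd)
    exact ⟨hN2 a ha hd, h.1, hT2 a ha hd, h.2⟩
  have hT1 : ∀ a : X, a ≠ 0 → ContDiffAt ℝ 1 T a := by
    intro a ha
    rw [contDiffAt_one_iff]
    refine ⟨fderiv ℝ T, {0}ᶜ, isOpen_compl_singleton.mem_nhds ha, ?_, ?_⟩
    · intro x hx
      exact (hT.continuousAt_fderiv hsurj hfin hx).continuousWithinAt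
    · intro x hx
      exact (hT.differentiableAt_FO hsurj hfin hx).1.hasFDerivAt
  have hL : ∀ z : X, z ≠ 0 → ¬ DifferentiableAt ℝ (fun z : X => ‖z‖) z →
      ∀ u ∈ Dir z, ‖fderiv ℝ T z u‖ = ‖u‖ := by
    intro z hz hnd u hu
    obtain ⟨-, L, hL1, -, hL2⟩ := hT.deg_main hsurj hfin hz (hT.deg_of_not_diff hsurj hfin hz hnd)
    rw [hL1.fderiv]
    exact hL2 u hu
  have hop : ∀ a : X, a ≠ 0 → DifferentiableAt ℝ (fun z : X => ‖z‖) a →
      ∀ᶠ z in 𝓝 a, DifferentiableAt ℝ (fun z : X => ‖z‖) z := by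
    intro a ha hd
    have h1 := (hN2 a ha hd).eventually (by norm_num)
    filter_upwards [h1] with z hz
    exact hz.differentiableAt (by norm_num)
  have hzero : ∀ a : X, a ≠ 0 → DifferentiableAt ℝ (fun z : X => ‖z‖) a →
      fderiv ℝ (fderiv ℝ T) a = 0 := by
    intro a ha hd
    rcases hdim.eq_or_lt with h2 | h3
    · exact hT.snd_eq_zero_two hS hST hTS hsurj h2.symm hfin hreg ha hd
    · exact hT.snd_eq_zero_of_reg hsurj h3 hN2 (fun a ha hd => (hreg a ha hd).hY) hT2 hT1 hL ha hd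
  refine hT.linear_of_reg hdim hT2 hT1 hop hzero ?_
  intro x₀ hx₀
  obtain ⟨ε, hε, C, -, hC⟩ := hT.sharp hsurj hfin hx₀
  have hx0 : 0 < ‖x₀‖ := norm_pos_iff.mpr hx₀
  refine ⟨min ε ‖x₀‖, lt_min hε hx0, C, fun a ha c hc hnd => ?_⟩
  have hc0 : c ≠ 0 := by
    rintro rfl
    have h1 : ‖(0 : X) - x₀‖ < ‖x₀‖ := lt_of_lt_of_le (mem_ball_iff_norm.mp hc) (min_le_right _ _)
    rw [zero_sub, norm_neg] at h1
    exact lt_irrefl _ h1
  exact hC a (ball_subset_ball (min_le_left _ _) ha) c (ball_subset_ball (min_le_left _ _) hc)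
    (hT.deg_of_not_diff hsurj hfin hc0 hnd)

/-- Homogeneous maps that are isometric on spheres are linear (nonzero finite dimension). -/
theorem SphereIso.linear_all {T : X → Y} (hT : SphereIso T)
    (hsurj : Function.Surjective T) [Nontrivial X] : ∃ L : X →L[ℝ] Y, ∀ x, T x = L x := by
  have hpos : 0 < finrank ℝ X := finrank_pos
  rcases Nat.lt_or_ge 1 (finrank ℝ X) with h2 | h1
  · exact hT.linear_of_two_le hsurj h2
  · have h1' : finrank ℝ X = 1 := by omega
    obtain ⟨e, -, he⟩ := finrank_eq_one_iff'.mp h1'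
    have hadd : ∀ x y : X, T (x + y) = T x + T y := by
      intro x y
      obtain ⟨c, rfl⟩ := he x
      obtain ⟨d, rfl⟩ := he y
      rw [← add_smul, hT.smul, hT.smul, hT.smul, add_smul]
    let L : X →ₗ[ℝ] Y :=
      { toFun := T
        map_add' := hadd
        map_smul' := fun c x => hT.smul c x }
    exact ⟨LinearMap.toContinuousLinearMap L, fun x => rfl⟩

end core

variable {X Y : Type*} [NormedAddCommGroup X] [NormedSpace ℝ X] [NormedAddCommGroup Y]
  [NormedSpace ℝ Y]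

/-- Every finite-dimensional real normed space has the Mazur-Ulam property. -/
theorem main_all_finite [FiniteDimensional ℝ X]
    (f : sphere (0 : X) 1 → sphere (0 : Y) 1)
    (hf : Isometry f) (hsurj : Function.Surjective f) :
    ∃ L : X ≃ₗᵢ[ℝ] Y, ∀ x : sphere (0 : X) 1, L x = f x := by
  rcases subsingleton_or_nontrivial X with hX | hXnt
  · have hYs : Subsingleton Y := by
      by_contra hY
      rw [not_subsingleton_iff_nontrivial] at hY
      obtain ⟨u, hu⟩ := (NormedSpace.sphere_nonempty (x := (0 : Y)) (r := 1)).mpr zero_le_one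
      obtain ⟨x, -⟩ := hsurj ⟨u, hu⟩
      have h1 : ‖(x : X)‖ = 1 := by simp
      rw [Subsingleton.elim (x : X) 0, norm_zero] at h1
      exact zero_ne_one h1
    refine ⟨⟨(0 : X ≃ₗ[ℝ] Y), fun x => ?_⟩, fun x => Subsingleton.elim _ _⟩
    rw [Subsingleton.elim x 0, LinearEquiv.map_zero, norm_zero, norm_zero]
  have hYnt : Nontrivial Y := by
    obtain ⟨u, hu⟩ := (NormedSpace.sphere_nonempty (x := (0 : X)) (r := 1)).mpr zero_le_one
    refine ⟨⟨(f ⟨u, hu⟩ : Y), 0, ?_⟩⟩
    intro h0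
    have h1 : ‖(f ⟨u, hu⟩ : Y)‖ = 1 := by simp
    rw [h0, norm_zero] at h1
    exact zero_ne_one h1
  set T : X → Y := homExt f with hTdef
  have hT : SphereIso T := sphereIso_homExt_of_neg f hf (map_neg_of_isometry f hf hsurj)
  have hTs : Function.Surjective T := homExt_surjective f hsurj
  have hYfd : FiniteDimensional ℝ Y := hT.finiteDimensional hTs
  obtain ⟨L, hL⟩ := hT.linear_all hTs
  let Li : X →ₗᵢ[ℝ] Y := ⟨(L : X →ₗ[ℝ] Y), fun x => by
    have := hT.norm_map x
    rw [hL] at this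
    exact this⟩
  have hLs : Function.Surjective Li := by
    intro y
    obtain ⟨x, hx⟩ := hTs y
    exact ⟨x, by rw [← hx, hL]; rfl⟩
  refine ⟨LinearIsometryEquiv.ofSurjective Li hLs, fun x => ?_⟩
  have h1 : T (x : X) = f x := by
    have := homExt_smul_of_norm_one f zero_le_one x
    simpa using this
  rw [← h1, hL]
  rfl

end Vale.Agent.P084
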